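import Vale.Agent.P146.X7.H737_Fin
import Vale.Agent.P146.X7.H89_DeepHF
import Vale.Agent.P146.X7.H737_FoX
import Vale.Agent.P146.H641.UtcF
import Vale.Agent.P146.H260.VKc

/-!
Block F for the deep functionals at a general scale `x₀ ≥ n^(-1/6)`.
-/

open MeasureTheory ProbabilityTheory

namespace Vale.Agent.P146.X7.H737

open Vale.Agent.P157.Lv Vale.Agent.P146.H425 Vale.Agent.P146.H332 Vale.Agent.P146.H325
open Vale.Agent.P146.X7.H425 Vale.Agent.P146.X7.H332 Vale.Agent.P146.X7.H325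
open Vale.Agent.P146.R1 Vale.Agent.P146.X7.R1
open Vale.Agent.P146.H946 (Dz Hz Tz)
open Vale.Agent.P146.H260.V13 Vale.Agent.P146.H260.V14 Vale.Agent.P146.H641.Utc

set_option linter.unusedSectionVars false

variable {n : ℕ} {β : ℝ} {m σ : ℕ → ℝ} {J : ℕ}

/-- **The output of block F for the deep functional, on grids, above the scale `x₀`.** -/
theorem deep_outX {β : ℝ} (hβ : β ≠ 0) {ε α : ℝ} (hα : 0 < α) (hαε : 4 * α ≤ ε) :
    ∃ a : ℝ, 0 < a ∧ ∃ n₀ : ℝ, 2 ≤ n₀ ∧ ∀ n : ℕ, n₀ ≤ (n : ℝ) → ∀ x₀ : ℝ,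
      (n : ℝ) ^ (-(1 / 6) : ℝ) ≤ x₀ → ∀ (m σ : ℕ → ℝ) (J : ℕ),
      (∀ l < J, 0 < m l) → (n : ℝ) ^ (1 + ε : ℝ) * x₀ ^ 4 ≤ VK (Fz n β m σ J) x₀ →
      ∃ x θ T s1 s2 : ℝ, (∃ j : ℕ, x = 2 ^ j * x₀) ∧ θ = 1 / (a * Real.log n) ∧
        (∃ i : ℕ, T = (1 / 2) ^ i) ∧ x₀ ≤ x ∧ x ≤ x₀ * (n : ℝ) ^ α ∧
        (n : ℝ) ^ (1 + ε - α : ℝ) * x₀ ^ 6 ≤
          x ^ 2 * Phi x (Fz n β m σ J) (Gz n β m σ J) (1 - T) * T ∧
        FDatX n α ε (β ^ 2 / 2) (Fz n β m σ J) (Gz n β m σ J)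
        (fun x θ T s => Ht x θ (1 - T) (1 - T / 2) s (Fz n β m σ J) (Gz n β m σ J)
          (HHz n β m σ J)) x θ T
          (Phi x (Fz n β m σ J) (Gz n β m σ J) (1 - T)) s1 s2 := by
  have hb2 : 0 < β ^ 2 / 2 := by positivity
  obtain ⟨a, ha, n₀, h2, hf⟩ := f_finX hα hαε hb2 hb2.le
  refine ⟨a, ha, n₀, h2, fun n hn x₀ hx₀ m σ J hm hV => ?_⟩
  have hn0 : 0 < n := by
    have : (0 : ℝ) < n := by linarith
    exact_mod_cast this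
  obtain ⟨x, θ, T, ρ, s1, s2, hg1, hg2, hg3, hx1, hx2, hy, hρ, hd⟩ := hf n hn x₀ hx₀ (Pair n)
    _ _ _ _ _ _ _
    (sm_FD (m := m) (σ := σ) (H946.sk_sm (R1C.kk n β)) J hm) (cv_FD (c11_lz _ _) (cv_lz _ _) J hm)
    (deep_grad hn0 β hm) (deep_hK hn0 β hm) hV
  subst hρ
  exact ⟨x, θ, T, s1, s2, hg1, hg2, hg3, hx1, hx2, hy, hd⟩

/-- A point of the grid just above `x₀`. -/
lemma grid_above {y x₀ : ℝ} (hy : 0 < y) (h : y ≤ x₀) :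
    ∃ (i : ℕ) (x₁ : ℝ), x₁ = 2 ^ i * y ∧ x₀ ≤ x₁ ∧ x₁ ≤ 2 * x₀ := by
  have h1 : 1 ≤ x₀ / y := by rwa [le_div_iff₀ hy, one_mul]
  obtain ⟨i, hi1, hi2⟩ := exists_nat_pow_near h1 (show (1 : ℝ) < 2 by norm_num)
  refine ⟨i + 1, _, rfl, ?_, ?_⟩
  · rw [div_lt_iff₀ hy] at hi2
    exact hi2.le
  · rw [le_div_iff₀ hy] at hi1
    rw [pow_succ]
    linarith

/-- **Block F for the deep functional in the form used by the assembly**, at the scale `x₀`. -/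
theorem hFat {β : ℝ} (hβ : 0 < β) : HFat β := by
  intro Q hQ κ hκ hκ1 ε α c hα hαc hc hε
  have hα1 : α ≤ 1 / 8000 := by linarith
  obtain ⟨a, ha, n₀, h2, hout⟩ := deep_outX hβ.ne' (ε := ε - α / 2) (α := α / 2) (by positivity)
    (by linarith)
  have hε2 : 0 < (ε - α / 2) / 2 := by linarith
  obtain ⟨n₁, h1⟩ := Filter.eventually_atTop.1 ((H946.pow_exp_le hε2).and
    ((H946.gap_ev (show 0 < α / 2 by positivity) (show α / 2 < α by linarith) (β ^ 2 / 2)).and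
      ((Filter.eventually_ge_atTop (β ^ 2)).and
        ((tendsto_rpow_atTop (show 0 < α / 2 by positivity)).eventually_ge_atTop 80))))
  obtain ⟨n₂, h21, hcor⟩ := corner_cmp hβ.ne' (a := 11 / 102) (c₀ := 1 / 100) (b := 1 / 50)
    (by norm_num) (by norm_num) (by norm_num)
  obtain ⟨n₃, hq⟩ := hQ c α a hα hαc (by linarith) ha
  obtain ⟨N, hN⟩ := exists_nat_ge (max n₀ (max n₁ n₂))
  refine ⟨max n₃ N, fun n hn x0 hl hu hV => ?_⟩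
  have hnN : max n₀ (max n₁ n₂) ≤ (n : ℝ) := hN.trans (by exact_mod_cast (le_max_right _ _).trans hn)
  have hn0' : n₀ ≤ n := (le_max_left _ _).trans hnN
  have hn1' : n₁ ≤ n := ((le_max_left _ _).trans (le_max_right _ _)).trans hnN
  have hn2' : n₂ ≤ n := ((le_max_right _ _).trans (le_max_right _ _)).trans hnN
  obtain ⟨g1, g2, g3, g4⟩ := h1 n hn1'
  obtain ⟨m, σ, J, hL, hE, hQ'⟩ := hq n ((le_max_left _ _).trans hn)
  have hn2r : (2 : ℝ) ≤ n := h2.trans hn0'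
  have hn2 : 2 ≤ n := by exact_mod_cast hn2r
  have hn0 : 0 < n := by omega
  have hnr : (1 : ℝ) ≤ n := by linarith
  have hnp : (0 : ℝ) < n := by linarith
  have hx6 : 0 < (n : ℝ) ^ (-(1 / 6) : ℝ) := Real.rpow_pos_of_pos hnp _
  have hl6 : (n : ℝ) ^ (-(1 / 6) : ℝ) ≤ x0 :=
    (Real.rpow_le_rpow_of_exponent_le hnr (by linarith)).trans hl
  have hx00 : 0 < x0 := hx6.trans_le hl6
  obtain ⟨i, x1, hi, hx01, hx10⟩ := grid_above hx6 hl6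
  have hx1p : 0 < x1 := hx00.trans_le hx01
  have hl61 : (n : ℝ) ^ (-(1 / 6) : ℝ) ≤ x1 := hl6.trans hx01
  have e6 : (n : ℝ) ^ (1 / 6 : ℝ) * (n : ℝ) ^ (-(1 / 6) : ℝ) = 1 := by
    rw [← Real.rpow_add hnp]
    norm_num
  -- the entropy of the deep functional
  have hVE : (n : ℝ) ^ (1 + (ε - α / 2) : ℝ) * x1 ^ 4 ≤ VK (Fz n β m σ J) x1 := by
    have h3 : VX β n (x0 / 2) ≤ VK (Fz n β m σ J) x1 + 4 * (n : ℝ) ^ (1 / 6 : ℝ) / x1 := by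
      refine (VK_mono (c11_lz (β / √n) SkS) (cv_lz _ _) (by positivity)
        (by linarith : x0 / 2 ≤ x1 / 2)).trans ?_
      refine VK_cmp (c11_lz (β / √n) SkS) (cv_lz _ _) (c11_FD (c11_lz _ _) J hL.pos)
        (cv_FD (c11_lz _ _) (cv_lz _ _) J hL.pos) hx1p
        (fun z => (FD_lz (σ := σ) hn0 β hL.pos hL.le z).1)
        (fun z => (FD_lz (σ := σ) hn0 β hL.pos hL.le z).2.trans ?_)
      have := hL.sz
      linarith
    have h4 : (n : ℝ) ^ (1 / 6 : ℝ) / x1 ≤ (n : ℝ) ^ (1 + (ε - α / 2) : ℝ) * x1 ^ 4 := by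
      rw [div_le_iff₀ hx1p]
      have h5 : (n : ℝ) ^ (-(5 / 6) : ℝ) ≤ x1 ^ 5 := by
        calc (n : ℝ) ^ (-(5 / 6) : ℝ) = ((n : ℝ) ^ (-(1 / 6) : ℝ)) ^ 5 := by
              rw [← Real.rpow_natCast, ← Real.rpow_mul hnp.le]
              congr 1
              norm_num
          _ ≤ x1 ^ 5 := pow_le_pow_left₀ hx6.le hl61 5
      calc (n : ℝ) ^ (1 / 6 : ℝ) = (n : ℝ) ^ (1 : ℝ) * (n : ℝ) ^ (-(5 / 6) : ℝ) := by
            rw [← Real.rpow_add hnp]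
            norm_num
        _ ≤ (n : ℝ) ^ (1 + (ε - α / 2) : ℝ) * x1 ^ 5 := by
            refine mul_le_mul (Real.rpow_le_rpow_of_exponent_le hnr (by linarith)) h5
              (Real.rpow_nonneg hnp.le _) (Real.rpow_nonneg hnp.le _)
        _ = (n : ℝ) ^ (1 + (ε - α / 2) : ℝ) * x1 ^ 4 * x1 := by ring
    have h5 : 5 * ((n : ℝ) ^ (1 + (ε - α / 2) : ℝ) * x1 ^ 4) ≤ (n : ℝ) ^ (1 + ε : ℝ) * x0 ^ 4 := by
      have e : (n : ℝ) ^ (1 + ε : ℝ) =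
          (n : ℝ) ^ (α / 2) * (n : ℝ) ^ (1 + (ε - α / 2) : ℝ) := by
        rw [← Real.rpow_add hnp]
        congr 1
        ring
      have i1 : x1 ^ 4 ≤ 16 * x0 ^ 4 := by
        calc x1 ^ 4 ≤ (2 * x0) ^ 4 := pow_le_pow_left₀ hx1p.le hx10 4
          _ = 16 * x0 ^ 4 := by ring
      have i2 : 0 < (n : ℝ) ^ (1 + (ε - α / 2) : ℝ) := Real.rpow_pos_of_pos hnp _
      rw [e]
      calc 5 * ((n : ℝ) ^ (1 + (ε - α / 2) : ℝ) * x1 ^ 4) ≤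
            5 * ((n : ℝ) ^ (1 + (ε - α / 2) : ℝ) * (16 * x0 ^ 4)) := by gcongr
        _ = 80 * ((n : ℝ) ^ (1 + (ε - α / 2) : ℝ) * x0 ^ 4) := by ring
        _ ≤ (n : ℝ) ^ (α / 2) * ((n : ℝ) ^ (1 + (ε - α / 2) : ℝ) * x0 ^ 4) := by gcongr
        _ = _ := by ring
    have e3 : 4 * (n : ℝ) ^ (1 / 6 : ℝ) / x1 = 4 * ((n : ℝ) ^ (1 / 6 : ℝ) / x1) := by ring
    rw [e3] at h3
    linarith
  obtain ⟨x, θ, T, s1, s2, ⟨j, hj⟩, hθ, hTg, hxx, hxx2, hy, hd⟩ := hout n hn0' x1 hl61 m σ J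
    hL.pos hVE
  obtain ⟨ρ, hρ⟩ : ∃ ρ, ρ = Phi x (Fz n β m σ J) (Gz n β m σ J) (1 - T) := ⟨_, rfl⟩
  rw [← hρ] at hd hy
  have hx : 0 < x := hx1p.trans_le hxx
  have hx0x : x0 ≤ x := hx01.trans hxx
  have hxup : x ≤ x0 * (n : ℝ) ^ α := by
    calc x ≤ x1 * (n : ℝ) ^ (α / 2) := hxx2
      _ ≤ (2 * x0) * (n : ℝ) ^ (α / 2) := by gcongr
      _ ≤ (n : ℝ) ^ (α / 2) * x0 * (n : ℝ) ^ (α / 2) := by
          have : (2 : ℝ) ≤ (n : ℝ) ^ (α / 2) := by linarith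
          gcongr
      _ = x0 * (n : ℝ) ^ α := by
          have e : (n : ℝ) ^ α = (n : ℝ) ^ (α / 2) * (n : ℝ) ^ (α / 2) := by
            rw [← Real.rpow_add hnp]
            congr 1
            ring
          rw [e]
          ring
  have hx17 : x ≤ (n : ℝ) ^ (-(1 / 17) : ℝ) := by
    calc x ≤ x0 * (n : ℝ) ^ α := hxup
      _ ≤ (n : ℝ) ^ (-(1 / 6) + κ + α : ℝ) * (n : ℝ) ^ α := by gcongr
      _ = (n : ℝ) ^ (-(1 / 6) + κ + α + α : ℝ) := by rw [← Real.rpow_add hnp]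
      _ ≤ (n : ℝ) ^ (-(1 / 17) : ℝ) := Real.rpow_le_rpow_of_exponent_le hnr (by linarith)
  have hg : FGrid n a x θ T := by
    refine ⟨⟨j + i, ?_⟩, hθ, hTg⟩
    rw [hj, hi, pow_add]
    ring
  have hk : 0 < R1C.kk n β := H946.kk_pos hn0 hβ
  have hE' : Exs m J x := ⟨hx, (hx17.trans (Real.rpow_le_rpow_of_exponent_le hnr
    (by norm_num))).trans hE.x1, fun l hl => (hx17.trans (Real.rpow_le_rpow_of_exponent_le hnr
    (by norm_num))).trans (hE.ge l hl), hE.le, hE.anti⟩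
  have hx7 : x * (n : ℝ) ^ ((1 : ℝ) / 17) ≤ 1 := by
    calc x * (n : ℝ) ^ ((1 : ℝ) / 17) ≤ (n : ℝ) ^ (-(1 / 17) : ℝ) * (n : ℝ) ^ ((1 : ℝ) / 17) := by
          gcongr
      _ = 1 := by
          rw [← Real.rpow_add hnp]
          norm_num
  refine ⟨T, ρ, x, ⟨a, m, σ, J, θ, s1, s2, Real.exp (-(n : ℝ) ^ ((ε - α / 2) / 2)), hk, hE', ha,
    hQ', hL, hg, hd.θ_pos, hd.θ_le, hl6.trans hx0x, ?_⟩, hd.T_pos, hd.T_le, hd.ρ_pos, ?_, hx0x,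
    hxup, ?_, fun hT => ?_⟩
  · obtain ⟨B, L, M, T3, hS⟩ := sm_Fz (n := n) (β := β) (σ := σ) hL.pos
    exact fo_of_fdatx_S hn2 hβ (by positivity) (by linarith)
      (by linarith) g3 g2 g1 hx7 (R1S.deepCS n hk σ hE') hS hd
  · have := hd.ρ_le
    linarith
  · refine le_trans ?_ hy
    calc (n : ℝ) ^ (1 + ε - 3 * α) * x0 ^ 6 ≤
          (n : ℝ) ^ (1 + (ε - α / 2) - α / 2 : ℝ) * x1 ^ 6 := by
          refine mul_le_mul (Real.rpow_le_rpow_of_exponent_le hnr (by linarith))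
            (pow_le_pow_left₀ hx00.le hx01 6) (by positivity) (Real.rpow_nonneg hnp.le _)
      _ = _ := rfl
  · rw [hρ]
    refine hcor n hn2' _ _ _ _ (c11_FD (c11_lz _ _) J hL.pos)
      (cv_FD (c11_lz _ _) (cv_lz _ _) J hL.pos)
      (fun z => (FD_lz (σ := σ) hn0 β hL.pos hL.le z).1)
      (fun z => (FD_lz (σ := σ) hn0 β hL.pos hL.le z).2.trans ?_) x (hl6.trans hx0x)
      (hx17.trans (Real.rpow_le_rpow_of_exponent_le hnr (by norm_num))) T hd.T_pos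
      hd.T_le hT
    have h8 : (n : ℝ) ^ (1 / 6 : ℝ) ≤ (n : ℝ) ^ (1 / 3 : ℝ) :=
      Real.rpow_le_rpow_of_exponent_le hnr (by norm_num)
    have h9 := hL.sz
    linarith

/-- **The exponential moments at all scales `x ∈ [n^(-1/6), n^(-a)]`**, all `β > 0`. -/
theorem upM {β : ℝ} (hβ : 0 < β) {a : ℝ} (ha : 179 / 3000 < a) : H695.UpM β a :=
  upM_of_hF hβ (hFat hβ) ha

end Vale.Agent.P146.X7.H737
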