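import Vale.Agent.P146.X7.H712_BtSum
import Vale.Agent.P146.H941.TwoS
import Vale.Agent.P146.X7.H425_FoN
import Vale.Agent.P146.H785.Star

/-!
Bulk transfer, the sum over the pairs of rows for a position system `S : CS n (kk n β) q.x` which
satisfies the output `Fo` of the block F: the smallness functional `Th` is, on the average over the
pairs, at most `NN² (3 A / (x² ρ T) + 16 A² / (n T))`.
-/

open MeasureTheory ProbabilityTheory Matrix

namespace Vale.Agent.P146.X7.H712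

open Vale.Agent.P146.H712

open Vale.Agent.P157.Lv Vale.Agent.P146.H425 Vale.Agent.P146.H325
  Vale.Agent.P146.H332 Vale.Agent.P146.R1 Vale.Agent.P146.R1C Vale.Agent.P146.H633
  Vale.Agent.P146.R1S
open Vale.Agent.P146.X7.H425 Vale.Agent.P146.X7.H325 Vale.Agent.P146.X7.H332 Vale.Agent.P146.X7.R1 Vale.Agent.P146.X7.R1C Vale.Agent.P146.X7.H633 Vale.Agent.P146.X7.R1S

set_option linter.unusedSectionVars false

section gen

variable {n : ℕ} {k x : ℝ} (S : CS n k x) (s : ℝ)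

/-- The size of the defect of the four point functions. -/
noncomputable def KV (z : Pair n → ℝ) : ℝ := KT (S.T4 s z) (S.A s z)

lemma KV_nonneg (z : Pair n → ℝ) : 0 ≤ KV S s z := KT_nonneg _ _

lemma tT_eg (i j p l : Fin n) : EG fun z => S.T4 s z i j p l := by
  have e : (fun z => S.T4 s z i j p l) = fun z => ∑ σ, (pr i j σ * pr p l σ) * S.mu s z σ := by
    funext z
    rw [S.T4_mu]
    exact Finset.sum_congr rfl fun σ _ => mul_comm _ _
  rw [e]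
  exact EG.sum _ fun σ _ => (S.eg_mu s σ).const_mul _

lemma tT_abs (z : Pair n → ℝ) (i j p l : Fin n) : |S.T4 s z i j p l| ≤ 1 := by
  rw [S.T4_mu]
  refine (Finset.abs_sum_le_sum_abs _ _).trans (le_of_eq ?_)
  rw [← S.mu1 s z]
  refine Finset.sum_congr rfl fun σ _ => ?_
  rw [abs_mul, abs_mul, R1S.abs_pr, R1S.abs_pr, mul_one, mul_one, abs_of_nonneg (S.mu0 s z σ)]

lemma eg_KV : EG (KV S s) := by
  unfold KV KT
  exact EG.sum _ fun i _ => EG.sum _ fun j _ => EG.sum _ fun p _ => EG.sum _ fun l _ =>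
    ((tT_eg S s i j p l).sub ((tA_eg S s i j).mul (tA_eg S s p l))).pow 2

lemma KV_le (z : Pair n → ℝ) : KV S s z ≤ 4 * (n : ℝ) ^ 4 := by
  unfold KV KT
  have h1 : ∀ i j p l, (S.T4 s z i j p l - S.A s z i j * S.A s z p l) ^ 2 ≤ 4 := by
    intro i j p l
    have a1 := abs_le.1 (tT_abs S s z i j p l)
    have a2 : |S.A s z i j * S.A s z p l| ≤ 1 := by
      rw [abs_mul]
      exact mul_le_one₀ (tA_abs S s z i j) (abs_nonneg _) (tA_abs S s z p l)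
    have a3 := abs_le.1 a2
    nlinarith
  refine (Finset.sum_le_sum fun i _ => Finset.sum_le_sum fun j _ => Finset.sum_le_sum fun p _ =>
    Finset.sum_le_sum fun l _ => h1 i j p l).trans (le_of_eq ?_)
  simp only [Finset.sum_const, Finset.card_univ, Fintype.card_fin, nsmul_eq_mul]
  ring

lemma tfr_le (z : Pair n → ℝ) : fr (S.A s z) ≤ (n : ℝ) ^ 2 := by
  unfold H332.fr
  have h1 : ∀ i j, S.A s z i j ^ 2 ≤ 1 := by
    intro i j
    have a1 := abs_le.1 (tA_abs S s z i j)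
    nlinarith
  refine (Finset.sum_le_sum fun i _ => Finset.sum_le_sum fun j _ => h1 i j).trans (le_of_eq ?_)
  simp only [Finset.sum_const, Finset.card_univ, Fintype.card_fin, nsmul_eq_mul]
  ring

lemma tpd (e : Pair n) (i j : Fin n) :
    PD e (fun z => S.A s z i j) (fun z => S.DA s e z i j) :=
  H785.pd_of_fd (G' := fun e z => S.DA s e z i j) (S.fd_A s i j) e

end gen

/-! ### numbers -/

lemma bt_n3 {n δ : ℝ} (hn : 2 ≤ n) (h0 : 0 ≤ δ) (hδ : n ^ 200 * δ ≤ 1) :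
    16 * n ^ 2 * (n ^ 2) ^ 2 * δ ≤ 1 / 4 := by
  have hn1 : 1 ≤ n := by linarith
  have a2 : (64 : ℝ) ≤ n ^ 6 := by
    calc (64 : ℝ) = 2 ^ 6 := by norm_num
      _ ≤ _ := pow_le_pow_left₀ (by norm_num) hn 6
  have a3 : n ^ 12 * δ ≤ 1 := by
    refine le_trans (mul_le_mul_of_nonneg_right ?_ h0) hδ
    exact pow_le_pow_right₀ hn1 (by norm_num)
  have a6 : 0 ≤ n ^ 6 * δ := by positivity
  have a4 := mul_le_mul_of_nonneg_right a2 a6
  have a5 : n ^ 6 * (n ^ 6 * δ) = n ^ 12 * δ := by ring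
  have a7 : 16 * n ^ 2 * (n ^ 2) ^ 2 * δ = 16 * (n ^ 6 * δ) := by ring
  linarith

lemma bt_n4 {n A N s : ℝ} (hn : 2 ≤ n) (hA : A ≤ n ^ 2) (hN0 : 0 ≤ N)
    (hN : N ≤ n ^ 2) (hs : 0 ≤ s) (hs1 : s ≤ 1) :
    (n ^ 200)⁻¹ * n ^ 2 * (4 * n ^ 4 + 2 * (A * N) * s * n ^ 20 + 8 * (n ^ 2) ^ 2) ≤ 3 / 4 := by
  have hn1 : 1 ≤ n := by linarith
  have c1 : 2 * (A * N) * s * n ^ 20 ≤ 2 * n ^ 24 := by
    have d1 : A * N ≤ n ^ 2 * n ^ 2 := mul_le_mul hA hN hN0 (by positivity)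
    have d2 : A * N * s ≤ n ^ 2 * n ^ 2 * 1 := mul_le_mul d1 hs1 hs (by positivity)
    have d3 := mul_le_mul_of_nonneg_right d2 (by positivity : 0 ≤ 2 * n ^ 20)
    have d4 : n ^ 2 * n ^ 2 * 1 * (2 * n ^ 20) = 2 * n ^ 24 := by ring
    have d5 : A * N * s * (2 * n ^ 20) = 2 * (A * N) * s * n ^ 20 := by ring
    linarith
  have c2 : n ^ 4 ≤ n ^ 24 := pow_le_pow_right₀ hn1 (by norm_num)
  have c3 : (32 : ℝ) ≤ n ^ 5 := by
    calc (32 : ℝ) = 2 ^ 5 := by norm_num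
      _ ≤ _ := pow_le_pow_left₀ (by norm_num) hn 5
  have c4 : n ^ 31 ≤ n ^ 200 := pow_le_pow_right₀ hn1 (by norm_num)
  have c7 : (n ^ 2) ^ 2 = n ^ 4 := by ring
  have c5 : 4 * n ^ 4 + 2 * (A * N) * s * n ^ 20 + 8 * (n ^ 2) ^ 2 ≤ 14 * n ^ 24 := by
    rw [c7]
    linarith
  have d1 : (32 : ℝ) * n ^ 26 ≤ n ^ 5 * n ^ 26 := mul_le_mul_of_nonneg_right c3 (by positivity)
  have d2 : n ^ 5 * n ^ 26 = n ^ 31 := by ring
  have d3 : n ^ 2 * (14 * n ^ 24) = 14 * n ^ 26 := by ring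
  have d4 : (0 : ℝ) ≤ n ^ 26 := by positivity
  have c6 := mul_le_mul_of_nonneg_left c5 (by positivity : 0 ≤ n ^ 2)
  rw [mul_assoc, inv_mul_le_iff₀ (by positivity)]
  linarith

section fo

variable {n : ℕ} {β A δ T ρ : ℝ} {q : Par}

lemma Fo_A_le {F : (Pair n → ℝ) → ℝ} {AM : ℝ → (Pair n → ℝ) → Matrix (Fin n) (Fin n) ℝ}
    {DM : ℝ → Pair n → (Pair n → ℝ) → Matrix (Fin n) (Fin n) ℝ}
    (h : Fo n β A δ T ρ q F AM DM) : A ≤ (n : ℝ) ^ 2 := by
  have b1 : A ≤ A ^ 40 := le_self_pow₀ h.A1 (by norm_num)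
  have b2 := h.ρA
  have b3 := h.ρn
  have hn := h.n0
  have b5 : β ^ 2 * n ≤ n * n := mul_le_mul_of_nonneg_right h.βn (by linarith)
  have b6 := h.ρ1
  nlinarith

lemma Fo_one_le {F : (Pair n → ℝ) → ℝ} {AM : ℝ → (Pair n → ℝ) → Matrix (Fin n) (Fin n) ℝ}
    {DM : ℝ → Pair n → (Pair n → ℝ) → Matrix (Fin n) (Fin n) ℝ}
    (h : Fo n β A δ T ρ q F AM DM) :
    (1 : ℝ) ≤ (n : ℝ) ^ 2 * (R1C.NN n β ρ) ^ 2 * (A / (q.x ^ 2 * ρ * T)) := by
  have hx := h.ok.x0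
  have hT := h.Tp
  have hρ := h.ρ1
  have hβ := h.β0
  have hn := h.n0
  have hA := h.A1
  set N := R1C.NN n β ρ with hN
  have hN2 : 2 * ρ ≤ N := by
    rw [hN]
    unfold R1C.NN
    rw [le_div_iff₀ (by positivity)]
    exact mul_le_mul_of_nonneg_left h.βn (by positivity : (0 : ℝ) ≤ 2 * ρ)
  have f1 : q.x ^ 2 * ρ * T ≤ ρ := by
    have g1 : q.x ^ 2 ≤ 1 := pow_le_one₀ hx.le h.ok.x1
    calc q.x ^ 2 * ρ * T ≤ 1 * ρ * 1 :=
          mul_le_mul (mul_le_mul_of_nonneg_right g1 (by positivity)) h.T1 hT.le (by positivity)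
      _ = ρ := by ring
  have f2 : ρ ≤ N ^ 2 := by nlinarith
  have g1 : (1 : ℝ) ≤ (n : ℝ) ^ 2 * A :=
    one_le_mul_of_one_le_of_one_le (one_le_pow₀ (by linarith)) hA
  have f3 := mul_le_mul_of_nonneg_right g1 (sq_nonneg N)
  have hxT : 0 < q.x ^ 2 * ρ * T := by positivity
  rw [← mul_div_assoc, le_div_iff₀ hxT, one_mul]
  linarith

/-- one position -/
theorem bt3_pos (S : CS n (kk n β) q.x) (h : Fo n β A δ T ρ q S.F S.A S.DA)
    (hL : Law2 n ((n : ℝ) ^ 200)⁻¹ q S.F) {s : ℝ} (hs : 0 < s) (hs1 : s ≤ 1)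
    {P : (K4 (Pair n) → ℝ) → Pair n → ℝ}
    (hP : ∀ f : (Pair n → ℝ) → ℝ, EG f → EG fun w => f (P w))
    (hA : ∀ f : (Pair n → ℝ) → ℝ, EG f → ∀ (R : Finset (Pair n)) (w),
      Av (lf R) (fun w => f (P w)) w = AvP s R f (P w))
    (hup : En q S.F (fun w => if A * R1C.NN n β ρ < fr (S.A s (P w)) then (1 : ℝ) else 0) ≤ δ)
    (hrt : En q S.F (fun w => rt S.DA s (P w)) ≤ A * R1C.NN n β ρ / T)
    (hKR : ∀ z, rt S.DA s z ≤ (n : ℝ) ^ 20) :
    ∑ b : Fin n, ∑ b' ∈ Finset.univ.erase b,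
        En q S.F (fun w => Th s (row b ∪ row b') (S.A s) (KV S s) (P w)) ≤
      n ^ 2 * (R1C.NN n β ρ) ^ 2 * (3 * A / (q.x ^ 2 * ρ * T) + 16 * A ^ 2 / (n * T)) := by
  have hc := S.c11
  have hx := S.x0
  have hn2 : (2 : ℝ) ≤ n := h.n0
  have hnp : (0 : ℝ) < n := by linarith
  have hA1 := h.A1
  have hAp : 0 < A := by linarith
  have hNp := h.N0
  have hT := h.Tp
  have hρ1 := h.ρ1
  have hkN := kk_NN h
  have hk2 : 0 < kk n β ^ 2 := by have := S.k0; positivity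
  have hε : (0 : ℝ) ≤ ((n : ℝ) ^ 200)⁻¹ := by positivity
  have hlaw : ∀ b b' : Fin n, b ≠ b' → LLow q S.F (row b ∪ row b') ((n : ℝ) ^ 200)⁻¹ := by
    intro b b' _ f hf K h0 hK
    exact hL.nlow hc hx b b' hf h0 hK
  have main := bt3 (q := q) (F := S.F) (s := s) (P := P) (C := S.A s) (DC := S.DA s)
    (K := KV S s) hc hx hs.le hP hA hε hlaw (fun i j => tA_eg S s i j)
    (fun e i j => tpd S s e i j) (fun e i j => S.eg_DA s e i j) (eg_KV S s)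
    (fun z => KV_nonneg S s z) (n2 := (n : ℝ) ^ 2) (B := A * R1C.NN n β ρ)
    (KK := 4 * (n : ℝ) ^ 4) (KR := (n : ℝ) ^ 20) (by positivity) (fun z => tfr_le S s z)
    (fun z => KV_le S s z) hKR
  have t4 := bt_n4 (s := s) hn2 (Fo_A_le h) hNp.le h.NN_le hs.le hs1
  have t5 := Fo_one_le h
  have t3' := bt_n3 hn2 h.δ0 h.δn
  -- the tensors
  have hK : En q S.F (fun w => KV S s (P w)) ≤
      2 / (kk n β ^ 2 * q.x ^ 2) * (A * R1C.NN n β ρ / T) := by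
    have hrate : EG fun w => rt S.DA s (P w) := hP _ (by
      unfold rt
      exact EG.sum _ fun e _ => eg_frC fun i j => S.eg_DA s e i j)
    have h1 := En_mono hc hx (hP _ (eg_KV S s)) (hrate.const_mul (2 / (kk n β ^ 2 * q.x ^ 2)))
      fun w => by
        have h2 := S.kov hs (P w)
        have h3 : kk n β ^ 2 * q.x ^ 2 / 2 * KV S s (P w) ≤ rt S.DA s (P w) := h2
        rw [div_mul_eq_mul_div, le_div_iff₀ (by positivity)]
        linarith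
    rw [En_const_mul] at h1
    exact h1.trans (mul_le_mul_of_nonneg_left hrt (by positivity))
  have hχ : En q S.F (fun w => chi (A * R1C.NN n β ρ) (S.A s) (P w)) ≤ δ := hup
  have hR : En q S.F (fun w => ∑ e, fr (S.DA s e (P w))) ≤ A * R1C.NN n β ρ / T := hrt
  have h0 : 0 ≤ En q S.F (fun w => ∑ e, fr (S.DA s e (P w))) :=
    En_nonneg fun w => Finset.sum_nonneg fun e _ => frn _
  generalize En q S.F (fun w => KV S s (P w)) = X1 at *
  generalize En q S.F (fun w => ∑ e, fr (S.DA s e (P w))) = X2 at *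
  generalize En q S.F (fun w => chi (A * R1C.NN n β ρ) (S.A s) (P w)) = X3 at *
  -- the numbers
  refine main.trans ?_
  clear main hlaw hup hrt hKR hP hA hL
  generalize R1C.NN n β ρ = N at *
  have hxT : 0 < q.x ^ 2 * ρ * T := by positivity
  have e1 : 2 * (n : ℝ) ^ 2 * (2 / (kk n β ^ 2 * q.x ^ 2) * (A * N / T)) =
      n ^ 2 * N ^ 2 * (2 * A / (q.x ^ 2 * ρ * T)) := by
    have : ρ = kk n β ^ 2 * N / 2 := by linarith
    rw [this]
    field_simp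
  have e2 : 16 * (n : ℝ) * (A * N) * 1 * (A * N / T) =
      n ^ 2 * N ^ 2 * (16 * A ^ 2 / (n * T)) := by
    field_simp
  have t1 : 2 * (n : ℝ) ^ 2 * X1 ≤ n ^ 2 * N ^ 2 * (2 * A / (q.x ^ 2 * ρ * T)) := by
    rw [← e1]
    exact mul_le_mul_of_nonneg_left hK (by positivity)
  have t2 : 16 * (n : ℝ) * (A * N) * s * X2 ≤ n ^ 2 * N ^ 2 * (16 * A ^ 2 / (n * T)) := by
    rw [← e2]
    refine mul_le_mul ?_ hR h0 (by positivity)
    exact mul_le_mul_of_nonneg_left hs1 (by positivity)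
  have t3 : 16 * (n : ℝ) ^ 2 * ((n : ℝ) ^ 2) ^ 2 * X3 ≤ 1 / 4 :=
    (mul_le_mul_of_nonneg_left hχ (by positivity)).trans t3'
  have e3 : (n : ℝ) ^ 2 * N ^ 2 * (3 * A / (q.x ^ 2 * ρ * T) + 16 * A ^ 2 / (n * T)) =
      n ^ 2 * N ^ 2 * (2 * A / (q.x ^ 2 * ρ * T)) + n ^ 2 * N ^ 2 * (16 * A ^ 2 / (n * T)) +
        n ^ 2 * N ^ 2 * (A / (q.x ^ 2 * ρ * T)) := by
    ring
  rw [e3]
  linarith

/-- **(BT3)** at the time `s1`. -/
theorem bt3_two (S : CS n (kk n β) q.x) (h : Fo n β A δ T ρ q S.F S.A S.DA)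
    (hL : Law2 n ((n : ℝ) ^ 200)⁻¹ q S.F) (hKR : ∀ s z, rt S.DA s z ≤ (n : ℝ) ^ 20) :
    ∑ b : Fin n, ∑ b' ∈ Finset.univ.erase b,
        En q S.F (fun w => Th q.s1 (row b ∪ row b') (S.A q.s1) (KV S q.s1) (P2 q w)) ≤
      n ^ 2 * (R1C.NN n β ρ) ^ 2 * (3 * A / (q.x ^ 2 * ρ * T) + 16 * A ^ 2 / (n * T)) := by
  have hT := h.Tp
  have hT1 := h.T1
  have h1 := h.hs1
  have h2 := h.hs12
  have h3 := h.hs2
  have h4 := h.ht1
  exact bt3_pos S h hL (by linarith) (by linarith) (fun f hf => eg_P2 hf)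
    (fun f hf R w => Av_lf_P2 h.ok hf R w) h.up2 h.rt2 fun z => hKR q.s1 z

/-- **(BT3)** at the time `s2`. -/
theorem bt3_three (S : CS n (kk n β) q.x) (h : Fo n β A δ T ρ q S.F S.A S.DA)
    (hL : Law2 n ((n : ℝ) ^ 200)⁻¹ q S.F) (hKR : ∀ s z, rt S.DA s z ≤ (n : ℝ) ^ 20) :
    ∑ b : Fin n, ∑ b' ∈ Finset.univ.erase b,
        En q S.F (fun w => Th q.s2 (row b ∪ row b') (S.A q.s2) (KV S q.s2) (P3 q w)) ≤
      n ^ 2 * (R1C.NN n β ρ) ^ 2 * (3 * A / (q.x ^ 2 * ρ * T) + 16 * A ^ 2 / (n * T)) := by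
  have hT := h.Tp
  have hT1 := h.T1
  have h1 := h.hs1
  have h2 := h.hs12
  have h3 := h.hs2
  have h4 := h.ht1
  exact bt3_pos S h hL (by linarith) (by linarith) (fun f hf => eg_P3 hf)
    (fun f hf R w => Av_lf_P3 h.ok hf R w) h.up3 h.rt3 fun z => hKR q.s2 z

/-- the sup bounds and the class of `Th`, for the position systems -/
lemma eg_ThS {k x : ℝ} (S : CS n k x) (s : ℝ) (R : Finset (Pair n)) :
    EG (Th s R (S.A s) (KV S s)) := eg_Th (fun i j => tA_eg S s i j) (eg_KV S s) s R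

lemma Th_le {k x : ℝ} (S : CS n k x) (s : ℝ) (R : Finset (Pair n)) (z : Pair n → ℝ) :
    Th s R (S.A s) (KV S s) z ≤ 12 * (n : ℝ) ^ 4 := by
  have hC : ∀ i j, EG fun z => S.A s z i j := fun i j => tA_eg S s i j
  have hf := eg_frC hC
  have hD := eg_Dlt hC s R
  have h0 : (0 : ℝ) ≤ (n : ℝ) ^ 2 := by positivity
  have a1 : AvP s R (KV S s) z ≤ 4 * (n : ℝ) ^ 4 := by
    have := AvP_mono (s := s) (R := R) (eg_KV S s) (EG.const _) (KV_le S s) z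
    rwa [AvP_const] at this
  have a2 : AvP s R (fun z => fr (S.A s z)) z ≤ (n : ℝ) ^ 2 := by
    have := AvP_mono (s := s) (R := R) hf (EG.const _) (tfr_le S s) z
    rwa [AvP_const] at this
  have a3 : AvP s R (Dlt s R (S.A s)) z ≤ 4 * (n : ℝ) ^ 2 := by
    have := AvP_mono (s := s) (R := R) hD (EG.const _) (fun z => Dlt_le hC (tfr_le S s) z) z
    rwa [AvP_const] at this
  have a4 : AvP s R (fun z => Dlt s R (S.A s) z * fr (S.A s z)) z ≤ 4 * (n : ℝ) ^ 4 := by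
    have := AvP_mono (s := s) (R := R) (hD.mul hf) (EG.const (4 * (n : ℝ) ^ 4)) (fun z => by
      have b1 := mul_le_mul (Dlt_le (s := s) (R := R) hC (tfr_le S s) z) (tfr_le S s z) (frn _)
        (by positivity)
      calc Dlt s R (S.A s) z * fr (S.A s z) ≤ 4 * (n : ℝ) ^ 2 * (n : ℝ) ^ 2 := b1
        _ = 4 * (n : ℝ) ^ 4 := by ring) z
    rwa [AvP_const] at this
  have a5 : AvP s R (fun z => fr (S.A s z)) z * AvP s R (Dlt s R (S.A s)) z ≤
      (n : ℝ) ^ 2 * (4 * (n : ℝ) ^ 2) :=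
    mul_le_mul a2 a3 (AvP_nonneg (fun z => Dlt_nonneg z) z) h0
  have a6 : (n : ℝ) ^ 2 * (4 * (n : ℝ) ^ 2) = 4 * (n : ℝ) ^ 4 := by ring
  unfold Th
  linarith

end fo

end Vale.Agent.P146.X7.H712
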