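import Vale.Agent.P146.X7.H191_KapK
import Vale.Agent.P146.X7.H712_BtS
import Vale.Agent.P146.H325.Kap

/-!
Plan R1, row (K): the weight `badK` of the bad bulks and its sum over the pairs of sites.
-/

open MeasureTheory ProbabilityTheory Matrix

namespace Vale.Agent.P146.X7.H191

open Vale.Agent.P146.H191

open Vale.Agent.P157.Lv Vale.Agent.P146.H425 Vale.Agent.P146.H325 Vale.Agent.P146.H332
  Vale.Agent.P146.H522 Vale.Agent.P146.H712 Vale.Agent.P146.H633 Vale.Agent.P146.R1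
  Vale.Agent.P146.R1C Vale.Agent.P146.R1S Vale.Agent.P146.Cum
open Vale.Agent.P146.X7.H425 Vale.Agent.P146.X7.H325 Vale.Agent.P146.X7.H332 Vale.Agent.P146.X7.H522 Vale.Agent.P146.X7.H712 Vale.Agent.P146.X7.H633 Vale.Agent.P146.X7.R1 Vale.Agent.P146.X7.R1C Vale.Agent.P146.X7.R1S

set_option linter.unusedSectionVars false

section defs

variable {n : ℕ} {k x : ℝ} (S : CS n k x) (s τ M : ℝ)

/-- the indicator of a small matrix -/
noncomputable def lo (z : Pair n → ℝ) : ℝ := if fr (S.A s z) < M then 1 else 0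

/-- the defect of the row of `b` -/
noncomputable def hds (b b' : Fin n) (z : Pair n → ℝ) : ℝ :=
  1 + R1S.ee S s b b' z - FA S s b b' z / n

/-- the weight of a bad bulk, not truncated -/
noncomputable def bad0 (X : Fin n → Fin n → (Pair n → ℝ) → ℝ) (b b' : Fin n)
    (z : Pair n → ℝ) : ℝ :=
  ((1 / (τ * M) ^ 2) * ThA S s b b' z + (n / (τ * M)) ^ 2 * hds S s b b' z ^ 2) +
    (2 * AvP s (row b ∪ row b') (lo S s (2 * M)) z + 1 / τ * X b b' z)

/-- **the weight of a bad bulk** -/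
noncomputable def badK (X : Fin n → Fin n → (Pair n → ℝ) → ℝ) (b b' : Fin n)
    (z : Pair n → ℝ) : ℝ := min 1 (bad0 S s τ M X b b' z)

variable {S s τ M}

lemma lo_nonneg (z : Pair n → ℝ) : 0 ≤ lo S s M z := by
  unfold lo; split_ifs <;> norm_num

lemma lo_le (z : Pair n → ℝ) : lo S s M z ≤ 1 := by
  unfold lo; split_ifs <;> norm_num

lemma eg_lo : EG (lo S s M) := by
  refine EG.of_bdd (C := 1) ?_ fun z => ?_
  · unfold lo
    exact Measurable.ite (measurableSet_lt (eg_frC fun i j => S.eg_A s i j).meas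
      measurable_const) measurable_const measurable_const
  · rw [abs_of_nonneg (lo_nonneg z)]
    exact lo_le z

lemma eg_eeS (b b' : Fin n) : EG (R1S.ee S s b b') :=
  eg_AvP (f := fun z => ∑ i, R1S.cl0 S s b b' z i ^ 2)
    (EG.sum _ fun i _ => (R1S.eg_cl0 S s b b' i).pow 2) s _

lemma eg_hds (b b' : Fin n) : EG (hds S s b b') := by
  have h : EG fun z => (1 + R1S.ee S s b b' z) - (n : ℝ)⁻¹ * FA S s b b' z :=
    ((EG.const 1).add (eg_eeS b b')).sub ((eg_FA S s b b').const_mul _)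
  have e : hds S s b b' = fun z => (1 + R1S.ee S s b b' z) - (n : ℝ)⁻¹ * FA S s b b' z := by
    funext z
    unfold hds
    ring
  rw [e]
  exact h

variable {X : Fin n → Fin n → (Pair n → ℝ) → ℝ}

lemma eg_bad0 (hX : ∀ b b', EG (X b b')) (b b' : Fin n) : EG (bad0 S s τ M X b b') :=
  (((eg_ThA S s b b').const_mul _).add (((eg_hds b b').pow 2).const_mul _)).add
    (((eg_AvP eg_lo s _).const_mul _).add ((hX b b').const_mul _))

lemma bad0_parts (hτ : 0 < τ) (hX : ∀ b b' z, 0 ≤ X b b' z) (b b' : Fin n) (z : Pair n → ℝ) :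
    0 ≤ (1 / (τ * M) ^ 2) * ThA S s b b' z ∧ 0 ≤ (n / (τ * M)) ^ 2 * hds S s b b' z ^ 2 ∧
      0 ≤ 2 * AvP s (row b ∪ row b') (lo S s (2 * M)) z ∧ 0 ≤ 1 / τ * X b b' z :=
  ⟨mul_nonneg (by positivity) (ThA_nonneg S s b b' z), by positivity,
    mul_nonneg (by norm_num) (AvP_nonneg (fun z => lo_nonneg z) z),
    mul_nonneg (by positivity) (hX b b' z)⟩

lemma bad0_nonneg (hτ : 0 < τ) (hX : ∀ b b' z, 0 ≤ X b b' z) (b b' : Fin n) (z : Pair n → ℝ) :
    0 ≤ bad0 S s τ M X b b' z := by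
  obtain ⟨h1, h2, h3, h4⟩ := bad0_parts (S := S) (s := s) (M := M) hτ hX b b' z
  unfold bad0
  linarith

lemma badK_nonneg (hτ : 0 < τ) (hX : ∀ b b' z, 0 ≤ X b b' z) (b b' : Fin n)
    (z : Pair n → ℝ) : 0 ≤ badK S s τ M X b b' z :=
  le_min zero_le_one (bad0_nonneg hτ hX b b' z)

lemma badK_le (b b' : Fin n) (z : Pair n → ℝ) : badK S s τ M X b b' z ≤ 1 := min_le_left _ _

lemma badK_le0 (b b' : Fin n) (z : Pair n → ℝ) :
    badK S s τ M X b b' z ≤ bad0 S s τ M X b b' z := min_le_right _ _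

lemma eg_badK (hτ : 0 < τ) (hX0 : ∀ b b' z, 0 ≤ X b b' z) (hX : ∀ b b', EG (X b b'))
    (b b' : Fin n) : EG (badK S s τ M X b b') := by
  refine EG.of_bdd (C := 1) ?_ fun z => ?_
  · exact measurable_const.min (eg_bad0 (S := S) (s := s) (τ := τ) (M := M) hX b b').meas
  · rw [abs_of_nonneg (badK_nonneg hτ hX0 b b' z)]
    exact badK_le b b' z

/-- **(K) off the bad bulks.** -/
theorem badK_lt {κ : ℝ} (hκ : 0 ≤ κ) (hτ : 0 < τ) (hM : 0 < M) (hn : 0 < n)
    (hnM : (n : ℝ) ≤ τ * M) (hX : ∀ b b' z, 0 ≤ X b b' z) (hG : KapG S s τ κ M X) {b b' : Fin n}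
    (hb : b ≠ b') {z : Pair n → ℝ} {v : Fin n → ℝ} (hv : Bv S s b b' z v)
    (hbad : badK S s τ M X b b' z < 1) :
    κ * (M / (n : ℝ) ^ 2) * R1S.ee S s b b' z ≤ Net k (S.A s) (S.H s) s b b' v z := by
  have hn0 : (0 : ℝ) < n := by exact_mod_cast hn
  have h0 : bad0 S s τ M X b b' z < 1 := by
    rcases min_lt_iff.1 hbad with h | h
    · exact absurd h (lt_irrefl _)
    · exact h
  obtain ⟨h1, h2, h3, h4⟩ := bad0_parts (S := S) (s := s) (M := M) hτ hX b b' z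
  unfold bad0 at h0
  have hτM : 0 < τ * M := by positivity
  -- the size of the matrix
  have hF : M ≤ FA S s b b' z := by
    have h5 : AvP s (row b ∪ row b') (fun z => 2 * M - 2 * M * lo S s (2 * M) z) z ≤
        FA S s b b' z := by
      refine AvP_mono ((EG.const _).sub (eg_lo.const_mul _)) (eg_frC fun i j => S.eg_A s i j)
        (fun z => ?_) z
      unfold lo
      split_ifs with h
      · have := frn (S.A s z)
        linarith
      · push Not at h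
        linarith
    rw [AvP_sub (EG.const _) (eg_lo.const_mul _), AvP_const, AvP_const_mul] at h5
    have h6 : 2 * AvP s (row b ∪ row b') (lo S s (2 * M)) z ≤ 1 := by linarith
    have h7 : 2 * M * AvP s (row b ∪ row b') (lo S s (2 * M)) z ≤ M := by
      calc 2 * M * AvP s (row b ∪ row b') (lo S s (2 * M)) z =
            M * (2 * AvP s (row b ∪ row b') (lo S s (2 * M)) z) := by ring
        _ ≤ M * 1 := mul_le_mul_of_nonneg_left h6 hM.le
        _ = M := mul_one M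
    linarith
  have hτF : τ * M ≤ τ * FA S s b b' z := mul_le_mul_of_nonneg_left hF hτ.le
  have hΘ : ThA S s b b' z ≤ (τ * FA S s b b' z) ^ 2 := by
    have h5 : 1 / (τ * M) ^ 2 * ThA S s b b' z ≤ 1 := by linarith
    rw [one_div_mul_eq_div, div_le_one (by positivity)] at h5
    exact h5.trans (pow_le_pow_left₀ hτM.le hτF 2)
  have hA : |1 + R1S.ee S s b b' z - FA S s b b' z / n| ≤ τ * (FA S s b b' z / n) := by
    have h5 : (n / (τ * M) * hds S s b b' z) ^ 2 ≤ 1 := by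
      rw [mul_pow]
      linarith
    have h6 : |n / (τ * M) * hds S s b b' z| ≤ 1 := (sq_le_one_iff_abs_le_one _).1 h5
    rw [abs_mul, abs_of_pos (by positivity : 0 < (n : ℝ) / (τ * M)), div_mul_eq_mul_div,
      div_le_one hτM] at h6
    have h7 : |hds S s b b' z| ≤ τ * M / n := by
      rw [le_div_iff₀ hn0]
      linarith
    refine h7.trans ?_
    rw [← mul_div_assoc]
    exact div_le_div_of_nonneg_right hτF hn0.le
  have hXτ : X b b' z ≤ τ := by
    have h5 : 1 / τ * X b b' z ≤ 1 := by linarith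
    rwa [one_div_mul_eq_div, div_le_one hτ] at h5
  have h9 := hG b b' z v hb hv (hM.trans_le hF) hF hΘ hA (hnM.trans hτF) hXτ
  refine le_trans ?_ h9
  have h11 := ee_nonneg (S := S) (s := s) b b' z
  gcongr

end defs

/-! ### the sum over the pairs -/

section sum

variable {n : ℕ} {β A δ T ρ : ℝ} {q : Par}

/-- **The sum of the weights of the bad bulks.** -/
theorem badK_sum (S : CS n (kk n β) q.x) (h : Fo n β A δ T ρ q S.F S.A S.DA)
    (hL : Law2 n ((n : ℝ) ^ 200)⁻¹ q S.F) (hKR : ∀ s z, rt S.DA s z ≤ (n : ℝ) ^ 20) {τ : ℝ}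
    (hτ : 0 < τ) {X : Fin n → Fin n → (Pair n → ℝ) → ℝ} (hX0 : ∀ b b' z, 0 ≤ X b b' z)
    (hX : ∀ b b', EG (X b b')) {H0 X0 : ℝ}
    (hh : ∑ b : Fin n, ∑ b' ∈ Finset.univ.erase b,
      En q S.F (fun w => hds S q.s1 b b' (P2 q w) ^ 2) ≤ H0)
    (hXs : ∑ b : Fin n, ∑ b' ∈ Finset.univ.erase b,
      En q S.F (fun w => X b b' (P2 q w)) ≤ X0) :
    ∑ b : Fin n, ∑ b' ∈ Finset.univ.erase b,
      En q S.F (fun w => badK S q.s1 τ (R1C.NN n β ρ / (2 * A)) X b b' (P2 q w)) ≤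
      64 * A ^ 4 / τ ^ 2 * (1 / (q.x ^ 2 * ρ * T) + 1 / (n * T)) * (n : ℝ) ^ 2 +
        4 * A ^ 2 * (n : ℝ) ^ 2 / (τ * R1C.NN n β ρ) ^ 2 * H0 + n + X0 / τ := by
  have hc := S.c11
  have hx := S.x0
  have hn2 : (2 : ℝ) ≤ n := h.n0
  have hn0 : (0 : ℝ) < n := by linarith
  have hA1 := h.A1
  have hA0 : 0 < A := by linarith
  have hN := h.N0
  have hT := h.Tp
  have hρ : 0 < ρ := by linarith [h.ρ1]
  set N := R1C.NN n β ρ with hNdef
  set M := N / (2 * A) with hM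
  have hM0 : 0 < M := by positivity
  have h2M : 2 * M = N / A := by
    rw [hM]
    field_simp
  -- one pair
  have hone : ∀ b b' : Fin n, En q S.F (fun w => badK S q.s1 τ M X b b' (P2 q w)) ≤
      ((1 / (τ * M) ^ 2) * En q S.F (fun w => ThA S q.s1 b b' (P2 q w)) +
        (n / (τ * M)) ^ 2 * En q S.F (fun w => hds S q.s1 b b' (P2 q w) ^ 2)) +
      (2 * (2 * δ + ((n : ℝ) ^ 200)⁻¹) + 1 / τ * En q S.F (fun w => X b b' (P2 q w))) := by
    intro b b'
    have g1 : EG fun w => ThA S q.s1 b b' (P2 q w) := eg_P2 (eg_ThA S q.s1 b b')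
    have g2 : EG fun w => hds S q.s1 b b' (P2 q w) ^ 2 :=
      eg_P2 (f := fun z => hds S q.s1 b b' z ^ 2) ((eg_hds b b').pow 2)
    have g3 : EG fun w => AvP q.s1 (row b ∪ row b') (lo S q.s1 (2 * M)) (P2 q w) :=
      eg_P2 (eg_AvP eg_lo _ _)
    have g4 : EG fun w => X b b' (P2 q w) := eg_P2 (hX b b')
    have g0 : EG fun w => badK S q.s1 τ M X b b' (P2 q w) :=
      eg_P2 (eg_badK hτ hX0 hX b b')
    have h1 := En_mono hc hx g0 (((g1.const_mul (1 / (τ * M) ^ 2)).add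
      (g2.const_mul ((n / (τ * M)) ^ 2))).add ((g3.const_mul 2).add (g4.const_mul (1 / τ))))
      fun w => badK_le0 b b' (P2 q w)
    rw [En_add hc hx ((g1.const_mul (1 / (τ * M) ^ 2)).add
      (g2.const_mul ((n / (τ * M)) ^ 2))) ((g3.const_mul 2).add (g4.const_mul (1 / τ))),
      En_add hc hx (g1.const_mul (1 / (τ * M) ^ 2)) (g2.const_mul ((n / (τ * M)) ^ 2)),
      En_add hc hx (g3.const_mul 2) (g4.const_mul (1 / τ)), En_const_mul, En_const_mul,
      En_const_mul, En_const_mul] at h1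
    have h2 : En q S.F (fun w => AvP q.s1 (row b ∪ row b') (lo S q.s1 (2 * M)) (P2 q w)) ≤
        2 * δ + ((n : ℝ) ^ 200)⁻¹ := by
      have e1 : (fun w => AvP q.s1 (row b ∪ row b') (lo S q.s1 (2 * M)) (P2 q w)) =
          Av (lf (row b ∪ row b')) fun w => lo S q.s1 (2 * M) (P2 q w) := by
        funext w
        exact (Av_lf_P2 h.ok eg_lo _ w).symm
      rw [e1]
      have h3 := hL.nlow hc hx b b' (f := fun w => lo S q.s1 (2 * M) (P2 q w)) (K := 1)
        (eg_P2 eg_lo) (fun w => lo_nonneg _) fun w => lo_le _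
      have h4 : En q S.F (fun w => lo S q.s1 (2 * M) (P2 q w)) ≤ δ := by
        rw [h2M]
        exact h.lo2
      linarith
    linarith
  have hsum := Finset.sum_le_sum fun b (_ : b ∈ Finset.univ) =>
    Finset.sum_le_sum fun b' (_ : b' ∈ Finset.univ.erase b) => hone b b'
  refine hsum.trans ?_
  simp only [sum_pairs_add, sum_pairs_mul]
  have hΘ := bt3_two S h hL hKR
  have hcst := sum_pairs_const (n := n) (2 * (2 * δ + ((n : ℝ) ^ 200)⁻¹)) (by
    have := h.δ0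
    positivity)
  have e1 : (1 / (τ * M) ^ 2) * ∑ b : Fin n, ∑ b' ∈ Finset.univ.erase b,
      En q S.F (fun w => ThA S q.s1 b b' (P2 q w)) ≤
      64 * A ^ 4 / τ ^ 2 * (1 / (q.x ^ 2 * ρ * T) + 1 / (n * T)) * (n : ℝ) ^ 2 := by
    have h1 : (1 / (τ * M) ^ 2) * ∑ b : Fin n, ∑ b' ∈ Finset.univ.erase b,
        En q S.F (fun w => ThA S q.s1 b b' (P2 q w)) ≤ (1 / (τ * M) ^ 2) *
        (n ^ 2 * N ^ 2 * (3 * A / (q.x ^ 2 * ρ * T) + 16 * A ^ 2 / (n * T))) :=
      mul_le_mul_of_nonneg_left hΘ (by positivity)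
    refine h1.trans ?_
    have h2 : (1 / (τ * M) ^ 2) *
        (n ^ 2 * N ^ 2 * (3 * A / (q.x ^ 2 * ρ * T) + 16 * A ^ 2 / (n * T))) =
        4 * A ^ 2 / τ ^ 2 * (3 * A / (q.x ^ 2 * ρ * T) + 16 * A ^ 2 / (n * T)) *
          (n : ℝ) ^ 2 := by
      rw [hM]
      field_simp
      ring
    rw [h2]
    have h3 : 3 * A / (q.x ^ 2 * ρ * T) + 16 * A ^ 2 / (n * T) ≤
        16 * A ^ 2 * (1 / (q.x ^ 2 * ρ * T) + 1 / (n * T)) := by
      have h4 : 3 * A ≤ 16 * A ^ 2 := by nlinarith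
      have h5 : 0 < q.x ^ 2 * ρ * T := by positivity
      have h6 : 3 * A / (q.x ^ 2 * ρ * T) ≤ 16 * A ^ 2 / (q.x ^ 2 * ρ * T) :=
        div_le_div_of_nonneg_right h4 h5.le
      calc 3 * A / (q.x ^ 2 * ρ * T) + 16 * A ^ 2 / (n * T) ≤
            16 * A ^ 2 / (q.x ^ 2 * ρ * T) + 16 * A ^ 2 / (n * T) := by linarith
        _ = _ := by ring
    calc 4 * A ^ 2 / τ ^ 2 * (3 * A / (q.x ^ 2 * ρ * T) + 16 * A ^ 2 / (n * T)) * (n : ℝ) ^ 2
        ≤ 4 * A ^ 2 / τ ^ 2 * (16 * A ^ 2 * (1 / (q.x ^ 2 * ρ * T) + 1 / (n * T))) *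
          (n : ℝ) ^ 2 := by gcongr
      _ = _ := by ring
  have e2 : (n / (τ * M)) ^ 2 * ∑ b : Fin n, ∑ b' ∈ Finset.univ.erase b,
      En q S.F (fun w => hds S q.s1 b b' (P2 q w) ^ 2) ≤
      4 * A ^ 2 * (n : ℝ) ^ 2 / (τ * N) ^ 2 * H0 := by
    have h1 := mul_le_mul_of_nonneg_left hh (by positivity : 0 ≤ ((n : ℝ) / (τ * M)) ^ 2)
    refine h1.trans (le_of_eq ?_)
    rw [hM]
    field_simp
    ring
  have e3 : ∑ _b : Fin n, ∑ _b' ∈ Finset.univ.erase _b, 2 * (2 * δ + ((n : ℝ) ^ 200)⁻¹) ≤ n := by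
    refine hcst.trans ?_
    have h1 : (n : ℝ) ^ 200 * δ ≤ 1 := h.δn
    have h0 := h.δ0
    have h2 : δ ≤ ((n : ℝ) ^ 200)⁻¹ := by
      rw [← one_div, le_div_iff₀ (by positivity)]
      linarith
    have h3 : ((n : ℝ) ^ 200)⁻¹ ≤ ((n : ℝ) ^ 4)⁻¹ :=
      inv_anti₀ (by positivity) (pow_le_pow_right₀ (by linarith) (by norm_num))
    have h4 : (n : ℝ) ^ 2 * (6 * ((n : ℝ) ^ 4)⁻¹) ≤ n := by
      have h5 : (n : ℝ) ^ 2 * (6 * ((n : ℝ) ^ 4)⁻¹) = 6 / (n : ℝ) ^ 2 := by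
        field_simp
      rw [h5, div_le_iff₀ (by positivity)]
      have : (8 : ℝ) ≤ n ^ 3 := by
        calc (8 : ℝ) = 2 ^ 3 := by norm_num
          _ ≤ _ := pow_le_pow_left₀ (by norm_num) hn2 3
      calc (6 : ℝ) ≤ n ^ 3 := by linarith
        _ = n * n ^ 2 := by ring
    refine (mul_le_mul_of_nonneg_left (?_ : 2 * (2 * δ + ((n : ℝ) ^ 200)⁻¹) ≤
      6 * ((n : ℝ) ^ 4)⁻¹) (by positivity)).trans h4
    linarith
  have e4 : 1 / τ * ∑ b : Fin n, ∑ b' ∈ Finset.univ.erase b,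
      En q S.F (fun w => X b b' (P2 q w)) ≤ X0 / τ := by
    rw [one_div_mul_eq_div]
    exact div_le_div_of_nonneg_right hXs hτ.le
  simp only [sum_pairs_add, sum_pairs_mul] at e3
  linarith

end sum

end Vale.Agent.P146.X7.H191
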