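import Vale.Agent.P146.H191.KapB
import Vale.Agent.P146.H191.KapN
import Vale.Agent.P146.X7.H633_BlkS
import Vale.Agent.P146.X7.H329_Bk1
import Vale.Agent.P146.H546.FwS
import Vale.Agent.P146.H941.TwoS

/-!
Plan R1, row (K): the facts of a bulk for a position system.
-/

open MeasureTheory ProbabilityTheory Matrix

namespace Vale.Agent.P146.X7.H191

open Vale.Agent.P146.H191

open Vale.Agent.P157.Lv Vale.Agent.P146.H425 Vale.Agent.P146.H325 Vale.Agent.P146.H332
  Vale.Agent.P146.H522 Vale.Agent.P146.H712 Vale.Agent.P146.H633 Vale.Agent.P146.R1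
  Vale.Agent.P146.R1C Vale.Agent.P146.R1S Vale.Agent.P146.Cum Vale.Agent.P146.H816
open Vale.Agent.P146.X7.H425 Vale.Agent.P146.X7.H325 Vale.Agent.P146.X7.H332 Vale.Agent.P146.X7.H522 Vale.Agent.P146.X7.H712 Vale.Agent.P146.X7.H633 Vale.Agent.P146.X7.R1 Vale.Agent.P146.X7.R1C Vale.Agent.P146.X7.R1S Vale.Agent.P146.X7.H816

set_option linter.unusedSectionVars false

variable {n : ℕ} {k x : ℝ} {S : CS n k x} {s : ℝ} {b b' : Fin n} {z : Pair n → ℝ}
  {v : Fin n → ℝ}

/-! ### the averaged matrix -/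

lemma CB_one (b b' i : Fin n) (z : Pair n → ℝ) :
    CB s (row b ∪ row b') (S.A s) z i i = 1 := by
  show AvP s (row b ∪ row b') (fun z => S.A s z i i) z = 1
  have e : (fun z => S.A s z i i) = fun _ => (1 : ℝ) := funext fun z => S.A_self s z i
  rw [e]
  exact AvP_const 1 z

lemma CB_off' {i : Fin n} (hi : i ≠ b') (z : Pair n → ℝ) :
    CB s (row b ∪ row b') (S.A s) z i b' = 0 := by
  show AvP s (row b ∪ row b') (fun z => S.A s z i b') z = 0
  rw [← AvP_AvP (S.eg_A s i b')]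
  have e : AvP s (row b') (fun z => S.A s z i b') = fun _ => (0 : ℝ) :=
    funext fun z => AvP_odd b' (S.eg_A s i b') (fun z => S.A_fl_row s hi z) z
  rw [e]
  exact AvP_const 0 z

lemma CB_off {i : Fin n} (hi : i ≠ b) (z : Pair n → ℝ) :
    CB s (row b ∪ row b') (S.A s) z i b = 0 := by
  show AvP s (row b ∪ row b') (fun z => S.A s z i b) z = 0
  rw [Finset.union_comm, ← AvP_AvP (S.eg_A s i b)]
  have e : AvP s (row b) (fun z => S.A s z i b) = fun _ => (0 : ℝ) :=
    funext fun z => AvP_odd b (S.eg_A s i b) (fun z => S.A_fl_row s hi z) z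
  rw [e]
  exact AvP_const 0 z

lemma CB_comm (b b' i j : Fin n) (z : Pair n → ℝ) :
    CB s (row b ∪ row b') (S.A s) z i j = CB s (row b ∪ row b') (S.A s) z j i := by
  have h1 := CB_T (s := s) (R := row b ∪ row b') (S.A_T s) z
  rw [← transpose_apply (CB s (row b ∪ row b') (S.A s) z), h1]

/-- the two sites contribute their diagonal entries -/
lemma fr_CB (hb : b ≠ b') (z : Pair n → ℝ) :
    fr (CB s (row b ∪ row b') (S.A s) z) = fr (CBq S s b b' z) + 2 := by
  have h1 : ∀ i j, CB s (row b ∪ row b') (S.A s) z i j ^ 2 = CBq S s b b' z i j ^ 2 +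
      ((if i = b then (if j = b then 1 else 0) else 0) +
        (if i = b' then (if j = b' then 1 else 0) else 0)) := by
    intro i j
    unfold CBq bq
    by_cases hm : (i = b ∨ i = b') ∨ j = b ∨ j = b'
    · rw [if_pos hm]
      by_cases hij : i = j
      · subst hij
        rw [CB_one]
        have h2 : i = b ∨ i = b' := by tauto
        rcases h2 with h | h
        · subst h
          simp [hb]
        · subst h
          simp [hb.symm]
      · have h0 : CB s (row b ∪ row b') (S.A s) z i j = 0 := by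
          rcases hm with (h | h) | (h | h)
          · subst h
            rw [CB_comm]
            exact CB_off (fun h => hij h.symm) z
          · subst h
            rw [CB_comm]
            exact CB_off' (fun h => hij h.symm) z
          · subst h
            exact CB_off hij z
          · subst h
            exact CB_off' hij z
        rw [h0]
        have e1 : (if i = b then (if j = b then (1 : ℝ) else 0) else 0) = 0 := by
          split_ifs with h3 h4
          · exact absurd (h3.trans h4.symm) hij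
          · rfl
          · rfl
        have e2 : (if i = b' then (if j = b' then (1 : ℝ) else 0) else 0) = 0 := by
          split_ifs with h3 h4
          · exact absurd (h3.trans h4.symm) hij
          · rfl
          · rfl
        rw [e1, e2]
        ring
    · rw [if_neg hm]
      push Not at hm
      rw [if_neg hm.1.1, if_neg hm.1.2]
      ring
  unfold fr
  simp only [h1, Finset.sum_add_distrib]
  have e : ∀ c : Fin n, ∑ i : Fin n, ∑ j : Fin n,
      (if i = c then (if j = c then (1 : ℝ) else 0) else 0) = 1 := by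
    intro c
    rw [Finset.sum_eq_single c]
    · simp
    · intro i _ hi
      simp [hi]
    · simp
  rw [e, e]
  norm_num

/-- the mean of the squared norm -/
lemma FA_eq (hb : b ≠ b') (z : Pair n → ℝ) :
    FA S s b b' z = fr (CBq S s b b' z) + 2 + DlA S s b b' z := by
  have h := bias (s := s) (R := row b ∪ row b') (fun i j => S.eg_A s i j) z
  rw [fr_CB hb] at h
  exact h

lemma DlA_nonneg (b b' : Fin n) (z : Pair n → ℝ) : 0 ≤ DlA S s b b' z :=
  AvP_nonneg (fun z => Dlt_nonneg z) z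

lemma FA_DlA_le (b b' : Fin n) (z : Pair n → ℝ) :
    FA S s b b' z * DlA S s b b' z ≤ ThA S s b b' z := by
  have h1 := KA_nonneg S s b b' z
  have h2 := (bh1 S s).DF0 (s := s) (R := row b ∪ row b') z
  unfold ThA Th
  unfold KA at h1
  unfold FA DlA
  linarith

lemma KA_le (b b' : Fin n) (z : Pair n → ℝ) : KA S s b b' z ≤ ThA S s b b' z :=
  avK_le_Th z

lemma FA_le (b b' : Fin n) (z : Pair n → ℝ) : FA S s b b' z ≤ (n : ℝ) ^ 2 := by
  have h := AvP_mono (s := s) (R := row b ∪ row b') (eg_frC fun i j => S.eg_A s i j)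
    (EG.const ((n : ℝ) ^ 2)) (fun z => S.fr_A_le s z) z
  rwa [AvP_const] at h

lemma QA_le (b b' : Fin n) (z : Pair n → ℝ) :
    QA S s b b' z ≤ (n : ℝ) ^ 2 * FA S s b b' z := by
  have hf := eg_frC fun i j => S.eg_A s i j
  have h := AvP_mono (s := s) (R := row b ∪ row b') (hf.pow 2) (hf.const_mul ((n : ℝ) ^ 2))
    (fun z => by
      rw [_root_.sq (fr (S.A s z))]
      exact mul_le_mul_of_nonneg_right (S.fr_A_le s z) (frn _)) z
  rwa [AvP_const_mul] at h

/-! ### the field -/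

lemma mh_bq (hs : 0 < s) (z : Pair n → ℝ) (i j : Fin n) :
    mh k (S.H s) s b b' z i j = bq b b' (MM S s b b' z) i j :=
  mh_eq (fun b i j => S.eg_H hs b i j) s b b' z i j

lemma mv_eq (hs : 0 < s) (z : Pair n → ℝ) (v : Fin n → ℝ) :
    H329.mv v (fH k (S.H s) s b b' z) =
      √s * (v ⬝ᵥ (bq b b' (MM S s b b' z) *ᵥ v)) := by
  unfold H329.mv dotProduct mulVec dotProduct
  rw [Finset.mul_sum]
  refine Finset.sum_congr rfl fun i _ => ?_
  rw [Finset.mul_sum, Finset.mul_sum]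
  refine Finset.sum_congr rfl fun j _ => ?_
  rw [MH_eq (fun b i j => S.eg_H hs b i j), mh_bq hs]
  ring

lemma mv_nonneg (hs : 0 < s) (z : Pair n → ℝ) (v : Fin n → ℝ) :
    0 ≤ H329.mv v (fH k (S.H s) s b b' z) := by
  rw [mv_eq hs]
  exact mul_nonneg (Real.sqrt_nonneg _) (qf_nonneg (MM_psd S hs b b' z).1 v)

/-- **`ε0²`** -/
theorem ne0_le (hs : 0 < s) (hs1 : s ≤ 1) (h : Bv S s b b' z v) :
    Ne0 k (S.H s) s b b' v z ≤ 9 * k ^ 2 * √(ThA S s b b' z) := by
  have e1 : Ne0 k (S.H s) s b b' v z = s * fr (bq b b' (MM S s b b' z) -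
      (v ⬝ᵥ (bq b b' (MM S s b b' z) *ᵥ v)) • vecMulVec v v) := by
    rw [Ne0_eq (fun b i j => S.eg_H hs b i j) hs.le]
    congr 1
    unfold fr
    have e2 : ∑ p, ∑ l, v p * mh k (S.H s) s b b' z p l * v l =
        v ⬝ᵥ (bq b b' (MM S s b b' z) *ᵥ v) := by
      unfold dotProduct mulVec dotProduct
      refine Finset.sum_congr rfl fun i _ => ?_
      rw [Finset.mul_sum]
      refine Finset.sum_congr rfl fun j _ => ?_
      rw [mh_bq hs]
      ring
    rw [e2]
    refine Finset.sum_congr rfl fun i _ => Finset.sum_congr rfl fun j _ => ?_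
    rw [mh_bq hs, Matrix.sub_apply, Matrix.smul_apply, vecMulVec_apply, smul_eq_mul]
  have h2 := h.E0 hs
  have h3 : fr (bq b b' (MM S s b b' z) -
      (v ⬝ᵥ (bq b b' (MM S s b b' z) *ᵥ v)) • vecMulVec v v) ≤
      k ^ 2 * (9 * √(ThA S s b b' z)) :=
    h2.trans (mul_le_mul_of_nonneg_left (min_le_left _ _) (sq_nonneg k))
  rw [e1]
  have h4 := mul_le_mul_of_nonneg_right hs1 (frn (bq b b' (MM S s b b' z) -
      (v ⬝ᵥ (bq b b' (MM S s b b' z) *ᵥ v)) • vecMulVec v v))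
  linarith

/-- **`ε1²`** -/
theorem ne1_le {Γ : ℝ} (hFn : Fn k SkS (uu x s S.F) (S.mu s) Γ) (hs : 0 < s)
    (hs1 : s ≤ 1) (h : Bv S s b b' z v) {η : ℝ} (hη : 0 < η) (hη1 : η ≤ 1) :
    Ne1 k (S.H s) s b b' v z ≤ 1296 * Γ ^ 6 * k ^ 6 * (ThA S s b b' z / η ^ 3 +
      η * ((n : ℝ) ^ 2 * FA S s b b' z + KA S s b b' z)) := by
  have h1 := H329.ne1_le S hFn hs hs1 hη h.v1 h.vb h.vb' z
  have e1 : (fun z => n4 (rho4 (pj v) (tX (S.mu s z) (ubq b b')))) =
      fun z => n4 (rho4 (pj v) (bq4 b b' (S.T4 s z))) := by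
    funext z
    rw [bq4_T4]
  rw [e1] at h1
  have h2 := h.E1
  have h3 : AvP s (row b ∪ row b') (fun z => fr (S.A s z) ^ 2) z ≤
      (n : ℝ) ^ 2 * FA S s b b' z := QA_le b b' z
  have h4 : AvP s (row b ∪ row b') (fun z => KT (S.T4 s z) (S.A s z)) z = KA S s b b' z := rfl
  rw [h4] at h1
  have hη3 : (η⁻¹) ^ 3 * (36 * ThA S s b b' z) = 36 * (ThA S s b b' z / η ^ 3) := by
    rw [inv_pow]
    field_simp
  have hT : 0 ≤ ThA S s b b' z / η ^ 3 := div_nonneg (ThA_nonneg S s b b' z) (by positivity)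
  have hF : 0 ≤ (n : ℝ) ^ 2 * FA S s b b' z :=
    mul_nonneg (by positivity) (FA_nonneg S s b b' z)
  have hK := KA_nonneg S s b b' z
  have h5 : (η⁻¹) ^ 3 * AvP s (row b ∪ row b')
      (fun z => n4 (rho4 (pj v) (bq4 b b' (S.T4 s z)))) z ≤
      36 * (ThA S s b b' z / η ^ 3) := by
    rw [← hη3]
    exact mul_le_mul_of_nonneg_left h2 (by positivity)
  have h6 : 3 * η * (2 * AvP s (row b ∪ row b') (fun z => fr (S.A s z) ^ 2) z +
      2 * KA S s b b' z) ≤ 6 * (η * ((n : ℝ) ^ 2 * FA S s b b' z + KA S s b b' z)) := by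
    have := mul_le_mul_of_nonneg_left h3 hη.le
    nlinarith
  have h7 : 0 ≤ η * ((n : ℝ) ^ 2 * FA S s b b' z + KA S s b b' z) := by positivity
  have hΓ := hFn.Γ0
  have hk := S.k0
  have h8 : 0 ≤ 36 * Γ ^ 6 * k ^ 6 := by positivity
  refine h1.trans ((mul_le_mul_of_nonneg_left (add_le_add h5 h6) h8).trans ?_)
  have h9 : 36 * Γ ^ 6 * k ^ 6 * (36 * (ThA S s b b' z / η ^ 3) +
      6 * (η * ((n : ℝ) ^ 2 * FA S s b b' z + KA S s b b' z))) ≤
      36 * Γ ^ 6 * k ^ 6 * (36 * (ThA S s b b' z / η ^ 3 +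
        η * ((n : ℝ) ^ 2 * FA S s b b' z + KA S s b b' z))) :=
    mul_le_mul_of_nonneg_left (by linarith) h8
  refine h9.trans (le_of_eq ?_)
  ring

lemma f0_ee (S : CS n k x) (s : ℝ) (b b' : Fin n) (z : Pair n → ℝ) :
    f0 (fa (S.A s) s b b' z) = ee S s b b' z :=
  Na0_eq (fun i j => S.eg_A s i j) s b b' z

/-- **The numbers of a bulk, for a position system.** -/
theorem kap_bulk_S {β ε Γ : ℝ} (hβ : 0 < β) (hε : 0 < ε) (hε1 : ε ≤ 1 / 40) :
    ∃ τ : ℝ, 0 < τ ∧ τ ≤ ε ∧ ∀ {n : ℕ} {k x : ℝ} {S : CS n k x} {s : ℝ} {b b' : Fin n}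
      {z : Pair n → ℝ} {v : Fin n → ℝ}, (1 : ℝ) ≤ n → k ^ 2 * n = β ^ 2 → 0 < s → s ≤ 1 →
      b ≠ b' → Fn k SkS (uu x s S.F) (S.mu s) Γ → Bv S s b b' z v → 0 < FA S s b b' z →
      ThA S s b b' z ≤ (τ * FA S s b b' z) ^ 2 →
      |1 + ee S s b b' z - FA S s b b' z / n| ≤ τ * (FA S s b b' z / n) →
      (n : ℝ) ≤ τ * FA S s b b' z →
      ∀ V : ℝ, (∀ mu : ℝ, 0 < mu → V ≤ mu / 2 + KA S s b b' z / (2 * mu) + DlA S s b b' z) →
      0 < lamq S s b b' z v ∧ lamq S s b b' z v ≤ n ∧ V ≤ ε * lamq S s b b' z v ^ 2 ∧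
        g0 v (fH k (S.H s) s b b' z) ≤ ε * f0 (fa (S.A s) s b b' z) ∧
        g1 v (fH k (S.H s) s b b' z) ≤ ε / 4 * f0 (fa (S.A s) s b b' z) ∧
        (1 - ε) * lamq S s b b' z v ^ 2 / n ≤ f0 (fa (S.A s) s b b' z) ∧
        f0 (fa (S.A s) s b b' z) ≤ 2 * lamq S s b b' z v ^ 2 / n ∧
        FA S s b b' z ≤ 2 * lamq S s b b' z v ^ 2 := by
  obtain ⟨τ, hτ0, hτ1, hmain⟩ := kap_bulk_num (C0 := 9) (C1 := 1296 * Γ ^ 6) hβ hε hε1
    (by norm_num) (by positivity)
  refine ⟨τ, hτ0, hτ1, ?_⟩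
  intro n k x S s b b' z v hn hkn hs hs1 hb hFn h hF hΘ hA hnF V hV
  have hl := h.lam_le
  have hFe := FA_eq (S := S) (s := s) hb z
  rw [f0_ee]
  refine hmain n k (FA S s b b' z) (ThA S s b b' z) (lamq S s b b' z v) V (ee S s b b' z)
    (g0 v (fH k (S.H s) s b b' z)) (g1 v (fH k (S.H s) s b b' z)) (KA S s b b' z)
    (DlA S s b b' z) hn hkn hF (FA_le b b' z) hΘ (KA_le b b' z) (FA_DlA_le b b' z)
    (lamq_nonneg b b' z v) (hl.1.trans (fr_CBq_le b b' z)) (by linarith [hl.2]) hV hA hnF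
    (ne0_le hs hs1 h) fun η hη hη1 => ne1_le hFn hs hs1 h hη hη1

end Vale.Agent.P146.X7.H191
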