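import Vale.Agent.P146.X7.NS
import Vale.Agent.P146.H332.CDef

/-!
Plan R1: the output of the block F in the objects of the block C (`Fo`), and its first
consequences (sizes, moments). `AM s z`, `DM s e z` are the matrix of the conditional two point
functions at the position `z`, time `s`, and its derivative in the direction `e` (for the SK model
`AM = AA k q.x`, `DM = DC k q.x`).
-/

open MeasureTheory ProbabilityTheory

namespace Vale.Agent.P146.X7.R1C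

open Vale.Agent.P146.R1C

open Vale.Agent.P157.Lv Vale.Agent.P146.H425 Vale.Agent.P146.H325 Vale.Agent.P146.H332
  Vale.Agent.P146.H712 Vale.Agent.P146.H816 Vale.Agent.P146.R1 Matrix
open Vale.Agent.P146.X7.H425 Vale.Agent.P146.X7.H325 Vale.Agent.P146.X7.H332 Vale.Agent.P146.X7.H712 Vale.Agent.P146.X7.H816 Vale.Agent.P146.X7.R1

set_option linter.unusedSectionVars false

/-- `k = β / √n` -/
noncomputable def kk (n : ℕ) (β : ℝ) : ℝ := β / √n

/-- the size of the matrices: `NN = n² r²`, `ρ = k²/2 * NN` -/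
noncomputable def NN (n : ℕ) (β ρ : ℝ) : ℝ := 2 * ρ * n / β ^ 2

/-- the sum of the squares of the derivatives -/
noncomputable def rt {n : ℕ} (DM : ℝ → Pair n → (Pair n → ℝ) → Matrix (Fin n) (Fin n) ℝ) (s : ℝ)
    (z : Pair n → ℝ) : ℝ := ∑ e, fr (DM s e z)

/-- **Output of the block F.** -/
structure Fo (n : ℕ) (β A δ T ρ : ℝ) (q : Par) (F : (Pair n → ℝ) → ℝ)
    (AM : ℝ → (Pair n → ℝ) → Matrix (Fin n) (Fin n) ℝ)
    (DM : ℝ → Pair n → (Pair n → ℝ) → Matrix (Fin n) (Fin n) ℝ) : Prop where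
  n2 : 2 ≤ n
  β0 : 0 < β
  ok : q.Ok
  θe : q.θ ≤ 1 / 64
  A1 : 1 ≤ A
  x7 : q.x * (n : ℝ) ^ ((1 : ℝ) / 17) ≤ 1
  T0 : 1 / (n : ℝ) ^ 2 ≤ T
  T1 : T ≤ 1
  ht0 : q.t0 = 1 - T
  ht1 : q.t1 = 1 - T / 2
  hs1 : q.t1 < q.s1
  hs12 : q.s1 + T / 8 ≤ q.s2
  hs2 : q.s2 < 1 - T / 4
  xrT : A ^ 40 ≤ q.x ^ 2 * ρ * T
  ρn : 2 * ρ ≤ β ^ 2 * n
  βn : β ^ 2 ≤ n
  δ0 : 0 ≤ δ
  δn : (n : ℝ) ^ 200 * δ ≤ 1
  up0 : En q F (fun w => if A * NN n β ρ < fr (AM q.t0 (P0 q w)) then (1 : ℝ) else 0) ≤ δ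
  up1 : En q F (fun w => if A * NN n β ρ < fr (AM q.t1 (P1 q w)) then (1 : ℝ) else 0) ≤ δ
  up2 : En q F (fun w => if A * NN n β ρ < fr (AM q.s1 (P2 q w)) then (1 : ℝ) else 0) ≤ δ
  up3 : En q F (fun w => if A * NN n β ρ < fr (AM q.s2 (P3 q w)) then (1 : ℝ) else 0) ≤ δ
  lo2 : En q F (fun w => if fr (AM q.s1 (P2 q w)) < NN n β ρ / A then (1 : ℝ) else 0) ≤ δ
  lo3 : En q F (fun w => if fr (AM q.s2 (P3 q w)) < NN n β ρ / A then (1 : ℝ) else 0) ≤ δ
  rt2 : En q F (fun w => rt DM q.s1 (P2 q w)) ≤ A * NN n β ρ / T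
  rt3 : En q F (fun w => rt DM q.s2 (P3 q w)) ≤ A * NN n β ρ / T
  gr : T ≤ 1 / A → NN n β ρ / A ≤
    En q F (fun w => fr (AM q.s2 (P3 q w))) - En q F (fun w => fr (AM q.s1 (P2 q w)))

/-! ### the mean `En` on the class `EG` -/

section mean

variable {κ : Type} [Fintype κ] [DecidableEq κ] {q : Par} {F : (κ → ℝ) → ℝ}
  {D : κ → (κ → ℝ) → ℝ} {B L : ℝ}

lemma eg_den (h : C11 F D B L) (hx : 0 < q.x) : EG (dens q F) :=
  (E4.of_E3' (e3_dn h hx q.θ q.t0 q.t1 q.s2)).eg_p q.t0 q.t1 q.s1 q.s2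

lemma den_pos (w : K4 κ → ℝ) : 0 < dens q F w := dn_pos _ _ _

lemma Ew1_pos (h : C11 F D B L) (hx : 0 < q.x) : 0 < Ew q F fun _ => 1 :=
  Eu4_one_pos (θ := q.θ) (t0 := q.t0) (t1 := q.t1) (s1 := q.s1) (s2 := q.s2) h hx

lemma Ew_add (h : C11 F D B L) (hx : 0 < q.x) {f g : (K4 κ → ℝ) → ℝ} (hf : EG f) (hg : EG g) :
    Ew q F (fun w => f w + g w) = Ew q F f + Ew q F g := by
  unfold Ew
  rw [← integral_add ((eg_den h hx).mul hf).integrable ((eg_den h hx).mul hg).integrable]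
  exact integral_congr_ae (Filter.Eventually.of_forall fun w => mul_add _ _ _)

lemma Ew_const_mul (c : ℝ) (f : (K4 κ → ℝ) → ℝ) :
    Ew q F (fun w => c * f w) = c * Ew q F f := by
  unfold Ew
  rw [← integral_const_mul]
  exact integral_congr_ae (Filter.Eventually.of_forall fun w => mul_left_comm _ _ _)

lemma Ew_mono (h : C11 F D B L) (hx : 0 < q.x) {f g : (K4 κ → ℝ) → ℝ} (hf : EG f) (hg : EG g)
    (hle : ∀ w, f w ≤ g w) : Ew q F f ≤ Ew q F g :=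
  integral_mono ((eg_den h hx).mul hf).integrable ((eg_den h hx).mul hg).integrable
    fun w => mul_le_mul_of_nonneg_left (hle w) (den_pos w).le

lemma Ew_nonneg {f : (K4 κ → ℝ) → ℝ} (hle : ∀ w, 0 ≤ f w) : 0 ≤ Ew q F f :=
  integral_nonneg fun w => mul_nonneg (den_pos w).le (hle w)

lemma En_add (h : C11 F D B L) (hx : 0 < q.x) {f g : (K4 κ → ℝ) → ℝ} (hf : EG f) (hg : EG g) :
    En q F (fun w => f w + g w) = En q F f + En q F g := by
  unfold En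
  rw [Ew_add h hx hf hg, add_div]

lemma En_const_mul (c : ℝ) (f : (K4 κ → ℝ) → ℝ) :
    En q F (fun w => c * f w) = c * En q F f := by
  unfold En
  rw [Ew_const_mul, mul_div_assoc]

lemma En_mono (h : C11 F D B L) (hx : 0 < q.x) {f g : (K4 κ → ℝ) → ℝ} (hf : EG f) (hg : EG g)
    (hle : ∀ w, f w ≤ g w) : En q F f ≤ En q F g :=
  div_le_div_of_nonneg_right (Ew_mono h hx hf hg hle) (Ew1_pos h hx).le

lemma En_nonneg {f : (K4 κ → ℝ) → ℝ} (hle : ∀ w, 0 ≤ f w) : 0 ≤ En q F f :=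
  div_nonneg (Ew_nonneg hle) (Ew_nonneg fun _ => zero_le_one)

lemma En_const (h : C11 F D B L) (hx : 0 < q.x) (c : ℝ) : En q F (fun _ => c) = c := by
  have h1 := En_const_mul (q := q) (F := F) c fun _ => 1
  simp only [mul_one] at h1
  rw [h1]
  unfold En
  rw [div_self (Ew1_pos h hx).ne', mul_one]

/-- bounded functions which are rarely large -/
lemma En_pow_le (h : C11 F D B L) (hx : 0 < q.x) {f : (K4 κ → ℝ) → ℝ} (hf : EG f)
    (h0 : ∀ w, 0 ≤ f w) {K M δ : ℝ} (hK : ∀ w, f w ≤ K) (hM : 0 ≤ M)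
    (hδ : En q F (fun w => if M < f w then (1 : ℝ) else 0) ≤ δ) (p : ℕ) :
    En q F (fun w => f w ^ p) ≤ M ^ p + K ^ p * δ := by
  have hi : EG fun w => if M < f w then (1 : ℝ) else 0 := by
    refine EG.of_bdd (C := 1) ?_ fun w => ?_
    · exact Measurable.ite (measurableSet_lt measurable_const hf.meas) measurable_const
        measurable_const
    · split_ifs <;> simp
  have hK0 : 0 ≤ K := (h0 0).trans (hK 0)
  refine (En_mono h hx (hf.pow p) ((EG.const (M ^ p)).add (hi.const_mul (K ^ p)))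
    fun w => ?_).trans ?_
  · split_ifs with h1
    · have := pow_le_pow_left₀ (h0 w) (hK w) p
      have h2 : 0 ≤ M ^ p := by positivity
      linarith
    · rw [mul_zero, add_zero]
      exact pow_le_pow_left₀ (h0 w) (not_lt.1 h1) p
  · rw [En_add h hx (EG.const _) (hi.const_mul _), En_const h hx, En_const_mul]
    have := mul_le_mul_of_nonneg_left hδ (pow_nonneg hK0 p)
    linarith

end mean

/-! ### sizes -/

section size

variable {n : ℕ} {β A δ T ρ : ℝ} {q : Par} {F : (Pair n → ℝ) → ℝ}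
  {AM : ℝ → (Pair n → ℝ) → Matrix (Fin n) (Fin n) ℝ}
  {DM : ℝ → Pair n → (Pair n → ℝ) → Matrix (Fin n) (Fin n) ℝ}

lemma Fo.n0 (h : Fo n β A δ T ρ q F AM DM) : (2 : ℝ) ≤ n := by exact_mod_cast h.n2

lemma Fo.Tp (h : Fo n β A δ T ρ q F AM DM) : 0 < T := by
  have := h.n0
  exact lt_of_lt_of_le (by positivity) h.T0

lemma Fo.xr (h : Fo n β A δ T ρ q F AM DM) : A ^ 40 ≤ q.x ^ 2 * ρ * T := h.xrT

lemma Fo.ρA (h : Fo n β A δ T ρ q F AM DM) : A ^ 40 ≤ ρ := by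
  have h1 := h.xrT
  have hx := h.ok.x0
  have hx1 : q.x ^ 2 ≤ 1 := pow_le_one₀ hx.le h.ok.x1
  have h2 : 0 < A ^ 40 := by have := h.A1; positivity
  have hρ : 0 < ρ := by
    by_contra hc
    push Not at hc
    have : q.x ^ 2 * ρ * T ≤ 0 :=
      mul_nonpos_of_nonpos_of_nonneg (mul_nonpos_of_nonneg_of_nonpos (by positivity) hc) h.Tp.le
    linarith
  calc A ^ 40 ≤ q.x ^ 2 * ρ * T := h1
    _ ≤ 1 * ρ * 1 := mul_le_mul (mul_le_mul_of_nonneg_right hx1 hρ.le) h.T1 h.Tp.le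
        (by positivity)
    _ = ρ := by ring

lemma Fo.ρ1 (h : Fo n β A δ T ρ q F AM DM) : 1 ≤ ρ := (one_le_pow₀ h.A1).trans h.ρA

lemma Fo.N0 (h : Fo n β A δ T ρ q F AM DM) : 0 < NN n β ρ := by
  have h1 := h.ρ1
  have h2 := h.n0
  have h3 := h.β0
  unfold NN
  positivity

lemma Fo.NN_le (h : Fo n β A δ T ρ q F AM DM) : NN n β ρ ≤ (n : ℝ) ^ 2 := by
  unfold NN
  have h3 := h.β0
  rw [div_le_iff₀ (by positivity)]
  have h1 := h.ρn
  have h2 := h.n0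
  calc 2 * ρ * n ≤ β ^ 2 * n * n := mul_le_mul_of_nonneg_right h1 (by positivity)
    _ = _ := by ring

/-- `k² N = 2 ρ` -/
lemma kk_NN (h : Fo n β A δ T ρ q F AM DM) : kk n β ^ 2 * NN n β ρ = 2 * ρ := by
  have h2 := h.n0
  have h3 := h.β0
  unfold kk NN
  rw [div_pow, Real.sq_sqrt (by positivity)]
  field_simp

/-- all the moments -/
lemma Fo.mom (h : Fo n β A δ T ρ q F AM DM) {D : Pair n → (Pair n → ℝ) → ℝ} {B L : ℝ}
    (hc : C11 F D B L) {f : (K4 (Pair n) → ℝ) → ℝ} (hf : EG f) (h0 : ∀ w, 0 ≤ f w)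
    (hK : ∀ w, f w ≤ (n : ℝ) ^ 2)
    (hδ : En q F (fun w => if A * NN n β ρ < f w then (1 : ℝ) else 0) ≤ δ)
    (p : ℕ) (hp : p ≤ 100) :
    En q F (fun w => f w ^ p) ≤ 2 * (A * NN n β ρ) ^ p := by
  have hN := h.N0
  have hA := h.A1
  have h1 := En_pow_le hc h.ok.x0 hf h0 hK (mul_nonneg (by linarith) hN.le) hδ p
  refine h1.trans ?_
  have hn := h.n0
  have h3 := h.β0
  have hNN : 1 ≤ A * NN n β ρ := by
    have h4 : 1 ≤ NN n β ρ := by
      unfold NN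
      rw [le_div_iff₀ (by positivity)]
      have h5 := h.ρ1
      have h8 := h.βn
      nlinarith
    nlinarith
  have h6 : ((n : ℝ) ^ 2) ^ p * δ ≤ 1 := by
    refine le_trans ?_ h.δn
    refine mul_le_mul_of_nonneg_right ?_ h.δ0
    rw [← pow_mul]
    exact pow_le_pow_right₀ (by linarith) (by omega)
  have h7 : 1 ≤ (A * NN n β ρ) ^ p := one_le_pow₀ hNN
  linarith

end size

end Vale.Agent.P146.X7.R1C
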