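import Vale.Agent.P146.X7.H325_Kap2

/-!
Plan R1, row (KAP): the numbers. From the outputs of the rows, in terms of the package `Fo`, to
`N/n² ≤ C A^m (√(1/(nT)) + x √(N/n²) + ϑ N/n² + 1/n)`.
-/

open MeasureTheory ProbabilityTheory

namespace Vale.Agent.P146.X7.R1C

open Vale.Agent.P146.R1C

open Vale.Agent.P157.Lv Vale.Agent.P146.H425 Vale.Agent.P146.H712 Vale.Agent.P146.H332
  Vale.Agent.P146.H325 Vale.Agent.P146.H816 Vale.Agent.P146.R1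
open Vale.Agent.P146.X7.H425 Vale.Agent.P146.X7.H712 Vale.Agent.P146.X7.H332 Vale.Agent.P146.X7.H325 Vale.Agent.P146.X7.H816 Vale.Agent.P146.X7.R1

set_option linter.unusedSectionVars false

/-- the final numbers -/
lemma kap_fin_num {N A C κ r2 y w v ϑ K DD e1 e2 SE SB : ℝ} {m : ℕ} (hN : 0 < N) (hA : 1 ≤ A)
    (hC : 0 ≤ C) (hκ : 0 < κ) (hκ1 : κ ≤ 1) (hr : 0 ≤ r2) (hr1 : r2 ≤ 1) (hy : 0 ≤ y)
    (hw : 0 ≤ w) (hv : 0 ≤ v) (hϑ : 0 ≤ ϑ) (hK : N ^ 2 / (4 * A ^ 3) ≤ K)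
    (hD : DD ≤ C * A ^ m * v * N ^ 2) (h1 : e1 ≤ C * A ^ m * (y + w) * N ^ 2)
    (h2 : e2 ≤ C * A ^ m * (y + w) * N ^ 2) (hE : SE ≤ C * A ^ m * (r2 * ϑ) * N ^ 2)
    (hB : SB ≤ C * A ^ m * (ϑ + y + w + v) * N ^ 2)
    (hcore : κ / (8 * A) * r2 * K ≤ (1 + 2 * (κ / (8 * A) * r2)) * (DD + e1) +
      κ / (8 * A) * r2 * e2 + SE + κ / (8 * A) * r2 * SB) :
    r2 ≤ 192 * C / κ * A ^ (m + 4) * (w + y + ϑ * r2 + v) := by
  have hA0 : 0 < A := by linarith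
  set g := κ / (8 * A) * r2 with hg
  have hgle : κ / (8 * A) ≤ 1 := by
    rw [div_le_one (by positivity)]
    linarith
  have hg0 : 0 ≤ g := by positivity
  have hg2 : g ≤ r2 := by
    rw [hg]
    nlinarith
  have hg1 : g ≤ 1 := hg2.trans hr1
  set c := C * A ^ m with hc
  have hc0 : 0 ≤ c := by positivity
  have hNN : 0 < N ^ 2 := by positivity
  have a1 : g * (N ^ 2 / (4 * A ^ 3)) ≤ g * K := mul_le_mul_of_nonneg_left hK hg0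
  have a2 : (1 + 2 * g) * (DD + e1) ≤ 3 * ((c * v + c * (y + w)) * N ^ 2) := by
    have b1 : DD + e1 ≤ (c * v + c * (y + w)) * N ^ 2 := by linarith
    have b2 : 0 ≤ (c * v + c * (y + w)) * N ^ 2 := by positivity
    calc (1 + 2 * g) * (DD + e1) ≤ (1 + 2 * g) * ((c * v + c * (y + w)) * N ^ 2) :=
          mul_le_mul_of_nonneg_left b1 (by linarith)
      _ ≤ _ := mul_le_mul_of_nonneg_right (by linarith) b2
  have a3 : g * e2 ≤ c * (y + w) * N ^ 2 := by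
    calc g * e2 ≤ g * (c * (y + w) * N ^ 2) := mul_le_mul_of_nonneg_left h2 hg0
      _ ≤ 1 * (c * (y + w) * N ^ 2) := mul_le_mul_of_nonneg_right hg1 (by positivity)
      _ = _ := one_mul _
  have a4 : g * SB ≤ r2 * (c * (ϑ + y + w + v) * N ^ 2) := by
    calc g * SB ≤ g * (c * (ϑ + y + w + v) * N ^ 2) := mul_le_mul_of_nonneg_left hB hg0
      _ ≤ _ := mul_le_mul_of_nonneg_right hg2 (by positivity)
  have a5 : r2 * (c * (ϑ + y + w + v) * N ^ 2) ≤ (c * (ϑ * r2) + c * (y + w + v)) * N ^ 2 := by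
    have b1 : r2 * (y + w + v) ≤ y + w + v := by nlinarith
    have b2 : c * (r2 * (y + w + v)) * N ^ 2 ≤ c * (y + w + v) * N ^ 2 := by gcongr
    calc r2 * (c * (ϑ + y + w + v) * N ^ 2) =
          c * (ϑ * r2) * N ^ 2 + c * (r2 * (y + w + v)) * N ^ 2 := by ring
      _ ≤ _ := by linarith
  have a6 : g * (N ^ 2 / (4 * A ^ 3)) ≤ 6 * c * (w + y + ϑ * r2 + v) * N ^ 2 := by
    have b1 : 0 ≤ c * (w + y + ϑ * r2 + v) * N ^ 2 := by positivity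
    have b2 : 0 ≤ c * v * N ^ 2 := by positivity
    have b3 : 0 ≤ c * (y + w) * N ^ 2 := by positivity
    have b4 : 0 ≤ c * (ϑ * r2) * N ^ 2 := by positivity
    nlinarith
  have e1 : g * (N ^ 2 / (4 * A ^ 3)) = g / (4 * A ^ 3) * N ^ 2 := by ring
  rw [e1] at a6
  have a7 := le_of_mul_le_mul_right a6 hNN
  rw [div_le_iff₀ (by positivity), hg] at a7
  have a8 : κ * r2 ≤ κ * (192 * C / κ * A ^ (m + 4) * (w + y + ϑ * r2 + v)) := by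
    have b1 : κ * r2 = κ / (8 * A) * r2 * (8 * A) := by
      field_simp
    rw [b1]
    calc κ / (8 * A) * r2 * (8 * A) ≤ 6 * c * (w + y + ϑ * r2 + v) * (4 * A ^ 3) * (8 * A) :=
          mul_le_mul_of_nonneg_right a7 (by positivity)
      _ = _ := by
          rw [hc]
          field_simp
          ring
  exact le_of_mul_le_mul_left a8 hκ

section fin

variable {n : ℕ} {β A δ T ρ : ℝ} {q : Par} {F : (Pair n → ℝ) → ℝ}
  {AM : ℝ → (Pair n → ℝ) → Matrix (Fin n) (Fin n) ℝ}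
  {DM : ℝ → Pair n → (Pair n → ℝ) → Matrix (Fin n) (Fin n) ℝ}
  {D : Pair n → (Pair n → ℝ) → ℝ} {B L : ℝ}

lemma Fo.N1 (h : Fo n β A δ T ρ q F AM DM) : 1 ≤ NN n β ρ := by
  have h5 := h.ρ1
  have h8 := h.βn
  have h3 := h.β0
  unfold NN
  rw [le_div_iff₀ (by positivity)]
  have hn := h.n0
  nlinarith

lemma kk_four (h : Fo n β A δ T ρ q F AM DM) : kk n β ^ 4 = β ^ 4 / (n : ℝ) ^ 2 := by
  have h2 := h.n0
  have e1 : kk n β ^ 4 = (kk n β ^ 2) ^ 2 := by ring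
  have e2 : kk n β ^ 2 = β ^ 2 / n := by
    unfold kk
    rw [div_pow, Real.sq_sqrt (by positivity)]
  rw [e1, e2]
  ring

/-- the sum of the bad parts, numbers -/
lemma bad_num {nn N A C β v ϑ y w S : ℝ} {m : ℕ} (hn : 2 ≤ nn) (hN1 : 1 ≤ N) (hA : 1 ≤ A)
    (hC : 1 ≤ C) (hv : v = 1 / nn) (hy0 : 0 ≤ y) (hw0 : 0 ≤ w) (hϑ : 0 ≤ ϑ)
    (hS : S ≤ C * A ^ m * (ϑ + y + w + v) * nn ^ 2) :
    4 * (β ^ 4 / nn ^ 2) * ((A * N) ^ 2 * S + nn ^ 2 * (6 * (nn ^ 196)⁻¹)) ≤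
      C * (1 + 28 * β ^ 4) * A ^ (m + 2) * (ϑ + y + w + v) * N ^ 2 := by
  have hv0 : 0 ≤ v := by rw [hv]; positivity
  set Q := C * A ^ (m + 2) * (ϑ + y + w + v) * N ^ 2 with hQ
  have hQ0 : 0 ≤ Q := by positivity
  have h6 : (nn ^ 196)⁻¹ ≤ Q := by
    have c1 : (nn ^ 196)⁻¹ ≤ v := by
      rw [hv, one_div]
      exact inv_anti₀ (by positivity) (le_self_pow₀ (by linarith) (by norm_num))
    have c2 : v ≤ ϑ + y + w + v := by linarith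
    have c3 : 1 ≤ C * A ^ (m + 2) := by
      have := one_le_pow₀ (n := m + 2) hA
      nlinarith
    have c4 : 1 ≤ N ^ 2 := one_le_pow₀ hN1
    calc (nn ^ 196)⁻¹ ≤ ϑ + y + w + v := c1.trans c2
      _ ≤ C * A ^ (m + 2) * (ϑ + y + w + v) :=
          le_mul_of_one_le_left (by positivity) c3
      _ ≤ _ := le_mul_of_one_le_right (by positivity) c4
  have hβ4 : 0 ≤ β ^ 4 := by positivity
  calc 4 * (β ^ 4 / nn ^ 2) * ((A * N) ^ 2 * S + nn ^ 2 * (6 * (nn ^ 196)⁻¹)) ≤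
        4 * (β ^ 4 / nn ^ 2) * ((A * N) ^ 2 * (C * A ^ m * (ϑ + y + w + v) * nn ^ 2) +
          nn ^ 2 * (6 * (nn ^ 196)⁻¹)) := by gcongr
    _ = 4 * β ^ 4 * Q + 24 * β ^ 4 * (nn ^ 196)⁻¹ := by
        rw [hQ]
        field_simp
        ring
    _ ≤ 4 * β ^ 4 * Q + 24 * β ^ 4 * Q := by gcongr
    _ ≤ (1 + 28 * β ^ 4) * Q := by linarith
    _ = _ := by rw [hQ]; ring

/-- the sum of the bad parts -/
theorem bad_total {C : ℝ} {m : ℕ} (hC : 1 ≤ C)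
    (h : Fo n β A δ T ρ q F AM DM) (hc : C11 F D B L)
    {Y bad : Fin n → Fin n → (K4 (Pair n) → ℝ) → ℝ}
    (eY : ∀ b b', EG (Y b b')) (eb : ∀ b b', EG (bad b b'))
    (e2 : EG fun w => fr (AM q.s1 (P2 q w))) (e3 : EG fun w => fr (AM q.s2 (P3 q w)))
    (hn2 : ∀ w, fr (AM q.s1 (P2 q w)) ≤ (n : ℝ) ^ 2)
    (hn3 : ∀ w, fr (AM q.s2 (P3 q w)) ≤ (n : ℝ) ^ 2)
    (hb0 : ∀ b b' w, 0 ≤ bad b b' w) (hb1 : ∀ b b' w, bad b b' w ≤ 1)
    (hYf : ∀ b b', b' ≠ b → ∀ w, Y b b' w ≤ 4 * kk n β ^ 4 *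
      (Av (lf (row b ∪ row b')) (fun w => fr (AM q.s1 (P2 q w))) w *
        Av (lf (row b ∪ row b')) (fun w => fr (AM q.s2 (P3 q w))) w))
    (hlow : ∀ (b b' : Fin n) (f : (K4 (Pair n) → ℝ) → ℝ), EG f → (∀ w, 0 ≤ f w) →
      (∀ w, f w ≤ 1) → En q F (Av (lf (row b ∪ row b')) f) ≤ 2 * En q F f + ((n : ℝ) ^ 200)⁻¹)
    {ϑ y w : ℝ} (hϑ : 0 ≤ ϑ) (hy : 0 ≤ y) (hw : 0 ≤ w)
    (hbad : ∑ b, ∑ b' ∈ Finset.univ.erase b, En q F (bad b b') ≤ C * A ^ m *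
      (ϑ + y + w + 1 / n) * (n : ℝ) ^ 2) :
    ∑ b, ∑ b' ∈ Finset.univ.erase b, (En q F fun w => bad b b' w * Y b b' w) ≤
      C * (1 + 28 * β ^ 4) * A ^ (m + 2) * (ϑ + y + w + 1 / n) * NN n β ρ ^ 2 := by
  have hN := h.N0
  have hA := h.A1
  have hn := h.n0
  have hβ := h.β0
  have hA0 : 0 < A := by linarith
  set N := NN n β ρ with hNd
  set nn : ℝ := (n : ℝ) with hnn
  have h1 : ∑ b, ∑ b' ∈ Finset.univ.erase b, (En q F fun w => bad b b' w * Y b b' w) ≤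
      ∑ b : Fin n, ∑ b' ∈ Finset.univ.erase b, (4 * kk n β ^ 4) *
        ((A * N) ^ 2 * En q F (bad b b') +
          2 * 1 * (nn ^ 2) ^ 2 * (2 * δ + (nn ^ 200)⁻¹)) := by
    refine Finset.sum_le_sum fun b _ => Finset.sum_le_sum fun b' hb' => ?_
    have hb := Finset.ne_of_mem_erase hb'
    exact bad_pair hc h.ok.x0 (eb b b') (eY b b') e2 e3 (hb0 b b') (hb1 b b') (by positivity)
      (by positivity) (by positivity) (fun w => H332.fr_nonneg _) hn2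
      (fun w => H332.fr_nonneg _) hn3 (hYf b b' hb) h.up2 h.up3 (hlow b b')
  refine h1.trans ?_
  rw [sum_pairs_mul, sum_pairs_add, sum_pairs_mul]
  have h2 : ∑ b : Fin n, ∑ b' ∈ Finset.univ.erase b,
      (2 * 1 * (nn ^ 2) ^ 2 * (2 * δ + (nn ^ 200)⁻¹)) ≤ nn ^ 2 * (6 * (nn ^ 196)⁻¹) := by
    have h3 : (2 * 1 * (nn ^ 2) ^ 2 * (2 * δ + (nn ^ 200)⁻¹)) ≤ 6 * (nn ^ 196)⁻¹ := by
      have h4 : δ ≤ (nn ^ 200)⁻¹ := by
        rw [← one_div, le_div_iff₀ (by positivity), mul_comm]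
        exact h.δn
      have h5 : nn ^ 4 * (nn ^ 200)⁻¹ = (nn ^ 196)⁻¹ := by
        field_simp
      calc 2 * 1 * (nn ^ 2) ^ 2 * (2 * δ + (nn ^ 200)⁻¹) ≤
            2 * 1 * (nn ^ 2) ^ 2 * (2 * (nn ^ 200)⁻¹ + (nn ^ 200)⁻¹) := by gcongr
        _ = 6 * (nn ^ 4 * (nn ^ 200)⁻¹) := by ring
        _ = _ := by rw [h5]
    calc _ ≤ ∑ b : Fin n, ∑ b' ∈ Finset.univ.erase b, 6 * (nn ^ 196)⁻¹ :=
          Finset.sum_le_sum fun b _ => Finset.sum_le_sum fun b' _ => h3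
      _ ≤ ∑ b : Fin n, ∑ b' : Fin n, 6 * (nn ^ 196)⁻¹ := by
          refine Finset.sum_le_sum fun b _ => ?_
          exact Finset.sum_le_sum_of_subset_of_nonneg (Finset.erase_subset _ _)
            fun _ _ _ => by positivity
      _ = _ := by
          simp only [Finset.sum_const, Finset.card_univ, Fintype.card_fin, nsmul_eq_mul]
          rw [← hnn]
          ring
  have hk4 : kk n β ^ 4 = β ^ 4 / nn ^ 2 := kk_four h
  rw [hk4]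
  refine le_trans (mul_le_mul_of_nonneg_left (add_le_add le_rfl h2) (by positivity)) ?_
  exact bad_num hn h.N1 hA hC rfl hy hw hϑ hbad

/-- **(KAP) from the outputs of the rows.** -/
theorem kap_fin {C κ : ℝ} {m : ℕ} (hC : 1 ≤ C) (hκ : 0 < κ) (hκ1 : κ ≤ 1)
    (h : Fo n β A δ T ρ q F AM DM) (hc : C11 F D B L)
    {G Y bad Er : Fin n → Fin n → (K4 (Pair n) → ℝ) → ℝ}
    (eG : ∀ b b', EG (G b b')) (eY : ∀ b b', EG (Y b b')) (eb : ∀ b b', EG (bad b b'))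
    (eE : ∀ b b', EG (Er b b'))
    (e2 : EG fun w => fr (AM q.s1 (P2 q w))) (e3 : EG fun w => fr (AM q.s2 (P3 q w)))
    (hn2 : ∀ w, fr (AM q.s1 (P2 q w)) ≤ (n : ℝ) ^ 2)
    (hn3 : ∀ w, fr (AM q.s2 (P3 q w)) ≤ (n : ℝ) ^ 2)
    (hb0 : ∀ b b' w, 0 ≤ bad b b' w) (hb1 : ∀ b b' w, bad b b' w ≤ 1)
    (hpt : ∀ b b', b' ≠ b → ∀ w, κ / (8 * A) * (NN n β ρ / (n : ℝ) ^ 2) * (1 - bad b b' w) *
      Y b b' w ≤ G b b' w + Er b b' w)
    (hYf : ∀ b b', b' ≠ b → ∀ w, Y b b' w ≤ 4 * kk n β ^ 4 *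
      (Av (lf (row b ∪ row b')) (fun w => fr (AM q.s1 (P2 q w))) w *
        Av (lf (row b ∪ row b')) (fun w => fr (AM q.s2 (P3 q w))) w))
    (hlow : ∀ (b b' : Fin n) (f : (K4 (Pair n) → ℝ) → ℝ), EG f → (∀ w, 0 ≤ f w) →
      (∀ w, f w ≤ 1) → En q F (Av (lf (row b ∪ row b')) f) ≤ 2 * En q F f + ((n : ℝ) ^ 200)⁻¹)
    {DD er1 er2 K ϑ : ℝ} (hϑ : 0 ≤ ϑ)
    (n1 : ∑ b, ∑ b' ∈ Finset.univ.erase b, En q F (G b b') ≤ DD + er1)
    (n2 : K ≤ (∑ b, ∑ b' ∈ Finset.univ.erase b, En q F (Y b b')) +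
      2 * (∑ b, ∑ b' ∈ Finset.univ.erase b, En q F (G b b')) + er2)
    (hK : NN n β ρ ^ 2 / (4 * A ^ 3) ≤ K)
    (hD : DD ≤ C * A ^ m * (1 / n) * NN n β ρ ^ 2)
    (he1 : er1 ≤ C * A ^ m * (q.x * √(NN n β ρ / (n : ℝ) ^ 2) + √(1 / (n * T))) * NN n β ρ ^ 2)
    (he2 : er2 ≤ C * A ^ m * (q.x * √(NN n β ρ / (n : ℝ) ^ 2) + √(1 / (n * T))) * NN n β ρ ^ 2)
    (hE : ∑ b, ∑ b' ∈ Finset.univ.erase b, En q F (Er b b') ≤
      C * A ^ m * (NN n β ρ / (n : ℝ) ^ 2 * ϑ) * NN n β ρ ^ 2)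
    (hbad : ∑ b, ∑ b' ∈ Finset.univ.erase b, En q F (bad b b') ≤ C * A ^ m *
      (ϑ + q.x * √(NN n β ρ / (n : ℝ) ^ 2) + √(1 / (n * T)) + 1 / n) * (n : ℝ) ^ 2) :
    NN n β ρ / (n : ℝ) ^ 2 ≤ 192 * (C * (1 + 28 * β ^ 4)) / κ * A ^ (m + 2 + 4) *
      (√(1 / (n * T)) + q.x * √(NN n β ρ / (n : ℝ) ^ 2) + ϑ * (NN n β ρ / (n : ℝ) ^ 2) +
        1 / n) := by
  have hN := h.N0
  have hA := h.A1
  have hA0 : 0 < A := by linarith
  have hn := h.n0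
  have hx := h.ok.x0
  have hβ := h.β0
  have hr1 : NN n β ρ / (n : ℝ) ^ 2 ≤ 1 := by
    rw [div_le_one (by positivity)]
    exact h.NN_le
  have hSB := bad_total hC h hc eY eb e2 e3 hn2 hn3 hb0 hb1 hYf hlow hϑ
    (by positivity) (Real.sqrt_nonneg _) hbad
  have hcore := kap_en hc hx eG eY eb eE (g := κ / (8 * A) * (NN n β ρ / (n : ℝ) ^ 2))
    (by positivity) hpt n1 n2
  have hCC : C ≤ C * (1 + 28 * β ^ 4) := by
    have hβ4 : 0 ≤ β ^ 4 := by positivity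
    nlinarith
  have hup : ∀ z : ℝ, 0 ≤ z → C * A ^ m * z * NN n β ρ ^ 2 ≤
      C * (1 + 28 * β ^ 4) * A ^ (m + 2) * z * NN n β ρ ^ 2 := by
    intro z hz
    have c1 : A ^ m ≤ A ^ (m + 2) := pow_le_pow_right₀ hA (by omega)
    gcongr
  exact kap_fin_num (m := m + 2) hN hA (by positivity) hκ hκ1 (by positivity) hr1
    (by positivity) (Real.sqrt_nonneg _) (by positivity) hϑ hK
    (hD.trans (hup _ (by positivity))) (he1.trans (hup _ (by positivity)))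
    (he2.trans (hup _ (by positivity))) (hE.trans (hup _ (by positivity))) hSB hcore

end fin

end Vale.Agent.P146.X7.R1C
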