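import Vale.Agent.P146.X7.H522_PoFo
import Vale.Agent.P146.H645.CSys

/-!
Macroscopic rotation for a position system `S : CS n k x`.
-/

open MeasureTheory ProbabilityTheory Matrix

namespace Vale.Agent.P146.X7.H522

open Vale.Agent.P146.H522

open Vale.Agent.P157.Lv Vale.Agent.P146.H425 Vale.Agent.P146.H332
open Vale.Agent.P146.X7.H425 Vale.Agent.P146.X7.H332
open Vale.Agent.P146.H325 hiding fr_nonneg C2
open Vale.Agent.P146.X7.H325
open Vale.Agent.P146.R1C (Par P0 P1 P2 P3 En)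
open Vale.Agent.P146.X7.R1C (Fo kk rt)
open Vale.Agent.P146.R1S (CS)

set_option linter.unusedSectionVars false
set_option linter.unusedDecidableInType false

variable {n : ℕ} {k x : ℝ} {B L M : ℝ} {HF TF : Pair n → Pair n → (Pair n → ℝ) → ℝ}

/-- **A position system gives the rotation data.** -/
theorem mr_cs (S : CS n k x) (hS : R1.Sm S.F S.D B L HF TF M) : MR k x S.F S.D S.A S.DA where
  k0 := S.k0.ne'
  eg := S.eg_A
  psd := S.psd_A
  diag := S.A_self
  bd := S.abs_A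
  off := fun t z e => S.dd_eq t e z
  egr t := EG.sum _ fun e _ => eg_frM fun i j => S.eg_DA t e i j
  sw t ht z := S.dfc_A ht z
  rad t t' ht htt' ht' v z := by
    refine (cw_radial (x := x) (t := t) (t' := t') hS S.cv S.x0 htt' ht' v z).trans
      ((vH_le v (R1.hh x t S.F S.D HF) z).trans (le_of_eq ?_))
    congr 2
    exact S.hq_DA hS t z

variable {β A δ T ρ : ℝ} {q : Par}

/-- **(PO1)** for a position system -/
theorem po1_cs (S : CS n (kk n β) q.x) (hS : R1.Sm S.F S.D B L HF TF M)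
    (hf : Fo n β A δ T ρ q S.F S.A S.DA) (hA : 2 ≤ A) :
    R1C.NN n β ρ ^ 2 / (2 * A ^ 2) ≤
      En q S.F (fun w => fr (S.A q.s1 (P2 q w) * S.A q.s2 (P3 q w))) :=
  po1_fo (mr_cs S hS) S.c11 hf rfl hA

/-- **(PO2)** for a position system -/
theorem po2_cs (S : CS n (kk n β) q.x) (hS : R1.Sm S.F S.D B L HF TF M)
    (hf : Fo n β A δ T ρ q S.F S.A S.DA) (hA : 10 ≤ A) (hTA : T ≤ 1 / A) :
    R1C.NN n β ρ ^ 2 / (4 * A ^ 3) ≤
      En q S.F (fun w => fr (S.A q.s1 (P2 q w) * S.A q.s2 (P3 q w) -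
        S.A q.s2 (P3 q w) * S.A q.s1 (P2 q w))) :=
  po2_fo (mr_cs S hS) S.c11 hf rfl hA hTA

end Vale.Agent.P146.X7.H522
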