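import Vale.Agent.P146.X7.H816_SkN
import Vale.Agent.P146.H941.PrIS
import Vale.Agent.P146.H706.LawT

/-!
Plan R1, item (8): the numbers of the errors of the sums over the pairs of sites, for a position
system which satisfies the output of the block F.
-/

open MeasureTheory ProbabilityTheory

namespace Vale.Agent.P146.X7.R1S

open Vale.Agent.P146.R1S

open Vale.Agent.P157.Lv Vale.Agent.P146.H425 Vale.Agent.P146.H325
  Vale.Agent.P146.H712 Vale.Agent.P146.H816 Vale.Agent.P146.R1 Vale.Agent.P146.R1C Matrix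
open Vale.Agent.P146.X7.H425 Vale.Agent.P146.X7.H325 Vale.Agent.P146.X7.H712 Vale.Agent.P146.X7.H816 Vale.Agent.P146.X7.R1 Vale.Agent.P146.X7.R1C
open Vale.Agent.P146.H332 hiding Nf Gf
open Vale.Agent.P146.X7.H332
open Vale.Agent.P146.H326 (P2_k2 P3_k3 k2_sum k3_sum eg_ph ph_nonneg ind_ph1 ind_ph2 int_ph1
  int_phf s2_pos int_ph_nonneg Ew_En ph_le)

set_option linter.unusedSectionVars false

variable {n : ℕ} {β A δ T ρ ε : ℝ} {q : Par} {S : CS n (kk n β) q.x}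

/-- the hypotheses of the numbers -/
structure NumS (S : CS n (kk n β) q.x) (A δ T ρ ε : ℝ) : Prop where
  fo : Fo n β A δ T ρ q S.F S.A S.DA
  law : Law2 n ε q S.F
  ε0 : 0 ≤ ε
  εn : (n : ℝ) ^ 20 * ε ≤ 1
  hl : 288 * q.x ^ 2 * kk n β ^ 2 * n ≤ 1

/-- the total mass -/
noncomputable abbrev Zs (S : CS n (kk n β) q.x) : ℝ := Ew q S.F (fun _ => 1)

/-- rarely large at a position -/
def RareS (S : CS n (kk n β) q.x) (A δ ρ : ℝ) (s : ℝ) (c : Fin 4 → ℝ) : Prop :=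
  En q S.F (fun w => if A * NN n β ρ < fr (S.A s (H712.lp c w)) then (1 : ℝ)
    else 0) ≤ δ

section mom

variable (h : NumS S A δ T ρ ε)
include h

lemma NumS.Z0 : 0 < Zs S := Ew_one_pos S.c11 h.fo.ok.x0

lemma NumS.rare0 : RareS S A δ ρ q.t0 (k0 q) := by
  have := h.fo.up0
  simp only [P0_lp] at this
  exact this

lemma NumS.rare1 : RareS S A δ ρ q.t1 (k1 q) := by
  have := h.fo.up1
  simp only [P1_lp] at this
  exact this

lemma NumS.rare2 : RareS S A δ ρ q.s1 (k2 q) := by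
  have := h.fo.up2
  simp only [R1C.P2_lp] at this
  exact this

lemma NumS.rare3 : RareS S A δ ρ q.s2 (k3 q) := by
  have := h.fo.up3
  simp only [R1C.P3_lp] at this
  exact this

/-- the moments of the size at a position, under the law of a pair -/
lemma NumS.size {s : ℝ} (c : Fin 4 → ℝ) (hs0 : 0 ≤ s) (hs1 : s ≤ 1)
    (hδ : RareS S A δ ρ s c) (b b' : Fin n) (p : ℕ) (hp : p ≤ 10) :
    ∫ w, ph q S.F b b' w *
      (s * (kk n β ^ 2 * fr (S.A s (H712.lp c w)))) ^ p ∂(gI (K4 (Pair n))) ≤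
      Zs S * (5 * (2 * A * ρ) ^ p) := by
  have hf : EG fun w : K4 (Pair n) → ℝ => fr (S.A s (H712.lp c w)) := by
    unfold fr
    exact EG.sum _ fun i _ => EG.sum _ fun j _ => (eg_lp c (tA_eg S _ i j)).pow 2
  have h1 := h.fo.mom_ph S.c11 (R := lf (row b ∪ row b')) (ε := ε)
    (fun f K hf h0 hK => by
      have := h.law.nlow S.c11 h.fo.ok.x0 b b' hf h0 hK
      linarith) h.ε0 h.εn hf
    (fun w => H325.fr_nonneg _) (fun w => S.fr_A_le _ _) hδ hs0 hs1 p hp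
  refine le_trans (le_of_eq ?_) h1
  refine integral_congr_ae (Filter.Eventually.of_forall fun w => ?_)
  simp only
  rw [← mul_assoc s]
  rfl

lemma NumS.t1p : 0 < q.t1 := by
  rw [h.fo.ht1]
  have := h.fo.T1
  linarith

lemma NumS.s1p : 0 < q.s1 := h.t1p.trans h.fo.hs1

lemma NumS.s1le : q.s1 ≤ 1 := h.fo.ok.h12.trans h.fo.ok.h2

lemma NumS.ind {b b' a : Fin n} (ha : a = b ∨ a = b') : Ind (lf (row a)) (ph q S.F b b') := by
  rcases ha with ha | ha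
  · rw [ha]; exact ind_ph1 b b'
  · rw [ha]; exact ind_ph2 b b'

/-- fourth moments of the columns -/
lemma NumS.c4 {s : ℝ} (c : Fin 4 → ℝ) (hcs : c 0 ^ 2 + c 1 ^ 2 + c 2 ^ 2 + c 3 ^ 2 = s)
    (hs0 : 0 < s) (hs1 : s ≤ 1) (hδ : RareS S A δ ρ s c) {b b' a : Fin n}
    (ha : a = b ∨ a = b') :
    ∫ w, ph q S.F b b' w * vn (H816.col (S.A s (H712.lp c w)) a) ^ 2
      ∂(gI (K4 (Pair n))) ≤ Zs S * (182 * (2 * A * ρ) ^ 2) := by
  have hq := h.fo.ok
  have h1 := full_gen S (a := 2) (C := 18) c (eg_ph (F := S.F) S.c11 hq b b')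
    (ph_nonneg S.c11 hq b b') (fun u hu => by nlinarith [sq_nonneg (u - 1)]) (by norm_num)
    (col4 S (b := a) c hcs hs0
      (eg_ph (F := S.F) S.c11 hq b b') (ph_nonneg S.c11 hq b b') (h.ind ha))
  have h2 := h.size c hs0.le hs1 hδ b b' 2 (by norm_num)
  refine h1.trans ?_
  rw [int_ph1 S.c11 hq]
  have hy : 1 ≤ (2 * A * ρ) ^ 2 := one_le_pow₀ h.fo.y1
  have hZ := h.Z0
  nlinarith

/-- eighth moments of the columns -/
lemma NumS.c8 {s : ℝ} (c : Fin 4 → ℝ) (hcs : c 0 ^ 2 + c 1 ^ 2 + c 2 ^ 2 + c 3 ^ 2 = s)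
    (hs0 : 0 < s) (hs1 : s ≤ 1) (hδ : RareS S A δ ρ s c) {b b' a : Fin n}
    (ha : a = b ∨ a = b') :
    ∫ w, ph q S.F b b' w * vn (H816.col (S.A s (H712.lp c w)) a) ^ 4
      ∂(gI (K4 (Pair n))) ≤ Zs S * (4449608 * (2 * A * ρ) ^ 4) := by
  have hq := h.fo.ok
  have h1 := col8 S (b := a) c hcs hs0
      (eg_ph (F := S.F) S.c11 hq b b') (ph_nonneg S.c11 hq b b') (h.ind ha)
  have h2 := h.size c hs0.le hs1 hδ b b' 4 (by norm_num)
  refine h1.trans ?_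
  rw [int_ph1 S.c11 hq]
  have hy : 1 ≤ (2 * A * ρ) ^ 4 := one_le_pow₀ h.fo.y1
  have hZ := h.Z0
  nlinarith

/-- the fourth moments at the time `t0`, which may be zero -/
lemma NumS.c4_t0 {b b' a : Fin n} (ha : a = b ∨ a = b') :
    ∫ w, ph q S.F b b' w * vn (H816.col (S.A q.t0 (H712.lp (k0 q) w)) a) ^ 2
      ∂(gI (K4 (Pair n))) ≤ Zs S * (182 * (2 * A * ρ) ^ 2) := by
  have hq := h.fo.ok
  rcases hq.h0.lt_or_eq with h0 | h0
  · exact h.c4 (k0 q) (k0_sum hq) h0 ((hq.h01.trans hq.h1).trans h.s1le) h.rare0 ha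
  · have e1 : ∀ w : K4 (Pair n) → ℝ, H712.lp (k0 q) w = fun _ => 0 := by
      intro w
      funext e
      rw [← P0_lp]
      simp [P0, p0, ← h0]
    have e2 : ∀ w : K4 (Pair n) → ℝ,
        vn (H816.col (S.A q.t0 (H712.lp (k0 q) w)) a) = 1 := by
      intro w
      rw [e1]
      unfold vn H816.col
      rw [Finset.sum_eq_single a]
      · rw [tA_self]
        norm_num
      · intro i _ hi
        have h1 := S.A_fl_row q.t0 hi (fun _ => 0)
        have h3 : fl a (fun _ : Pair n => (0 : ℝ)) = fun _ => 0 := by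
          funext e
          simp [fl]
        rw [h3] at h1
        have h2 : S.A q.t0 (fun _ => 0) i a = 0 := by linarith
        rw [h2]
        ring
      · intro hi
        exact absurd (Finset.mem_univ a) hi
    simp only [e2, one_pow, mul_one]
    rw [int_ph1 S.c11 hq]
    have hy : 1 ≤ (2 * A * ρ) ^ 2 := one_le_pow₀ h.fo.y1
    have hZ := h.Z0
    nlinarith

theorem NumS.h4 : H4 S (182 * (2 * A * ρ) ^ 2) := by
  intro b b' hb c hc
  have hq := h.fo.ok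
  simp only [R1C.P3_lp, P1_lp, P0_lp]
  exact ⟨h.c4 (k3 q) (k3_sum hq) (h.s1p.trans_le hq.h12) hq.h2 h.rare3 hc,
    h.c4 (k1 q) (k1_sum hq) h.t1p (hq.h1.trans h.s1le) h.rare1 hc, h.c4_t0 hc⟩

theorem NumS.h8 : H8 S (4449608 * (2 * A * ρ) ^ 4) := by
  intro b b' hb c hc
  have hq := h.fo.ok
  simp only [R1C.P3_lp, R1C.P2_lp]
  exact ⟨h.c8 (k2 q) (k2_sum hq) h.s1p h.s1le h.rare2 hc,
    h.c8 (k3 q) (k3_sum hq) (h.s1p.trans_le hq.h12) hq.h2 h.rare3 hc⟩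

/-- the moments of the size, under the law itself -/
lemma NumS.enY {s : ℝ} (c : Fin 4 → ℝ) (hs0 : 0 ≤ s) (hs1 : s ≤ 1)
    (hδ : RareS S A δ ρ s c) (p : ℕ) (hp : p ≤ 10) :
    En q S.F (fun w => (s * (kk n β ^ 2 * fr (S.A s (H712.lp c w)))) ^ p) ≤
      2 * (2 * A * ρ) ^ p := by
  have hf : EG fun w : K4 (Pair n) → ℝ => fr (S.A s (H712.lp c w)) := by
    unfold fr
    exact EG.sum _ fun i _ => EG.sum _ fun j _ => (eg_lp c (tA_eg S _ i j)).pow 2
  have h1 := h.fo.mom S.c11 hf (fun w => H325.fr_nonneg _) (fun w => S.fr_A_le _ _) hδ p (by omega)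
  have hk0 : 0 ≤ kk n β ^ 2 := sq_nonneg _
  have h2 := En_mono (q := q) (F := S.F) S.c11 h.fo.ok.x0
    (((hf.const_mul (kk n β ^ 2)).const_mul s).pow p) ((hf.pow p).const_mul ((kk n β ^ 2) ^ p))
    fun w => by
      rw [← mul_pow]
      have h3 : 0 ≤ kk n β ^ 2 * fr (S.A s (H712.lp c w)) :=
        mul_nonneg hk0 (H325.fr_nonneg _)
      exact pow_le_pow_left₀ (mul_nonneg hs0 h3) (mul_le_of_le_one_left h3 hs1) p
  rw [En_const_mul] at h2
  refine h2.trans ((mul_le_mul_of_nonneg_left h1 (by positivity)).trans (le_of_eq ?_))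
  have h4 : (kk n β ^ 2) ^ p * (A * NN n β ρ) ^ p = (2 * A * ρ) ^ p := by
    rw [← mul_pow, h.fo.k_y]
  rw [← h4]
  ring

lemma NumS.NN1 : 1 ≤ NN n β ρ := by
  have h1 := h.fo.ρ1
  have h2 := h.fo.n0
  have h3 := h.fo.β0
  have h4 := h.fo.βn
  unfold R1C.NN
  rw [le_div_iff₀ (by positivity)]
  nlinarith

lemma NumS.εp {p : ℕ} (hp : p ≤ 20) : (n : ℝ) ^ p * ε ≤ 1 := by
  refine le_trans (mul_le_mul_of_nonneg_right ?_ h.ε0) h.εn
  exact pow_le_pow_right₀ (by linarith [h.fo.n0]) hp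

/-- the number of the sixth moments -/
lemma NumS.m6 : m6S S q S.F ε ≤ 48884 * (2 * A * ρ) ^ 3 := by
  have hq := h.fo.ok
  have h1 : En q S.F (fun w => Y1 S q w ^ 3) ≤ 2 * (2 * A * ρ) ^ 3 :=
    h.enY (k2 q) h.s1p.le h.s1le h.rare2 3 (by norm_num)
  have h2 : En q S.F (fun w => Y2 S q w ^ 3) ≤ 2 * (2 * A * ρ) ^ 3 :=
    h.enY (k3 q) (h.s1p.le.trans hq.h12) hq.h2 h.rare3 3 (by norm_num)
  have h3 : ε * (kk n β ^ 2 * n ^ 2) ^ 3 ≤ 1 := by
    have h4 : (kk n β ^ 2 * (n : ℝ) ^ 2) ^ 3 ≤ (n : ℝ) ^ 6 := by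
      calc (kk n β ^ 2 * (n : ℝ) ^ 2) ^ 3 ≤ (1 * (n : ℝ) ^ 2) ^ 3 :=
            pow_le_pow_left₀ (by positivity)
              (mul_le_mul_of_nonneg_right h.fo.kk_le (by positivity)) 3
        _ = _ := by ring
    have h5 := mul_le_mul_of_nonneg_left h4 h.ε0
    have h6 := h.εp (p := 6) (by norm_num)
    linarith
  have hy : 1 ≤ (2 * A * ρ) ^ 3 := one_le_pow₀ h.fo.y1
  unfold m6S
  nlinarith

/-- the number of the touches -/
lemma NumS.dl : dlS S q S.F ε ≤ 17 * (A * NN n β ρ / T) := by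
  have hq := h.fo.ok
  have r1 : En q S.F (rat S q.s1 (k2 q)) ≤ A * NN n β ρ / T := by
    have := h.fo.rt2
    simp only [R1C.P2_lp] at this
    exact this
  have r2 : En q S.F (rat S q.s2 (k3 q)) ≤ A * NN n β ρ / T := by
    have := h.fo.rt3
    simp only [R1C.P3_lp] at this
    exact this
  have hN := h.NN1
  have hA := h.fo.A1
  have hT := h.fo.T1
  have hT0 := h.fo.Tp
  have hn := h.fo.n0
  have h1 : 1 ≤ A * NN n β ρ / T := by
    rw [le_div_iff₀ hT0]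
    nlinarith
  have h2 : 36 * (ε * (kk n β ^ 2 * (n : ℝ) ^ 4)) ≤ 1 := by
    have h3 : kk n β ^ 2 * (n : ℝ) ^ 4 ≤ (n : ℝ) ^ 4 :=
      mul_le_of_le_one_left (by positivity) h.fo.kk_le
    have h4 := mul_le_mul_of_nonneg_left h3 h.ε0
    have h5 : 36 * ((n : ℝ) ^ 4 * ε) ≤ (n : ℝ) ^ 20 * ε := by
      have h6 : (36 : ℝ) ≤ (n : ℝ) ^ 16 := by
        calc (36 : ℝ) ≤ 2 ^ 16 := by norm_num
          _ ≤ (n : ℝ) ^ 16 := pow_le_pow_left₀ (by norm_num) hn 16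
      have h7 : 0 ≤ (n : ℝ) ^ 4 * ε := mul_nonneg (by positivity) h.ε0
      calc 36 * ((n : ℝ) ^ 4 * ε) ≤ (n : ℝ) ^ 16 * ((n : ℝ) ^ 4 * ε) :=
            mul_le_mul_of_nonneg_right h6 h7
        _ = _ := by ring
    have h8 := h.εn
    nlinarith
  have hr1 : 0 ≤ En q S.F (rat S q.s1 (k2 q)) :=
    En_nonneg fun w => Finset.sum_nonneg fun _ _ => H325.fr_nonneg _
  have hr2 : 0 ≤ En q S.F (rat S q.s2 (k3 q)) :=
    En_nonneg fun w => Finset.sum_nonneg fun _ _ => H325.fr_nonneg _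
  have e1 := mul_le_of_le_one_left hr1 h.s1le
  have e2 := mul_le_of_le_one_left hr2 hq.h2
  unfold dlS
  linarith

lemma NumS.ls : 6 * q.x * kk n β * √(√(182 * (2 * A * ρ) ^ 2)) * √(4449608 * (2 * A * ρ) ^ 4) ≤
    lsk n β A ρ q := by
  have hy := h.fo.y1
  have h1 := ls_le (c4 := 4) (c8 := 2110) (m4 := 182 * (2 * A * ρ) ^ 2)
    (m8 := 4449608 * (2 * A * ρ) ^ 4) (y := 2 * A * ρ) h.fo.ok.x0.le h.fo.kk0.le (by linarith)
    (by norm_num) (by norm_num) (by nlinarith [sq_nonneg (2 * A * ρ)])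
    (by nlinarith [pow_nonneg (by linarith : 0 ≤ 2 * A * ρ) 4])
  unfold lsk
  linarith

/-- the law change -/
theorem NumS.lam : LamS S q S.F fun _ _ => Zs S *
    (6 * q.x * kk n β * √(√(182 * (2 * A * ρ) ^ 2)) * √(4449608 * (2 * A * ρ) ^ 4)) :=
  fun b b' hb U V X Y hU hV hX hY =>
    lam_S S h.fo.ok h.hl (by positivity) h.h4 h.h8 hb hU hV hX hY

theorem NumS.cl : ClS S q S.F (MS S q S.F) (dS S q S.F)
    fun _ _ => Zs S *
    (6 * q.x * kk n β * √(√(182 * (2 * A * ρ) ^ 2)) * √(4449608 * (2 * A * ρ) ^ 4)) :=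
  cl_cs S.c11 h.fo.ok.x0 (pr_cs S.c11 h.fo.ok h.s1p) h.lam

theorem NumS.nb : Nb q S.F (MS S q S.F) (dS S q S.F)
    (fun _ _ => Zs S *
    (6 * q.x * kk n β * √(√(182 * (2 * A * ρ) ^ 2)) * √(4449608 * (2 * A * ρ) ^ 4)))
    (48884 * (2 * A * ρ) ^ 3) (17 * (A * NN n β ρ / T)) (lsk n β A ρ q) where
  m0 := by
    have := h.fo.y1
    positivity
  l0 := by
    have := h.fo.y1
    have := h.fo.kk0
    have := h.fo.ok.x0
    unfold lsk
    positivity
  d0 b b' _ := Real.sqrt_nonneg _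
  hM b b' _ := (M_le S.c11 h.fo.ok h.law.low b b').trans
    (mul_le_mul_of_nonneg_left h.m6 h.Z0.le)
  hδ := (d_le S.c11 h.fo.ok h.law.low h.ε0 h.s1p).trans (mul_le_mul_of_nonneg_left h.dl h.Z0.le)
  hl b b' _ := mul_le_mul_of_nonneg_left h.ls h.Z0.le

/-! ### the final form -/

lemma NumS.ls_num : (n : ℝ) ^ 2 * lsk n β A ρ q ≤
    50640 * (β ^ 6 * A ^ 3 * (q.x * (√(NN n β ρ) / n) * NN n β ρ ^ 2)) := by
  have hn := h.fo.n0
  have h1 := num_ls (n := n) (β := β) (A := A) (N := NN n β ρ) (x := q.x) (k := kk n β)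
    (y := 2 * A * ρ) (by linarith) h.fo.β0 h.fo.A1 h.fo.ok.x0.le h.fo.kk2 h.fo.kk0.le h.fo.k_y
  unfold lsk
  calc (n : ℝ) ^ 2 * (50640 * (q.x * (kk n β * √(2 * A * ρ)) * (2 * A * ρ) ^ 2))
      = 50640 * ((n : ℝ) ^ 2 * (q.x * (kk n β * √(2 * A * ρ)) * (2 * A * ρ) ^ 2)) := by ring
    _ ≤ _ := mul_le_mul_of_nonneg_left h1 (by norm_num)

lemma NumS.dl_num : n * √(48884 * (2 * A * ρ) ^ 3 * (17 * (A * NN n β ρ / T))) ≤
    912 * (β ^ 3 * A ^ 2 * (NN n β ρ ^ 2 / √(n * T))) := by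
  have hn := h.fo.n0
  have h1 := num_dl (n := n) (β := β) (A := A) (N := NN n β ρ) (k := kk n β)
    (y := 2 * A * ρ) (T := T) (by linarith) h.fo.β0 h.fo.A1 h.fo.kk2 h.fo.Tp h.fo.k_y
  rw [← h1]
  have hy := h.fo.y1
  have hN := h.fo.N0
  have hA := h.fo.A1
  have hT := h.fo.Tp
  have h2 : (0 : ℝ) ≤ (2 * A * ρ) ^ 3 * (A * NN n β ρ / T) := by positivity
  have h3 : √(48884 * (2 * A * ρ) ^ 3 * (17 * (A * NN n β ρ / T))) ≤
      912 * √((2 * A * ρ) ^ 3 * (A * NN n β ρ / T)) := by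
    rw [show (912 : ℝ) = √(912 ^ 2) from (Real.sqrt_sq (by norm_num)).symm,
      ← Real.sqrt_mul (by norm_num)]
    refine Real.sqrt_le_sqrt ?_
    nlinarith
  calc n * √(48884 * (2 * A * ρ) ^ 3 * (17 * (A * NN n β ρ / T)))
      ≤ n * (912 * √((2 * A * ρ) ^ 3 * (A * NN n β ρ / T))) :=
        mul_le_mul_of_nonneg_left h3 (by linarith)
    _ = _ := by ring

lemma NumS.eC_parts : 0 ≤ β ^ 6 * A ^ 3 * (q.x * (√(NN n β ρ) / n) * NN n β ρ ^ 2) ∧
    0 ≤ β ^ 3 * A ^ 2 * (NN n β ρ ^ 2 / √(n * T)) := by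
  have hn := h.fo.n0
  have hN := h.fo.N0
  have hA := h.fo.A1
  have hT := h.fo.Tp
  have hβ := h.fo.β0
  have hx := h.fo.ok.x0
  constructor <;> positivity

/-- **(T1), numbers** -/
theorem NumS.n1 : ∑ b, ∑ b' ∈ Finset.univ.erase b,
      En q S.F (fun w => Gb S q b b' w) ≤
    En q S.F (Dg S q) + 101280 * eC n β A T ρ q := by
  have h1 := h.cl.n1 h.nb S.c11 h.fo.ok.x0
  have h2 := h.ls_num
  have h3 := h.dl_num
  obtain ⟨h4, h5⟩ := h.eC_parts
  unfold eC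
  linarith

/-- **(T2), numbers** -/
theorem NumS.n2 : En q S.F (fun w => fr (A1 S q w * A2 S q w -
      A2 S q w * A1 S q w)) ≤
    (∑ b, ∑ b' ∈ Finset.univ.erase b,
      En q S.F (fun w => fr (Nd S q b b' w - (Nd S q b b' w)ᵀ))) +
    2 * (∑ b, ∑ b' ∈ Finset.univ.erase b, En q S.F (fun w => Gb S q b b' w)) +
    202560 * eC n β A T ρ q := by
  have h1 := h.cl.n2 h.nb S.c11 h.fo.ok.x0
  have h2 := h.ls_num
  have h3 := h.dl_num
  obtain ⟨h4, h5⟩ := h.eC_parts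
  unfold eC
  linarith

/-- **(T3), numbers** -/
theorem NumS.n3 : En q S.F (fun w => fr (A1 S q w * A2 S q w)) ≤
    En q S.F (Dg S q) +
    (∑ b, ∑ b' ∈ Finset.univ.erase b,
      En q S.F (fun w => fr (Nd S q b b' w))) + 50640 * eC n β A T ρ q := by
  have h1 := h.cl.n3 h.nb S.c11 h.fo.ok.x0
  have h2 := h.ls_num
  have h3 := h.dl_num
  obtain ⟨h4, h5⟩ := h.eC_parts
  unfold eC
  linarith

lemma NumS.y_eq : 2 * A * ρ = β ^ 2 * (A * NN n β ρ) / n := by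
  have h1 := h.fo.k_y
  have h2 := h.fo.kk2
  have hn := h.fo.n0
  rw [← h1, ← h2]
  field_simp

omit h in
lemma vn_le_nS {s : ℝ} (z : Pair n → ℝ) (b : Fin n) : vn (H816.col (S.A s z) b) ≤ n := by
  unfold vn H816.col
  have h1 : ∀ i, S.A s z i b ^ 2 ≤ 1 := fun i => by
    rw [← sq_abs]
    exact pow_le_one₀ (abs_nonneg _) (tA_abs S s z i b)
  refine (Finset.sum_le_sum fun i _ => h1 i).trans (le_of_eq ?_)
  simp

/-- the second moment of the square of a column under the law -/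
lemma NumS.vn2 {s : ℝ} (c : Fin 4 → ℝ) (hcs : c 0 ^ 2 + c 1 ^ 2 + c 2 ^ 2 + c 3 ^ 2 = s)
    (hs0 : 0 < s) (hs1 : s ≤ 1) (hδ : RareS S A δ ρ s c) (b : Fin n) :
    En q S.F (fun w => vn (H816.col (S.A s (H712.lp c w)) b) ^ 2) ≤
      365 * (2 * A * ρ) ^ 2 := by
  have hq := h.fo.ok
  have hf : EG fun w : K4 (Pair n) → ℝ =>
      vn (H816.col (S.A s (H712.lp c w)) b) ^ 2 := by
    unfold vn H816.col
    exact (EG.sum _ fun i _ => (eg_lp c (tA_eg S _ i b)).pow 2).pow 2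
  have h1 := h.law.nup S.c11 hq.x0 b b hf (K := (n : ℝ) ^ 2) (fun w => sq_nonneg _)
    (fun w => pow_le_pow_left₀ (Finset.sum_nonneg fun _ _ => sq_nonneg _) (vn_le_nS _ b) 2)
  have h2 := h.c4 c hcs hs0 hs1 hδ (b := b) (b' := b) (a := b) (Or.inl rfl)
  have h3 : ∫ w, ph q S.F b b w * vn (H816.col (S.A s (H712.lp c w)) b) ^ 2
      ∂(gI (K4 (Pair n))) = Zs S * En q S.F (Av (lf (row b ∪ row b)) fun w =>
        vn (H816.col (S.A s (H712.lp c w)) b) ^ 2) :=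
    int_Av_dens S.c11 hq.x0 hf
  rw [h3] at h2
  have h4 := le_of_mul_le_mul_left h2 h.Z0
  have h5 := h.εp (p := 2) (by norm_num)
  have hy : 1 ≤ (2 * A * ρ) ^ 2 := one_le_pow₀ h.fo.y1
  nlinarith

/-- **(D)**, the diagonal term -/
theorem NumS.dg : En q S.F (Dg S q) ≤
    365 * (β ^ 4 * A ^ 2 * (NN n β ρ ^ 2 / n)) := by
  have hq := h.fo.ok
  have hn := h.fo.n0
  have e1 : ∀ b : Fin n, EG fun w : K4 (Pair n) → ℝ =>
      vn (H816.col (S.A q.s1 (H712.lp (k2 q) w)) b) ^ 2 := fun b => by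
    unfold vn H816.col
    exact (EG.sum _ fun i _ => (eg_lp _ (tA_eg S _ i b)).pow 2).pow 2
  have e2 : ∀ b : Fin n, EG fun w : K4 (Pair n) → ℝ =>
      vn (H816.col (S.A q.s2 (H712.lp (k3 q) w)) b) ^ 2 := fun b => by
    unfold vn H816.col
    exact (EG.sum _ fun i _ => (eg_lp _ (tA_eg S _ i b)).pow 2).pow 2
  have eD : EG (Dg S q) := by
    unfold R1S.Dg vn H816.col
    exact EG.sum _ fun b _ => (EG.sum _ fun i _ => (R1S.eg_A1 i b).pow 2).mul
      (EG.sum _ fun i _ => (R1S.eg_A2 i b).pow 2)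
  have h1 : En q S.F (Dg S q) ≤ En q S.F (fun w => ∑ b : Fin n, 1 / 2 *
      (vn (H816.col (S.A q.s1 (H712.lp (k2 q) w)) b) ^ 2 +
        vn (H816.col (S.A q.s2 (H712.lp (k3 q) w)) b) ^ 2)) := by
    refine En_mono S.c11 hq.x0 eD (EG.sum _ fun b _ => ((e1 b).add (e2 b)).const_mul _)
      fun w => ?_
    unfold R1S.Dg R1S.A1 R1S.A2
    rw [R1C.P2_lp, R1C.P3_lp]
    refine Finset.sum_le_sum fun b _ => ?_
    nlinarith [sq_nonneg (vn (H816.col (S.A q.s1 (H712.lp (k2 q) w)) b) -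
      vn (H816.col (S.A q.s2 (H712.lp (k3 q) w)) b))]
  have h2 : En q S.F (fun w => ∑ b : Fin n, 1 / 2 *
      (vn (H816.col (S.A q.s1 (H712.lp (k2 q) w)) b) ^ 2 +
        vn (H816.col (S.A q.s2 (H712.lp (k3 q) w)) b) ^ 2)) =
      ∑ b : Fin n, 1 / 2 *
      (En q S.F (fun w => vn (H816.col (S.A q.s1 (H712.lp (k2 q) w)) b) ^ 2) +
        En q S.F
          (fun w => vn (H816.col (S.A q.s2 (H712.lp (k3 q) w)) b) ^ 2)) := by
    have hd := eg_dens (q := q) (F := S.F) S.c11 hq.x0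
    have h3 : Ew q S.F (fun w => ∑ b : Fin n, 1 / 2 *
      (vn (H816.col (S.A q.s1 (H712.lp (k2 q) w)) b) ^ 2 +
        vn (H816.col (S.A q.s2 (H712.lp (k3 q) w)) b) ^ 2)) =
        ∑ b : Fin n, 1 / 2 *
      (Ew q S.F (fun w => vn (H816.col (S.A q.s1 (H712.lp (k2 q) w)) b) ^ 2) +
        Ew q S.F
          (fun w => vn (H816.col (S.A q.s2 (H712.lp (k3 q) w)) b) ^ 2)) := by
      unfold Ew
      simp only [Finset.mul_sum]
      rw [integral_finsetSum _ fun b _ =>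
        (hd.mul (((e1 b).add (e2 b)).const_mul (1 / 2))).integrable]
      refine Finset.sum_congr rfl fun b _ => ?_
      rw [← integral_add (hd.mul (e1 b)).integrable (hd.mul (e2 b)).integrable,
        ← integral_const_mul]
      refine integral_congr_ae (Filter.Eventually.of_forall fun w => ?_)
      simp only
      ring
    unfold En
    rw [h3, Finset.sum_div]
    refine Finset.sum_congr rfl fun b _ => ?_
    ring
  rw [h2] at h1
  refine h1.trans ?_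
  have h4 : ∀ b : Fin n, 1 / 2 *
      (En q S.F (fun w => vn (H816.col (S.A q.s1 (H712.lp (k2 q) w)) b) ^ 2) +
        En q S.F
          (fun w => vn (H816.col (S.A q.s2 (H712.lp (k3 q) w)) b) ^ 2)) ≤
      365 * (2 * A * ρ) ^ 2 := by
    intro b
    have g1 := h.vn2 (k2 q) (k2_sum hq) h.s1p h.s1le h.rare2 b
    have g2 := h.vn2 (k3 q) (k3_sum hq) (h.s1p.trans_le hq.h12) hq.h2 h.rare3 b
    linarith
  refine (Finset.sum_le_sum fun b _ => h4 b).trans (le_of_eq ?_)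
  rw [Finset.sum_const, Finset.card_univ, Fintype.card_fin, nsmul_eq_mul, h.y_eq]
  have : (n : ℝ) ≠ 0 := by positivity
  field_simp

end mom

end Vale.Agent.P146.X7.R1S
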