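import Vale.Agent.P146.X7.H712_BtS
import Vale.Agent.P146.H504.Cum6

/-!
The sup bound of the derivatives of a position system all of whose derivatives are dominated
(`Fn`), and the sums of the smallness functional without the hypothesis `hKR`.
-/

open MeasureTheory ProbabilityTheory Matrix

namespace Vale.Agent.P146.X7.H712

open Vale.Agent.P146.H712

open Vale.Agent.P157.Lv Vale.Agent.P146.H425 Vale.Agent.P146.H325
  Vale.Agent.P146.H332 Vale.Agent.P146.R1 Vale.Agent.P146.R1C Vale.Agent.P146.H633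
  Vale.Agent.P146.R1S Vale.Agent.P146.Cum
open Vale.Agent.P146.X7.H425 Vale.Agent.P146.X7.H325 Vale.Agent.P146.X7.H332 Vale.Agent.P146.X7.R1 Vale.Agent.P146.X7.R1C Vale.Agent.P146.X7.H633 Vale.Agent.P146.X7.R1S

set_option linter.unusedSectionVars false

lemma abs_ev_le {ι X : Type} [Fintype ι] [DecidableEq ι] [Fintype X] [DecidableEq X] {α : Type}
    [Fintype α] [DecidableEq α] {μ : (ι → ℝ) → X → ℝ} {c : ℝ} {T : (ι → ℝ) → (α → X) → ℝ}
    (h : Dm μ c T) {g : α → X → ℝ} (hg : ∀ a x, |g a x| ≤ 1) (z : ι → ℝ) : |ev T g z| ≤ c := by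
  obtain ⟨P, M, p, m, hP, hM, h0, h1⟩ := h
  have h2 : |ev T g z| ≤ ∑ x, (P z x + M z x) := by
    unfold ev
    refine (Finset.abs_sum_le_sum_abs _ _).trans (Finset.sum_le_sum fun x _ => ?_)
    rw [abs_mul, h0, Finset.abs_prod]
    have b1 : ∏ a, |g a (x a)| ≤ 1 :=
      Finset.prod_le_one (fun a _ => abs_nonneg _) fun a _ => hg a _
    have b2 : |P z x - M z x| ≤ P z x + M z x := by
      rw [abs_le]
      constructor <;> linarith [hP.nn z x, hM.nn z x]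
    calc |P z x - M z x| * ∏ a, |g a (x a)| ≤ |P z x - M z x| * 1 :=
          mul_le_mul_of_nonneg_left b1 (abs_nonneg _)
      _ ≤ _ := by linarith
  rw [Finset.sum_add_distrib, hP.mass, hM.mass] at h2
  linarith

section fn

variable {n : ℕ} {k x s Γ : ℝ} (S : CS n k x)

/-- **The sup bound of the derivatives.** -/
theorem abs_DA_le (hFn : Fn k SkS (uu x s S.F) (S.mu s) Γ) (e : Pair n) (z : Pair n → ℝ)
    (i j : Fin n) : |S.DA s e z i j| ≤ |k| * Γ := by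
  obtain ⟨-, T', h1, h2⟩ := hFn.good 1
  have eA : (fun z => S.A s z i j) =
      ev (fun z (x : Unit → Fin n → ℤˣ) => S.mu s z (x ())) (fun _ => pr i j) := by
    funext z
    rw [S.A_mu]
    unfold ev
    rw [← sum_unit (fun v => S.mu s z v * pr i j v)]
    exact Finset.sum_congr rfl fun x _ => by simp
  have p1 := pd_ev h1 (fun _ => pr i j) e
  have p2 := tpd S s e i j
  rw [eA] at p2
  have h3 : S.DA s e z i j = k * ev T' (exg (fun _ => pr i j) (SkS e)) z := by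
    have h3 := (p2 z (z e)).unique (p1 z (z e))
    rwa [Function.update_eq_self] at h3
  have h4 : Dm (S.mu s) Γ T' := Dm.mono (show Dm (S.mu s) _ T' from h2) (by simp)
  rw [h3, abs_mul]
  refine mul_le_mul_of_nonneg_left (abs_ev_le h4 (fun a y => ?_) z) (abs_nonneg k)
  rcases a with _ | a
  · exact (R1S.abs_pr e.1.1 e.1.2 y).le
  · exact (R1S.abs_pr i j y).le

lemma card_pair_le : (Fintype.card (Pair n) : ℝ) ≤ (n : ℝ) ^ 2 := by
  have h1 : Fintype.card (Pair n) ≤ Fintype.card (Fin n × Fin n) := Fintype.card_subtype_le _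
  rw [Fintype.card_prod, Fintype.card_fin] at h1
  have h2 : (Fintype.card (Pair n) : ℝ) ≤ ((n * n : ℕ) : ℝ) := by exact_mod_cast h1
  push_cast at h2
  nlinarith

theorem rt_le_fn (hFn : Fn k SkS (uu x s S.F) (S.mu s) Γ) (hk : k ^ 2 ≤ 1) (hn : 1 ≤ n)
    (hΓ : Γ ≤ (n : ℝ) ^ 8) (z : Pair n → ℝ) : rt S.DA s z ≤ (n : ℝ) ^ 20 := by
  have hn1 : (1 : ℝ) ≤ n := by exact_mod_cast hn
  have h0 := hFn.Γ0
  have h1 : ∀ e i j, S.DA s e z i j ^ 2 ≤ (n : ℝ) ^ 16 := by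
    intro e i j
    have a1 := abs_DA_le S hFn e z i j
    have a2 := pow_le_pow_left₀ (abs_nonneg _) a1 2
    rw [sq_abs, mul_pow, sq_abs] at a2
    have a3 : Γ ^ 2 ≤ ((n : ℝ) ^ 8) ^ 2 := pow_le_pow_left₀ h0 hΓ 2
    have a4 : k ^ 2 * Γ ^ 2 ≤ 1 * ((n : ℝ) ^ 8) ^ 2 :=
      mul_le_mul hk a3 (by positivity) (by norm_num)
    have a5 : 1 * ((n : ℝ) ^ 8) ^ 2 = (n : ℝ) ^ 16 := by ring
    linarith
  have h2 : ∀ e, fr (S.DA s e z) ≤ (n : ℝ) ^ 18 := by
    intro e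
    unfold H332.fr
    refine (Finset.sum_le_sum fun i _ => Finset.sum_le_sum fun j _ => h1 e i j).trans
      (le_of_eq ?_)
    simp only [Finset.sum_const, Finset.card_univ, Fintype.card_fin, nsmul_eq_mul]
    ring
  unfold rt
  refine (Finset.sum_le_sum fun e _ => h2 e).trans ?_
  rw [Finset.sum_const, Finset.card_univ, nsmul_eq_mul]
  calc (Fintype.card (Pair n) : ℝ) * (n : ℝ) ^ 18 ≤ (n : ℝ) ^ 2 * (n : ℝ) ^ 18 :=
        mul_le_mul_of_nonneg_right card_pair_le (by positivity)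
    _ = (n : ℝ) ^ 20 := by ring

end fn

section fo

variable {n : ℕ} {β A δ T ρ Γ : ℝ} {q : Par}

lemma Fo_kk {F : (Pair n → ℝ) → ℝ} {AM : ℝ → (Pair n → ℝ) → Matrix (Fin n) (Fin n) ℝ}
    {DM : ℝ → Pair n → (Pair n → ℝ) → Matrix (Fin n) (Fin n) ℝ}
    (h : Fo n β A δ T ρ q F AM DM) : kk n β ^ 2 ≤ 1 := by
  have hn := h.n0
  have h1 := R1C.kk_sq (n := n) (by have := h.n2; omega) β
  have h2 := h.βn
  rw [← h1] at h2
  have hn0 : (0 : ℝ) < n := by linarith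
  nlinarith

/-- the hypothesis `hKR` for a dominated system -/
theorem hKR_fn (S : CS n (kk n β) q.x) (h : Fo n β A δ T ρ q S.F S.A S.DA)
    (hFn : ∀ s, Fn (kk n β) SkS (uu q.x s S.F) (S.mu s) Γ) (hΓ : Γ ≤ (n : ℝ) ^ 8) :
    ∀ s z, rt S.DA s z ≤ (n : ℝ) ^ 20 := fun s z =>
  rt_le_fn S (hFn s) (Fo_kk h) (by have := h.n2; omega) hΓ z

/-- the hypothesis `hKR` for the SK model -/
theorem hKR_sk (hk : 0 < kk n β) (hx : 0 < q.x) (hx1 : q.x ≤ 1)
    (h : Fo n β A δ T ρ q (skCS n hk hx hx1).F (skCS n hk hx hx1).A (skCS n hk hx hx1).DA) :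
    ∀ s z, rt (skCS n hk hx hx1).DA s z ≤ (n : ℝ) ^ 20 := by
  refine hKR_fn (skCS n hk hx hx1) h (fun s => fn_skCS hk hx hx1 s) ?_
  have h2 := h.n0
  calc (4 : ℝ) ≤ 2 ^ 8 := by norm_num
    _ ≤ _ := pow_le_pow_left₀ (by norm_num) h2 8

/-- **(BT3)** at the time `s1`, for a dominated system. -/
theorem bt3_two' (S : CS n (kk n β) q.x) (h : Fo n β A δ T ρ q S.F S.A S.DA)
    (hL : Law2 n ((n : ℝ) ^ 200)⁻¹ q S.F)
    (hFn : Fn (kk n β) SkS (uu q.x q.s1 S.F) (S.mu q.s1) Γ) (hΓ : Γ ≤ (n : ℝ) ^ 8) :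
    ∑ b : Fin n, ∑ b' ∈ Finset.univ.erase b,
        En q S.F (fun w => Th q.s1 (row b ∪ row b') (S.A q.s1) (KV S q.s1) (P2 q w)) ≤
      n ^ 2 * (R1C.NN n β ρ) ^ 2 * (3 * A / (q.x ^ 2 * ρ * T) + 16 * A ^ 2 / (n * T)) := by
  have hT := h.Tp
  have hT1 := h.T1
  have h1 := h.hs1
  have h2 := h.hs12
  have h3 := h.hs2
  have h4 := h.ht1
  exact bt3_pos S h hL (by linarith) (by linarith) (fun f hf => eg_P2 hf)
    (fun f hf R w => Av_lf_P2 h.ok hf R w) h.up2 h.rt2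
    fun z => rt_le_fn S hFn (Fo_kk h) (by have := h.n2; omega) hΓ z

/-- **(BT3)** at the time `s2`, for a dominated system. -/
theorem bt3_three' (S : CS n (kk n β) q.x) (h : Fo n β A δ T ρ q S.F S.A S.DA)
    (hL : Law2 n ((n : ℝ) ^ 200)⁻¹ q S.F)
    (hFn : Fn (kk n β) SkS (uu q.x q.s2 S.F) (S.mu q.s2) Γ) (hΓ : Γ ≤ (n : ℝ) ^ 8) :
    ∑ b : Fin n, ∑ b' ∈ Finset.univ.erase b,
        En q S.F (fun w => Th q.s2 (row b ∪ row b') (S.A q.s2) (KV S q.s2) (P3 q w)) ≤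
      n ^ 2 * (R1C.NN n β ρ) ^ 2 * (3 * A / (q.x ^ 2 * ρ * T) + 16 * A ^ 2 / (n * T)) := by
  have hT := h.Tp
  have hT1 := h.T1
  have h1 := h.hs1
  have h2 := h.hs12
  have h3 := h.hs2
  have h4 := h.ht1
  exact bt3_pos S h hL (by linarith) (by linarith) (fun f hf => eg_P3 hf)
    (fun f hf R w => Av_lf_P3 h.ok hf R w) h.up3 h.rt3
    fun z => rt_le_fn S hFn (Fo_kk h) (by have := h.n2; omega) hΓ z

end fo

end Vale.Agent.P146.X7.H712
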