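import Vale.Agent.P146.X7.H604_HNum
import Vale.Agent.P146.X7.H816_SkNS
import Vale.Agent.P146.H941.HRowS

/-!
R1, block C: the h-row for a position system which satisfies the output of the block F.
-/

open MeasureTheory ProbabilityTheory

namespace Vale.Agent.P146.X7.R1S

open Vale.Agent.P146.R1S

open Vale.Agent.P157.Lv Vale.Agent.P146.H425 Vale.Agent.P146.H325
  Vale.Agent.P146.H712 Vale.Agent.P146.H816 Vale.Agent.P146.R1 Vale.Agent.P146.R1C
  Vale.Agent.P146.H604 Matrix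
open Vale.Agent.P146.X7.H425 Vale.Agent.P146.X7.H325 Vale.Agent.P146.X7.H712 Vale.Agent.P146.X7.H816 Vale.Agent.P146.X7.R1 Vale.Agent.P146.X7.R1C Vale.Agent.P146.X7.H604
open Vale.Agent.P146.H332 hiding Nf Gf
open Vale.Agent.P146.X7.H332

set_option linter.unusedSectionVars false

section mono

variable {n : ℕ} {k x : ℝ} {S : CS n k x} {q : Par} {F : (Pair n → ℝ) → ℝ}
  {M M' δ : Fin n → Fin n → ℝ}

/-- larger moments -/
lemma PrS.mono (h : PrS S q F M δ) (hM : ∀ b b', b' ≠ b → M b b' ≤ M' b b') :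
    PrS S q F M' δ := by
  intro b b' hb
  have p := h b b' hb
  have m := hM b b' hb
  exact
    { p with
      mA := p.mA.trans m
      mD := p.mD.trans m
      mA' := p.mA'.trans m
      mD' := p.mD'.trans m
      ma := p.ma.trans m
      md := p.md.trans m
      ma' := p.ma'.trans m
      md' := p.md'.trans m }

end mono

variable {n : ℕ} {β A δ T ρ ε s : ℝ} {q : Par} {S : CS n (kk n β) q.x}

lemma DA_sum_le (hk : kk n β ^ 2 ≤ 1) (hs : 0 < s) (z : Pair n → ℝ) :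
    ∑ e, fr (S.DA s e z) ≤ 9 * (n : ℝ) ^ 4 := by
  have h1 : ∀ e : Pair n, fr (S.DA s e z) ≤ (n : ℝ) ^ 2 := by
    intro e
    unfold fr
    refine (Finset.sum_le_sum fun i _ => Finset.sum_le_sum fun j _ =>
      (S.DA_sq_le hs e z i j).trans hk).trans ?_
    simp only [Finset.sum_const, Finset.card_univ, Fintype.card_fin, nsmul_eq_mul]
    exact le_of_eq (by ring)
  refine (Finset.sum_le_sum fun e _ => h1 e).trans ?_
  rw [Finset.sum_const, Finset.card_univ, nsmul_eq_mul]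
  have h2 : (Fintype.card (Pair n) : ℝ) ≤ (n : ℝ) ^ 2 := by
    have h3 := Fintype.card_subtype_le (fun p : Fin n × Fin n => p.1 < p.2)
    rw [Fintype.card_prod, Fintype.card_fin] at h3
    calc (Fintype.card (Pair n) : ℝ) ≤ ((n * n : ℕ) : ℝ) := by exact_mod_cast h3
      _ = (n : ℝ) ^ 2 := by push_cast; ring
  have h4 : (0 : ℝ) ≤ (n : ℝ) ^ 4 := by positivity
  calc (Fintype.card (Pair n) : ℝ) * (n : ℝ) ^ 2 ≤ (n : ℝ) ^ 2 * (n : ℝ) ^ 2 :=
        mul_le_mul_of_nonneg_right h2 (by positivity)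
    _ ≤ _ := by nlinarith

/-- the size of `A N / n` -/
lemma Wn_S (h : Fo n β A δ T ρ q S.F S.A S.DA) :
    A * NN n β ρ / n ≤ (1 + 1 / β ^ 2) * (2 * A * ρ) := by
  have hn := h.n0
  have hβ := h.β0
  have e : A * NN n β ρ / n = 1 / β ^ 2 * (2 * A * ρ) := by
    unfold R1C.NN
    field_simp
  rw [e]
  have := h.y1
  nlinarith

/-- the inputs of the h-row at one time -/
lemma hin_S (h : NumS S A δ T ρ ε) {u : ℝ} (hu : 2 * A * ρ ≤ u) (huW : A * NN n β ρ / n ≤ u)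
    (c : Fin 4 → ℝ) (hcs : c 0 ^ 2 + c 1 ^ 2 + c 2 ^ 2 + c 3 ^ 2 = s) (hs : 0 < s) (hs1 : s ≤ 1)
    (hδ : RareS S A δ ρ s c)
    (hrt : En q S.F (fun w => ∑ e, fr (S.DA s e (H712.lp c w))) ≤ A * NN n β ρ / T) :
    ∃ ζ : Fin n → Fin n → ℝ, HIn q S.F
      (fun w => S.A s (H712.lp c w))
      (fun _ _ => Ew q S.F (fun _ => 1) * (48884 * u ^ 3))
      (fun _ _ => Ew q S.F (fun _ => 1) * (182 * (2 * A * ρ) ^ 2)) ζ
      (fun _ _ => Ew q S.F (fun _ => 1) *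
        (6 * q.x * kk n β * √(√(182 * (2 * A * ρ) ^ 2)) * √(4449608 * u ^ 4))) ∧
      (∀ b b', 0 ≤ ζ b b') ∧
      ∑ b : Fin n, ∑ b' ∈ Finset.univ.erase b, ζ b b' ^ 2 ≤
        Ew q S.F (fun _ => 1) * (68 * ((A * NN n β ρ) ^ 2 / (n * T))) := by
  have hq := h.fo.ok
  have hy := h.fo.y1
  have hE := h.Z0
  have hu1 : 1 ≤ u := hy.trans hu
  have hy4 : (2 * A * ρ) ^ 4 ≤ u ^ 4 := pow_le_pow_left₀ (by linarith) hu 4
  have one3 : 1 ≤ u ^ 3 := one_le_pow₀ hu1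
  have one4 : 1 ≤ u ^ 4 := one_le_pow₀ hu1
  have hA1 := h.fo.A1
  have hN1 := h.NN1
  exact hin_gen S.c11 hq h.law.low h.ε0 h.εn h.fo.n0 (fun i j => S.eg_A s i j)
    (fun e i j => S.eg_DA s e i j) (fun e i j => S.pd_A s e i j) (by rw [hcs]; exact hs1)
    (fun z => S.fr_A_le s z) (fun z => DA_sum_le h.fo.kk_le hs z) (by nlinarith) h.fo.δ0 hδ
    h.fo.δn h.fo.Tp h.fo.T1 hrt huW hu1 (by linarith)
    (fun b b' _ => h.c4 c hcs hs hs1 hδ (Or.inl rfl))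
    (fun b b' _ i hi => (h.c8 c hcs hs hs1 hδ hi).trans (mul_le_mul_of_nonneg_left
      (by linarith) hE.le))
    (fun b b' hb f hf hm => lam_gen_S S hq h.hl (by positivity) h.h4 hb hf hm)
    (fun b b' _ => mul_le_mul_of_nonneg_left (by linarith) hE.le)

/-- **The h-row**, at both times. -/
theorem NumS.hrow (h : NumS S A δ T ρ ε) :
    ∑ b, ∑ b' ∈ Finset.univ.erase b, En q S.F (fun w => hd1 S q b b' w ^ 2) ≤
      Hc β 4 * A ^ 3 * (q.x * (√(NN n β ρ) / n) * NN n β ρ ^ 2 + NN n β ρ ^ 2 / √(n * T)) ∧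
    ∑ b, ∑ b' ∈ Finset.univ.erase b, En q S.F (fun w => hd2 S q b b' w ^ 2) ≤
      Hc β 4 * A ^ 3 * (q.x * (√(NN n β ρ) / n) * NN n β ρ ^ 2 + NN n β ρ ^ 2 / √(n * T)) := by
  have hc := S.c11
  have hq := h.fo.ok
  have hy := h.fo.y1
  have hn := h.fo.n0
  have hE := h.Z0
  have hβ := h.fo.β0
  have hs1p := h.s1p
  obtain ⟨y, hyy⟩ : ∃ y, y = 2 * A * ρ := ⟨_, rfl⟩
  obtain ⟨g, hg⟩ : ∃ g, g = 1 + 1 / β ^ 2 := ⟨_, rfl⟩
  have hg1 : 1 ≤ g := by
    rw [hg]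
    have : 0 ≤ 1 / β ^ 2 := by positivity
    linarith
  have hWn := Wn_S h.fo
  rw [← hyy, ← hg] at hWn
  rw [← hyy] at hy
  have hyg : y ≤ g * y := by nlinarith
  obtain ⟨Z, hZ⟩ : ∃ Z, Z = Ew q S.F (fun _ : K4 (Pair n) → ℝ => (1 : ℝ)) := ⟨_, rfl⟩
  have hZ0 : 0 < Z := by rw [hZ]; exact hE
  have hm6 : m6S S q S.F ε ≤ 48884 * (g * y) ^ 3 := by
    refine h.m6.trans ?_
    rw [← hyy]
    have := pow_le_pow_left₀ (by linarith) hyg 3
    linarith
  have hP0 := pr_cs (S := S) hc hq hs1p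
  have hP := PrS.mono (M' := fun _ _ => Z * (48884 * (g * y) ^ 3)) hP0 fun b b' _ => by
    refine (M_le hc hq h.law.low b b').trans ?_
    rw [← hZ]
    exact mul_le_mul_of_nonneg_left hm6 hZ0.le
  have hT := h.fo.Tp
  have hN := h.fo.N0
  have hA := h.fo.A1
  have hk0 := h.fo.kk0
  have hx := hq.x0
  have hn0 : (0 : ℝ) < n := by linarith
  have hW0 : 0 ≤ A * NN n β ρ / T := by positivity
  have hD : ∑ b : Fin n, ∑ b' ∈ Finset.univ.erase b, dS S q S.F b b' ^ 2 ≤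
      Z * (52 * (A * NN n β ρ / T)) := by
    refine (d_le hc hq h.law.low h.ε0 hs1p).trans ?_
    rw [← hZ]
    refine mul_le_mul_of_nonneg_left (h.dl.trans ?_) hZ0.le
    linarith
  have nn := hnum (n := (n : ℝ)) (A := A) (N := NN n β ρ) (x := q.x) (T := T) (c4 := 4)
    (m4 := 182 * y ^ 2) hn0 hβ hA hN hq.x0.le h.fo.kk2 h.fo.kk0.le hT (h.fo.k_y.trans hyy.symm)
    hg (by norm_num) (by nlinarith [sq_nonneg y])
  have hnb : ∀ ζ : Fin n → Fin n → ℝ, (∀ b b', 0 ≤ ζ b b') →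
      ∑ b : Fin n, ∑ b' ∈ Finset.univ.erase b, ζ b b' ^ 2 ≤
        Z * (68 * ((A * NN n β ρ) ^ 2 / (n * T))) →
      HNb q S.F (fun _ _ => Z * (48884 * (g * y) ^ 3)) (dS S q S.F)
          (fun _ _ => Z * (182 * y ^ 2)) ζ
          (fun _ _ => Z * (6 * q.x * kk n β * √(√(182 * y ^ 2)) * √(4449608 * (g * y) ^ 4)))
          (48884 * (g * y) ^ 3) (52 * (A * NN n β ρ / T)) (182 * y ^ 2)
          (68 * ((A * NN n β ρ) ^ 2 / (n * T)))
          (6 * q.x * kk n β * √(√(182 * y ^ 2)) * √(4449608 * (g * y) ^ 4)) := by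
    intro ζ z2 z3
    exact
      { m60 := by positivity
        m40 := by positivity
        l0 := by positivity
        d0 := fun b b' _ => Real.sqrt_nonneg _
        z0 := fun b b' _ => z2 b b'
        hM := fun _ _ _ => by rw [hZ]
        hM2 := fun _ _ _ => by rw [hZ]
        hδ := by rw [← hZ]; exact hD
        hζ := by rw [← hZ]; exact z3
        hl := fun _ _ _ => by rw [hZ] }
  have r1 : En q S.F (fun w => ∑ e, fr (S.DA q.s1 e (H712.lp (k2 q) w))) ≤ A * NN n β ρ / T := by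
    have := h.fo.rt2
    simp only [R1C.P2_lp] at this
    exact this
  have r2 : En q S.F (fun w => ∑ e, fr (S.DA q.s2 e (H712.lp (k3 q) w))) ≤ A * NN n β ρ / T := by
    have := h.fo.rt3
    simp only [R1C.P3_lp] at this
    exact this
  obtain ⟨ζ1, i1, a1, b1⟩ := hin_S h (hyy.symm.le.trans hyg) hWn (k2 q)
    (H326.k2_sum hq) hs1p h.s1le h.rare2 r1
  obtain ⟨ζ2, i2, a2, b2⟩ := hin_S h (hyy.symm.le.trans hyg) hWn (k3 q)
    (H326.k3_sum hq) (hs1p.trans_le hq.h12) hq.h2 h.rare3 r2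
  rw [← hZ, ← hyy] at i1 i2
  rw [← hZ] at b1 b2
  have eA1 : (fun w : K4 (Pair n) → ℝ => S.A q.s1 (H712.lp (k2 q) w)) = A1 S q := by
    funext w
    unfold R1S.A1
    rw [H326.P2_k2]
  have eA2 : (fun w : K4 (Pair n) → ℝ => S.A q.s2 (H712.lp (k3 q) w)) = A2 S q := by
    funext w
    unfold R1S.A2
    rw [H326.P3_k3]
  rw [eA1] at i1
  rw [eA2] at i2
  exact ⟨(hrow1_n hc hq hP i1 (hnb ζ1 a1 b1)).trans nn,
    (hrow2_n hc hq hP i2 (hnb ζ2 a2 b2)).trans nn⟩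

end Vale.Agent.P146.X7.R1S
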