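import Vale.Agent.P146.H89.DeepA
import Vale.Agent.P146.H89.DeepB
import Vale.Agent.P146.H89.DeepC
import Vale.Agent.P146.H425.FOut2
import Vale.Agent.P146.X7.H946_FoS

/-!
Plan R1, all `β`: the output of the block F for the deep functional of the SK model.
-/

open MeasureTheory ProbabilityTheory

namespace Vale.Agent.P146.X7.R1

open Vale.Agent.P146.R1

open Vale.Agent.P157.Lv Vale.Agent.P146.H425 Vale.Agent.P146.H332 Vale.Agent.P146.H325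
open Vale.Agent.P146.X7.H425 Vale.Agent.P146.X7.H332 Vale.Agent.P146.X7.H325
open Vale.Agent.P146.H946 (Dz Hz Tz)

set_option linter.unusedSectionVars false

/-- Admissible layers: exponents in `(0, 1]` and a total cost at most `n^{1/6}`. -/
structure Lay (n : ℕ) (β : ℝ) (m σ : ℕ → ℝ) (J : ℕ) : Prop where
  pos : ∀ l < J, 0 < m l
  le : ∀ l < J, m l ≤ 1
  sz : β ^ 2 * n / 4 * ∑ l ∈ Finset.range J, σ l ^ 2 ≤ (n : ℝ) ^ (1 / 6 : ℝ)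

/-- the deep functional of the SK model -/
noncomputable abbrev Fz (n : ℕ) (β : ℝ) (m σ : ℕ → ℝ) (J : ℕ) : (Pair n → ℝ) → ℝ :=
  FD (lz (R1C.kk n β) SkS) m σ J

/-- its gradient -/
noncomputable abbrev Gz (n : ℕ) (β : ℝ) (m σ : ℕ → ℝ) (J : ℕ) (e : Pair n) : (Pair n → ℝ) → ℝ :=
  TD (lz (R1C.kk n β) SkS) m σ (Dz (R1C.kk n β) e) J

/-- its Hessian -/
noncomputable abbrev HHz (n : ℕ) (β : ℝ) (m σ : ℕ → ℝ) (J : ℕ) (e f : Pair n) :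
    (Pair n → ℝ) → ℝ :=
  KD (lz (R1C.kk n β) SkS) m σ (Hz (R1C.kk n β) e f) (Dz (R1C.kk n β) e) (Dz (R1C.kk n β) f) J

variable {n : ℕ} {β : ℝ} {m σ : ℕ → ℝ} {J : ℕ}

lemma sm_Fz (hm : ∀ l < J, 0 < m l) : ∃ B L M : ℝ, ∃ T : Pair n → Pair n → (Pair n → ℝ) → ℝ,
    Sm (Fz n β m σ J) (Gz n β m σ J) B L (HHz n β m σ J) T M :=
  ⟨_, _, _, _, sm_FD (H946.sk_sm (R1C.kk n β)) J hm⟩

/-- **The output of block F for the deep functional, on grids**: the variance of the deep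
functional is large. -/
theorem deep_out {β : ℝ} (hβ : β ≠ 0) {ε α : ℝ} (hα : 0 < α) (hαε : 4 * α ≤ ε) :
    ∃ a : ℝ, 0 < a ∧ ∃ n₀ : ℝ, 2 ≤ n₀ ∧ ∀ n : ℕ, n₀ ≤ (n : ℝ) → ∀ (m σ : ℕ → ℝ) (J : ℕ),
      (∀ l < J, 0 < m l) → (n : ℝ) ^ (1 / 3 + ε : ℝ) ≤
        ∫ z, (Fz n β m σ J z - ∫ z', Fz n β m σ J z' ∂(gI (Pair n))) ^ 2 ∂(gI (Pair n)) →
      ∃ x θ T s1 s2 : ℝ, FGrid n a x θ T ∧
        FData n α ε (β ^ 2 / 2) (Fz n β m σ J) (Gz n β m σ J)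
        (fun x θ T s => Ht x θ (1 - T) (1 - T / 2) s (Fz n β m σ J) (Gz n β m σ J)
          (HHz n β m σ J)) x θ T
          (Phi x (Fz n β m σ J) (Gz n β m σ J) (1 - T)) s1 s2 := by
  have hb2 : 0 < β ^ 2 / 2 := by positivity
  obtain ⟨a, ha, n₀, h2, hf⟩ := f_fin2 hα hαε hb2 hb2.le
  refine ⟨a, ha, n₀, h2, fun n hn m σ J hm hV => ?_⟩
  have hn0 : 0 < n := by
    have : (0 : ℝ) < n := by linarith
    exact_mod_cast this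
  obtain ⟨x, θ, T, ρ, s1, s2, hg, hρ, hd⟩ := hf n hn (Pair n) _ _ _ _ _ _ _
    (sm_FD (m := m) (σ := σ) (H946.sk_sm (R1C.kk n β)) J hm) (cv_FD (c11_lz _ _) (cv_lz _ _) J hm)
    (deep_grad hn0 β hm) (deep_hK hn0 β hm) hV
  subst hρ
  exact ⟨x, θ, T, s1, s2, hg, hd⟩

/-- **Block F for the deep functional in the form used by the assembly.** -/
theorem deep_hF {β : ℝ} (hβ : 0 < β) : ∀ ε α : ℝ, 0 < α → 100 * α ≤ ε → ε ≤ 1 / 10 →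
    ∃ a : ℝ, 0 < a ∧ ∃ n₀ : ℕ, ∀ n : ℕ, n₀ ≤ n → ∀ (m σ : ℕ → ℝ) (J : ℕ), Lay n β m σ J →
      (n : ℝ) ^ (1 / 3 + ε : ℝ) ≤ Var[freeEnergy n β; disorder n] →
      ∃ x θ T s1 s2 ρ δ : ℝ, FGrid n a x θ T ∧ ρ = Phi x (Fz n β m σ J) (Gz n β m σ J) (1 - T) ∧
        0 < θ ∧ θ ≤ 1 / 64 ∧ 0 < T ∧ 1 / (n : ℝ) ^ 2 ≤ T ∧ T ≤ 1 ∧ 0 < ρ ∧ 2 * ρ ≤ β ^ 2 * n ∧
        (n : ℝ) ^ (1 / 3 + ε - 2 * α : ℝ) ≤ ρ ∧
        0 < x ∧ (n : ℝ) ^ (-(1 / 6) : ℝ) ≤ x ∧ x ≤ (n : ℝ) ^ (-(1 / 6) + α : ℝ) ∧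
        (n : ℝ) ^ (ε - α) ≤ x ^ 2 * ρ * T ∧
        ((n : ℝ) ^ (-(1 / 100) : ℝ) ≤ T → 2 * ρ / (β ^ 2 * n) ≤ (n : ℝ) ^ (-(1 / 8) : ℝ)) ∧
        ∀ S : R1S.CS n (R1C.kk n β) x, S.F = Fz n β m σ J → S.D = Gz n β m σ J →
          R1C.Fo n β ((n : ℝ) ^ α) δ T ρ ⟨x, θ, 1 - T, 1 - T / 2, s1, s2⟩ S.F S.A S.DA := by
  intro ε α hα h100 hε
  have hε' : 40 * α + α / 2 ≤ ε - α / 2 := by linarith
  obtain ⟨a, ha, n₀, h2, hout⟩ := deep_out hβ.ne' (ε := ε - α / 2) (α := α / 2) (by positivity)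
    (by linarith)
  have hε2 : 0 < (ε - α / 2) / 2 := by linarith
  obtain ⟨n₁, h1⟩ := Filter.eventually_atTop.1 ((H946.pow_exp_le hε2).and
    ((H946.gap_ev (show 0 < α / 2 by positivity) (show α / 2 < α by linarith) (β ^ 2 / 2)).and
      ((Filter.eventually_ge_atTop (β ^ 2)).and
        ((tendsto_rpow_atTop (show 0 < α / 2 by positivity)).eventually_ge_atTop 4))))
  obtain ⟨n₂, h21, hcor⟩ := corner_cmp hβ.ne' (a := α) (c₀ := 1 / 100) (b := 1 / 8) hα.le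
    (by linarith) (by linarith)
  obtain ⟨N, hN⟩ := exists_nat_ge (max n₀ (max n₁ n₂))
  refine ⟨a, ha, N, fun n hn m σ J hL hV => ?_⟩
  have hnN : max n₀ (max n₁ n₂) ≤ (n : ℝ) := hN.trans (by exact_mod_cast hn)
  have hn0' : n₀ ≤ n := (le_max_left _ _).trans hnN
  have hn1' : n₁ ≤ n := ((le_max_left _ _).trans (le_max_right _ _)).trans hnN
  have hn2' : n₂ ≤ n := ((le_max_right _ _).trans (le_max_right _ _)).trans hnN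
  obtain ⟨g1, g2, g3, g4⟩ := h1 n hn1'
  have hn2 : 2 ≤ n := by
    have : (2 : ℝ) ≤ n := h2.trans hn0'
    exact_mod_cast this
  have hn0 : 0 < n := by omega
  have hnr : (1 : ℝ) ≤ n := by
    have : (2 : ℝ) ≤ n := h2.trans hn0'
    linarith
  have hnp : (0 : ℝ) < n := by linarith
  -- the variance of the deep functional
  have hV2 : (n : ℝ) ^ (1 / 3 + (ε - α / 2) : ℝ) ≤ ∫ z, (Fz n β m σ J z -
      ∫ z', Fz n β m σ J z' ∂(gI (Pair n))) ^ 2 ∂(gI (Pair n)) := by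
    have h3 := deep_var (σ := σ) hn0 β hL.pos hL.le hL.sz
    have h4 : ((n : ℝ) ^ (1 / 6 : ℝ)) ^ 2 ≤ (n : ℝ) ^ (1 / 3 + (ε - α / 2) : ℝ) := by
      rw [← Real.rpow_natCast, ← Real.rpow_mul hnp.le]
      refine Real.rpow_le_rpow_of_exponent_le hnr ?_
      push_cast
      linarith
    have h5 : 4 * (n : ℝ) ^ (1 / 3 + (ε - α / 2) : ℝ) ≤ (n : ℝ) ^ (1 / 3 + ε : ℝ) := by
      have e : (n : ℝ) ^ (1 / 3 + ε : ℝ) =
          (n : ℝ) ^ (α / 2) * (n : ℝ) ^ (1 / 3 + (ε - α / 2) : ℝ) := by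
        rw [← Real.rpow_add hnp]
        congr 1
        ring
      rw [e]
      exact mul_le_mul_of_nonneg_right g4 (by positivity)
    have h6 := hV.trans h3
    have h7 : (n : ℝ) ^ (1 / 3 + (ε - α / 2) : ℝ) ≤ ∫ z : Pair n → ℝ,
      (FD (lz (β / √n) SkS) m σ J z -
        ∫ z' : Pair n → ℝ, FD (lz (β / √n) SkS) m σ J z' ∂(gI (Pair n))) ^ 2
          ∂(gI (Pair n)) := by linarith
    exact h7
  obtain ⟨x, θ, T, s1, s2, hg, hd⟩ := hout n hn0' m σ J hL.pos hV2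
  obtain ⟨ρ, hρ⟩ : ∃ ρ, ρ = Phi x (Fz n β m σ J) (Gz n β m σ J) (1 - T) := ⟨_, rfl⟩
  rw [← hρ] at hd
  have hx : 0 < x := lt_of_lt_of_le (Real.rpow_pos_of_pos hnp _) hd.x_low
  have hxα : x ≤ (n : ℝ) ^ (-(1 / 6) + α : ℝ) :=
    hd.x_up.trans (Real.rpow_le_rpow_of_exponent_le hnr (by linarith))
  refine ⟨x, θ, T, s1, s2, ρ, Real.exp (-(n : ℝ) ^ ((ε - α / 2) / 2)), hg, hρ, hd.θ_pos, hd.θ_le,
    hd.T_pos, hd.T_low, hd.T_le, hd.ρ_pos, ?_, ?_, hx, hd.x_low, hxα, ?_, fun hT => ?_, ?_⟩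
  · have := hd.ρ_le
    linarith
  · exact (Real.rpow_le_rpow_of_exponent_le hnr (by linarith)).trans hd.ρ_low
  · exact (Real.rpow_le_rpow_of_exponent_le hnr (by linarith)).trans hd.y_low
  · rw [hρ]
    refine hcor n hn2' _ _ _ _ (c11_FD (c11_lz _ _) J hL.pos)
      (cv_FD (c11_lz _ _) (cv_lz _ _) J hL.pos)
      (fun z => (FD_lz (σ := σ) hn0 β hL.pos hL.le z).1)
      (fun z => (FD_lz (σ := σ) hn0 β hL.pos hL.le z).2.trans ?_) x hd.x_low hxα T hd.T_pos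
      hd.T_le hT
    have h8 : (n : ℝ) ^ (1 / 6 : ℝ) ≤ (n : ℝ) ^ (1 / 3 : ℝ) :=
      Real.rpow_le_rpow_of_exponent_le hnr (by norm_num)
    have h9 := hL.sz
    linarith
  · intro S hF hD
    obtain ⟨B, L, M, T3, hS⟩ := sm_Fz (n := n) (β := β) (σ := σ) hL.pos
    rw [← hF, ← hD] at hS hd
    exact H946.fo_of_fdata_S hn2 hβ (by positivity) (by linarith) (by linarith)
      (by linarith) g3 g2 g1 S hS hd

end Vale.Agent.P146.X7.R1
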