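import Vale.Agent.P146.H706.D4d
import Vale.Agent.P146.X7.H89_DeepO

/-!
The choice of the exponents of the deep layers of the SK model.
-/

open MeasureTheory ProbabilityTheory

namespace Vale.Agent.P146.X7.R1

open Vale.Agent.P146.R1

open Vale.Agent.P157.Lv Vale.Agent.P146.H425 Vale.Agent.P146.H332 Vale.Agent.P146.H325
open Vale.Agent.P146.X7.H425 Vale.Agent.P146.X7.H332 Vale.Agent.P146.X7.H325
open Vale.Agent.P146.H785 (Ax)
open Vale.Agent.P146.H946 (Dz)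

set_option linter.unusedSectionVars false

/-- The standard deviation of the deep layers: `n (sdl e2 n)² = n^(1/6 - e2)`. -/
noncomputable def sdl (e2 : ℝ) (n : ℕ) : ℝ := √((n : ℝ) ^ (-(5 / 6) - e2 : ℝ))

lemma sdl_sq (e2 : ℝ) (n : ℕ) : sdl e2 n ^ 2 = (n : ℝ) ^ (-(5 / 6) - e2 : ℝ) :=
  Real.sq_sqrt (Real.rpow_nonneg (Nat.cast_nonneg n) _)

lemma sdl_mul {e2 : ℝ} {n : ℕ} (hn : 0 < n) :
    sdl e2 n ^ 2 * n = (n : ℝ) ^ (1 / 6 - e2 : ℝ) := by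
  have h : (0 : ℝ) < n := Nat.cast_pos.2 hn
  rw [sdl_sq]
  nth_rw 2 [← Real.rpow_one (n : ℝ)]
  rw [← Real.rpow_add h]
  congr 1
  ring

/-- The properties of the exponents: `ι` a family of systems `Sx b`. -/
structure DLay (β a al e2 : ℝ) (n J : ℕ) {ι Y : Type} [Fintype ι] [Fintype Y]
    (Sx : ι → Pair n → Y → ℝ) (m : ℕ → ℝ) (h : ℝ) : Prop where
  h0 : 0 < h
  k0l : 1 / (24 * ((J : ℝ) + 1)) ≤ h / 2 * (sdl e2 n ^ 2 * (β ^ 2 / 2 * n))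
  k0u : h / 2 * (sdl e2 n ^ 2 * (β ^ 2 / 2 * n)) ≤ 1 / (8 * ((J : ℝ) + 1))
  box : ∀ l < J, ((J : ℝ) - l) / (J + 1) + h ≤ m l ∧
    m l + h ≤ ((J : ℝ) - l) / (J + 1) + 1 / (4 * ((J : ℝ) + 1))
  law : ∀ (q : R1C.Par) (T : ℝ), q.Ok → q.t0 = 1 - T → q.t1 = 1 - T / 2 →
    FGrid n a q.x q.θ T → q.x ≤ (n : ℝ) ^ (-(1 / 6) + al : ℝ) → 1 / (n : ℝ) ^ 2 ≤ T →
    (∑ b, R1C.En q (Fz n β m (fun _ => sdl e2 n) J) fun w => Ax q.x (√(1 - q.s1))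
      (Fz n β m (fun _ => sdl e2 n) J)
      (fun z => ∑ l ∈ Finset.range J,
        dsec (lz (R1C.kk n β) (Sx b)) m (fun _ => sdl e2 n) J l h z)
      (R1C.P2 q w)) / Fintype.card ι ≤ (n : ℝ) ^ (-(1 / 24) : ℝ) ∧
    (∑ b, R1C.En q (Fz n β m (fun _ => sdl e2 n) J) fun w => Ax q.x (√(1 - q.s2))
      (Fz n β m (fun _ => sdl e2 n) J)
      (fun z => ∑ l ∈ Finset.range J,
        dsec (lz (R1C.kk n β) (Sx b)) m (fun _ => sdl e2 n) J l h z)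
      (R1C.P3 q w)) / Fintype.card ι ≤ (n : ℝ) ^ (-(1 / 24) : ℝ)

section use

variable {β a al e2 : ℝ} {n J : ℕ} {ι Y : Type} [Fintype ι] [Fintype Y]
  {Sx : ι → Pair n → Y → ℝ} {m : ℕ → ℝ} {h : ℝ}

lemma DLay.ge (H : DLay β a al e2 n J Sx m h) (l : ℕ) (hl : l < J) : 1 / ((J : ℝ) + 1) ≤ m l := by
  have h1 : (l : ℝ) + 1 ≤ J := by exact_mod_cast hl
  have h2 : 1 / ((J : ℝ) + 1) ≤ ((J : ℝ) - l) / (J + 1) := by
    gcongr
    linarith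
  have := (H.box l hl).1
  linarith [H.h0]

lemma DLay.le (H : DLay β a al e2 n J Sx m h) (l : ℕ) (hl : l < J) : m l ≤ 1 := by
  have h1 := (H.box l hl).2
  have h2 : ((J : ℝ) - l) / (J + 1) + 1 / (4 * ((J : ℝ) + 1)) ≤ 1 := by
    rw [div_add_div _ _ (by positivity) (by positivity), div_le_one (by positivity)]
    have : (0 : ℝ) ≤ l := Nat.cast_nonneg l
    have hJ : (0 : ℝ) < (J : ℝ) + 1 := by positivity
    nlinarith [mul_nonneg this hJ.le]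
  linarith [H.h0]

lemma DLay.pos (H : DLay β a al e2 n J Sx m h) (l : ℕ) (hl : l < J) : 0 < m l :=
  (by positivity : 0 < 1 / ((J : ℝ) + 1)).trans_le (H.ge l hl)

/-- the gaps of the exponents -/
lemma DLay.gap (H : DLay β a al e2 n J Sx m h) (l : ℕ) (hl : l + 1 < J) :
    3 / (4 * ((J : ℝ) + 1)) ≤ m l - m (l + 1) ∧ m l - m (l + 1) ≤ 5 / (4 * ((J : ℝ) + 1)) := by
  have h1 := H.box l (by omega)
  have h2 := H.box (l + 1) hl
  push_cast at h2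
  have hJ : (0 : ℝ) < (J : ℝ) + 1 := by positivity
  have e : ((J : ℝ) - l) / (J + 1) - ((J : ℝ) - (l + 1)) / (J + 1) = 4 / (4 * ((J : ℝ) + 1)) := by
    field_simp
    ring
  have e3 : 3 / (4 * ((J : ℝ) + 1)) = 4 / (4 * ((J : ℝ) + 1)) - 1 / (4 * ((J : ℝ) + 1)) := by
    field_simp
    norm_num
  have e5 : 5 / (4 * ((J : ℝ) + 1)) = 4 / (4 * ((J : ℝ) + 1)) + 1 / (4 * ((J : ℝ) + 1)) := by
    field_simp
    norm_num
  have := H.h0
  rw [e3, e5]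
  constructor <;> linarith [h1.1, h1.2, h2.1, h2.2]

lemma DLay.exs (H : DLay β a al e2 n J Sx m h) : Exs m J (1 / ((J : ℝ) + 1)) where
  x0 := by positivity
  x1 := by
    rw [div_le_one (by positivity)]
    have : (0 : ℝ) ≤ J := Nat.cast_nonneg J
    linarith
  ge := H.ge
  le := H.le
  anti := fun i hi => by
    have h1 := (H.gap i hi).1
    have h2 : (0 : ℝ) < 3 / (4 * ((J : ℝ) + 1)) := by positivity
    linarith

lemma DLay.exs' (H : DLay β a al e2 n J Sx m h) {x : ℝ} (hx : 0 < x)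
    (hxJ : x ≤ 1 / ((J : ℝ) + 1)) : Exs m J x where
  x0 := hx
  x1 := hxJ.trans H.exs.x1
  ge := fun i hi => hxJ.trans (H.ge i hi)
  le := H.le
  anti := H.exs.anti

/-- for `n` large the layers are admissible -/
lemma DLay.lay (H : DLay β a al e2 n J Sx m h) (hn : 0 < n)
    (hsz : β ^ 2 / 4 * J * (n : ℝ) ^ (1 / 6 - e2 : ℝ) ≤ (n : ℝ) ^ (1 / 6 : ℝ)) :
    Lay n β m (fun _ => sdl e2 n) J where
  pos := H.pos
  le := H.le
  sz := by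
    refine le_trans (le_of_eq ?_) hsz
    rw [Finset.sum_const, Finset.card_range, nsmul_eq_mul, ← sdl_mul hn]
    ring

end use

/-- **The choice of the exponents of the deep layers of the SK model.** -/
theorem d4_out {β a al e2 : ℝ} (hβ : 0 < β) (hal : al < e2) (he0 : 0 < e2)
    (he2 : e2 ≤ 1 / 24) (J : ℕ) :
    ∃ n₀ : ℕ, ∀ n : ℕ, n₀ ≤ n → ∀ (ι Y : Type) [Fintype ι] [Nonempty ι] [Fintype Y] [Nonempty Y]
      (Sx : ι → Pair n → Y → ℝ), (∀ b e σ, |Sx b e σ| ≤ 1) →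
      ∃ (m : ℕ → ℝ) (h : ℝ), DLay β a al e2 n J Sx m h ∧ Lay n β m (fun _ => sdl e2 n) J := by
  obtain ⟨n₁, hn₁, hgen⟩ := d4_gen (τ := 1 / 12) (a := a) (C := β ^ 2 / 2) (α := al)
    (by norm_num) (by linarith)
  obtain ⟨n₂, hn₂⟩ := Filter.eventually_atTop.1
    (((tendsto_rpow_atTop (show 0 < e2 - al by linarith)).eventually_ge_atTop
        (3 * (β ^ 2 / 4 * J))).and
      (((tendsto_rpow_atTop (show (0 : ℝ) < 1 / 24 by norm_num)).eventually_ge_atTop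
        (2 / β ^ 2)).and
      ((tendsto_rpow_atTop he0).eventually_ge_atTop (β ^ 2 / 4 * J))))
  obtain ⟨N, hN⟩ := exists_nat_ge (max n₁ n₂)
  refine ⟨N, fun n hn ι Y _ _ _ _ Sx hSx => ?_⟩
  classical
  have hnN : max n₁ n₂ ≤ (n : ℝ) := hN.trans (by exact_mod_cast hn)
  have h1 : n₁ ≤ (n : ℝ) := (le_max_left _ _).trans hnN
  have h2 : n₂ ≤ (n : ℝ) := (le_max_right _ _).trans hnN
  obtain ⟨g1, g2, g3⟩ := hn₂ n h2
  have hn2 : (2 : ℝ) ≤ n := hn₁.trans h1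
  have hn1 : (1 : ℝ) ≤ n := by linarith
  have hnp : (0 : ℝ) < n := by linarith
  have hn0 : 0 < n := by exact_mod_cast hnp
  have hlam0 : 0 ≤ (n : ℝ) ^ (-(5 / 6) - e2 : ℝ) := Real.rpow_nonneg hnp.le _
  have hlamn : (n : ℝ) ^ (-(5 / 6) - e2 : ℝ) * (β ^ 2 / 2 * n) =
      β ^ 2 / 2 * (n : ℝ) ^ (1 / 6 - e2 : ℝ) := by
    rw [← sdl_sq, ← sdl_mul hn0]
    ring
  -- the size of the layers
  have hnl : (n : ℝ) ^ (1 / 12 : ℝ) ≤ (n : ℝ) ^ (-(5 / 6) - e2 : ℝ) * (β ^ 2 / 2 * n) := by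
    rw [hlamn]
    have k1 : (n : ℝ) ^ (1 / 12 : ℝ) * (n : ℝ) ^ (1 / 24 : ℝ) ≤ (n : ℝ) ^ (1 / 6 - e2 : ℝ) := by
      rw [← Real.rpow_add hnp]
      exact Real.rpow_le_rpow_of_exponent_le hn1 (by linarith)
    have k2 : (0 : ℝ) < (n : ℝ) ^ (1 / 12 : ℝ) := Real.rpow_pos_of_pos hnp _
    have k3 : 1 ≤ β ^ 2 / 2 * (n : ℝ) ^ (1 / 24 : ℝ) := by
      have := mul_le_mul_of_nonneg_left g2 (by positivity : 0 ≤ β ^ 2 / 2)
      have e : β ^ 2 / 2 * (2 / β ^ 2) = 1 := by field_simp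
      linarith
    calc (n : ℝ) ^ (1 / 12 : ℝ) ≤ (n : ℝ) ^ (1 / 12 : ℝ) * (β ^ 2 / 2 * (n : ℝ) ^ (1 / 24 : ℝ)) :=
          le_mul_of_one_le_right k2.le k3
      _ = β ^ 2 / 2 * ((n : ℝ) ^ (1 / 12 : ℝ) * (n : ℝ) ^ (1 / 24 : ℝ)) := by ring
      _ ≤ _ := mul_le_mul_of_nonneg_left k1 (by positivity)
  -- the cost
  set c := β ^ 2 / 4 * J * (n : ℝ) ^ (1 / 6 - e2 : ℝ) with hc
  have hcl : ∀ m : ℕ → ℝ, (∀ j < J, 1 / ((J : ℝ) + 1) ≤ m j) → (∀ j < J, m j ≤ 1) →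
      ∀ z, lz (R1C.kk n β) SkS z ≤ Fz n β m (fun _ => sdl e2 n) J z ∧
        Fz n β m (fun _ => sdl e2 n) J z ≤ lz (R1C.kk n β) SkS z + c := by
    intro m hm hm1 z
    have hm0 : ∀ j < J, 0 < m j := fun j hj =>
      (by positivity : 0 < 1 / ((J : ℝ) + 1)).trans_le (hm j hj)
    have := FD_lz (σ := fun _ => sdl e2 n) hn0 β hm0 hm1 z
    refine ⟨this.1, this.2.trans (le_of_eq ?_)⟩
    rw [Finset.sum_const, Finset.card_range, nsmul_eq_mul, hc, ← sdl_mul hn0]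
    unfold R1C.kk
    ring
  have hcx : 3 * (n : ℝ) ^ (-(1 / 6) + al : ℝ) * c ≤ 1 := by
    have e : 3 * (n : ℝ) ^ (-(1 / 6) + al : ℝ) * c =
        3 * (β ^ 2 / 4 * J) * ((n : ℝ) ^ (e2 - al))⁻¹ := by
      rw [hc, ← Real.rpow_neg hnp.le]
      have : (n : ℝ) ^ (-(e2 - al)) =
          (n : ℝ) ^ (-(1 / 6) + al : ℝ) * (n : ℝ) ^ (1 / 6 - e2 : ℝ) := by
        rw [← Real.rpow_add hnp]
        congr 1
        ring
      rw [this]
      ring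
    rw [e, ← div_eq_mul_inv, div_le_one (Real.rpow_pos_of_pos hnp _)]
    exact g1
  have hsz : c ≤ (n : ℝ) ^ (1 / 6 : ℝ) := by
    have e : (n : ℝ) ^ (1 / 6 : ℝ) = (n : ℝ) ^ e2 * (n : ℝ) ^ (1 / 6 - e2 : ℝ) := by
      rw [← Real.rpow_add hnp]
      congr 1
      ring
    rw [hc, e]
    exact mul_le_mul_of_nonneg_right g3 (Real.rpow_nonneg hnp.le _)
  have hbd : ∀ b z, ∑ e, Dz (R1C.kk n β) (Sx b) e z ^ 2 ≤ β ^ 2 / 2 * n := by
    intro b z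
    refine (H785.bd_lz (R1C.kk n β) (Sx b) (hSx b) z).trans ?_
    unfold R1C.kk
    rw [div_pow, Real.sq_sqrt hnp.le]
    have h3 : β ^ 2 / (n : ℝ) * Fintype.card (Pair n) ≤ β ^ 2 / n * (n * n / 2) :=
      mul_le_mul_of_nonneg_left (card_le n) (by positivity)
    have h4 : β ^ 2 / (n : ℝ) * (n * n / 2) = β ^ 2 / 2 * n := by field_simp
    linarith
  obtain ⟨m, h, q1, q2, q3, q4, q5⟩ := hgen n h1 J ((n : ℝ) ^ (-(5 / 6) - e2 : ℝ)) hlam0 hnl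
    (Pair n) (lz (R1C.kk n β) SkS) (Dz (R1C.kk n β) SkS) _ _ (c11_lz (R1C.kk n β) SkS)
    ι (fun b => lz (R1C.kk n β) (Sx b)) (fun b => Dz (R1C.kk n β) (Sx b)) _ _
    (fun b => c11_lz (R1C.kk n β) (Sx b)) (fun b => cv_lz _ _) hbd c hcl hcx
  have H : DLay β a al e2 n J Sx m h :=
    { h0 := q1
      k0l := by rw [sdl_sq]; exact q2
      k0u := by rw [sdl_sq]; exact q3
      box := q4
      law := fun q T hq ht0 ht1 hg hx hT => by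
        have := q5 q T hq ht0 ht1 hg hx hT
        have e : -((1 / 12 : ℝ) / 2) = -(1 / 24) := by norm_num
        rw [e] at this
        exact this }
  exact ⟨m, h, H, H.lay hn0 hsz⟩

end Vale.Agent.P146.X7.R1
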