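import Vale.Agent.P146.H401.K7
import Vale.Agent.P146.H713.DeepCS
import Vale.Agent.P146.X7.H706_D4e

/-!
Row (K7) for the deep position system: the literal hypothesis of 546's T3D.
-/

open MeasureTheory ProbabilityTheory

namespace Vale.Agent.P146.X7.H401

open Vale.Agent.P146.H401

open Vale.Agent.P157.Lv Vale.Agent.P157.Lv.Sy Vale.Agent.P146.H425 Vale.Agent.P146.R1
  Vale.Agent.P146.H325 Vale.Agent.P146.H332 Vale.Agent.P146.R1C Vale.Agent.P146.H327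
open Vale.Agent.P146.X7.H425 Vale.Agent.P146.X7.R1 Vale.Agent.P146.X7.H325 Vale.Agent.P146.X7.H332 Vale.Agent.P146.X7.R1C
open Vale.Agent.P146.H722 (nuv)
open Vale.Agent.P146.H785 (Ax)

set_option linter.unusedSectionVars false

variable {n : ℕ} {k x : ℝ} {m σ : ℕ → ℝ} {J : ℕ}

lemma Ax_s0 {κ : Type} [Fintype κ] [DecidableEq κ] (x : ℝ) (F φ : (κ → ℝ) → ℝ) (z : κ → ℝ) :
    Ax x 0 F φ z = φ z := by
  unfold Ax
  simp only [zero_smul, add_zero, integral_const, probReal_univ, one_smul]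
  rw [mul_div_assoc, mul_comm, div_mul_cancel₀ _ (Real.exp_pos _).ne']

/-- the root law at the time one -/
lemma mu_one (hk : 0 < k) (hE : Exs m J x) (g : (Fin n → ℤˣ) → ℝ) (u : Pair n → ℝ) :
    ∑ a, (R1S.deepCS n hk σ hE).mu 1 u a * g a = TD (lz k SkS) m σ (H325.av k SkS g) J u := by
  have h1 : ∑ a, (R1S.deepCS n hk σ hE).mu 1 u a * g a = pA k SkS m σ J x 1 g u :=
    (pA_pmu hE g u).symm
  rw [h1]
  unfold pA
  rw [sub_self, Real.sqrt_zero, Ax_s0]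

lemma ev_sdl {e2 : ℝ} (he : 0 < e2) {η : ℝ} (hη : 0 < η) (J : ℕ) :
    ∃ n₀ : ℕ, 1 ≤ n₀ ∧ ∀ n : ℕ, n₀ ≤ n → (J : ℝ) * sdl e2 n ^ 2 ≤ η := by
  have h1 : Filter.Tendsto (fun n : ℕ => (J : ℝ) * (n : ℝ) ^ (-(5 / 6 + e2) : ℝ)) Filter.atTop
      (nhds (J * 0)) :=
    ((tendsto_rpow_neg_atTop (by linarith : (0 : ℝ) < 5 / 6 + e2)).comp
      tendsto_natCast_atTop_atTop).const_mul _
  rw [mul_zero] at h1
  obtain ⟨n₀, hn₀⟩ := Filter.eventually_atTop.1 ((h1.eventually (gt_mem_nhds hη)))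
  refine ⟨max n₀ 1, le_max_right _ _, fun n hn => ?_⟩
  rw [sdl_sq, show (-(5 / 6) - e2 : ℝ) = -(5 / 6 + e2) by ring]
  exact (hn₀ n ((le_max_left _ _).trans hn)).le

lemma sdl_ne {e2 : ℝ} (hn : 0 < n) : sdl e2 n ≠ 0 := by
  unfold sdl
  exact (Real.sqrt_pos.2 (Real.rpow_pos_of_pos (Nat.cast_pos.2 hn) _)).ne'

/-- **(K7) for the deep position system**, the literal hypothesis of the assembly (K8). -/
theorem k7_deep {β : ℝ} (hβ : 0 < β) (hK : KabSk β) : ∃ (J : ℕ) (c0 C7 : ℝ), 1 ≤ J ∧ 0 < c0 ∧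
    0 < C7 ∧ ∀ e2 : ℝ, 0 < e2 → ∃ n₀ : ℕ, 1 ≤ n₀ ∧ ∀ n : ℕ, n₀ ≤ n → ∀ (hk : 0 < kk n β)
    {m : ℕ → ℝ} {h x a al : ℝ} (hE : Exs m J x),
    DLay β a al e2 n J (fun b : Fin n => Sb b) m h →
    ∀ {b : Fin n} {v : Fin n → ℝ} {lam : ℝ}, ∑ j, v j ^ 2 = 1 → v b = 0 → 0 < lam →
    ∀ z : Pair n → ℝ,
    AvP 1 (row b) (fun u => iteratedDeriv 4
      (fun r : ℝ => (R1S.deepCS n hk (fun _ => sdl e2 n) hE).F (u + r • nuv b v)) 0) z ≤
    kk n β ^ 4 * (-c0 * lam ^ 2 + C7 * (AvP 1 (row b) (fun u => ∑ a,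
      (R1S.deepCS n hk (fun _ => sdl e2 n) hE).mu 1 u a *
        ((∑ j, v j * H325.sp a j) ^ 2 - lam) ^ 2) z +
      lam ^ 2 * (1 / (sdl e2 n ^ 2 * lam) + ∑ l ∈ Finset.range J,
        dsec (lz (kk n β) (Sb b)) m (fun _ => sdl e2 n) J l h z))) := by
  obtain ⟨J, η, c0, C7, hJ, hη, hc0, hC7, hmain⟩ := k7 hβ hK
  refine ⟨J, c0, C7, hJ, hc0, hC7, fun e2 he => ?_⟩
  obtain ⟨n₀, hn1, hn₀⟩ := ev_sdl he hη J
  refine ⟨n₀, hn1, fun n hn hk m h x a al hE H b v lam hv hvb hlam z => ?_⟩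
  have hn0 : 0 < n := by omega
  have hkn : kk n β ^ 2 * n = β ^ 2 := by
    have h1 : (0 : ℝ) < n := Nat.cast_pos.2 hn0
    unfold kk
    rw [div_pow, Real.sq_sqrt h1.le, div_mul_cancel₀ _ h1.ne']
  have e1 : h / 4 * sdl e2 n ^ 2 * (kk n β ^ 2 * (n : ℝ) ^ 2) =
      h / 2 * (sdl e2 n ^ 2 * (β ^ 2 / 2 * n)) := by
    rw [← hkn]
    ring
  have e2' : (fun u => ∑ a, (R1S.deepCS n hk (fun _ => sdl e2 n) hE).mu 1 u a *
        ((∑ j, v j * H325.sp a j) ^ 2 - lam) ^ 2) =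
      fun u => TD (lz (kk n β) SkS) m (fun _ => sdl e2 n)
        (H325.av (kk n β) SkS (gv v lam)) J u := by
    funext u
    exact mu_one hk hE (gv v lam) u
  rw [e2']
  refine hmain hn0 hk hkn hE (sdl_ne hn0) (hn₀ n hn) H.h0 H.box (by rw [e1]; exact H.k0l) ?_ hv hvb
    hlam z
  rw [e1]
  refine H.k0u.trans ?_
  rw [div_le_div_iff₀ (by positivity) (by norm_num)]
  have : (0 : ℝ) ≤ J := Nat.cast_nonneg J
  linarith

end Vale.Agent.P146.X7.H401
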