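import Vale.Agent.P146.H712.AvPq
import Vale.Agent.P146.X7.H712_EnCalc
import Vale.Agent.P146.H633.BtDef

/-!
Bulk transfer, (BT2) and (BT3): the functional `Th` and its sum over the pairs of rows.
-/

open MeasureTheory ProbabilityTheory Matrix

namespace Vale.Agent.P146.X7.H712

open Vale.Agent.P146.H712

open Vale.Agent.P157.Lv Vale.Agent.P146.H425 Vale.Agent.P146.H325 Vale.Agent.P146.H332
  Vale.Agent.P146.R1 Vale.Agent.P146.R1C Vale.Agent.P146.H633
open Vale.Agent.P146.X7.H425 Vale.Agent.P146.X7.H325 Vale.Agent.P146.X7.H332 Vale.Agent.P146.X7.R1 Vale.Agent.P146.X7.R1C Vale.Agent.P146.X7.H633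

set_option linter.unusedSectionVars false

section gen

variable {κ ι : Type} [Fintype κ] [DecidableEq κ] [Fintype ι] {s : ℝ} {R : Finset κ}
  {C : (κ → ℝ) → Matrix ι ι ℝ} {K : (κ → ℝ) → ℝ}

lemma frn {ι : Type} [Fintype ι] (A : Matrix ι ι ℝ) : 0 ≤ fr A := by
  unfold H332.fr; positivity

lemma eg_frC (hC : ∀ i j, EG fun z => C z i j) : EG fun z => fr (C z) := by
  unfold H332.fr
  exact EG.sum _ fun i _ => EG.sum _ fun j _ => (hC i j).pow 2

lemma eg_CB (hC : ∀ i j, EG fun z => C z i j) (s : ℝ) (R : Finset κ) (i j : ι) :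
    EG fun z => CB s R C z i j := eg_AvP (hC i j) s R

lemma eg_Dlt (hC : ∀ i j, EG fun z => C z i j) (s : ℝ) (R : Finset κ) : EG (Dlt s R C) := by
  refine eg_frC (C := fun z => C z - CB s R C z) fun i j => ?_
  simp only [Matrix.sub_apply]
  exact (hC i j).sub (eg_CB hC s R i j)

lemma eg_Th (hC : ∀ i j, EG fun z => C z i j) (hK : EG K) (s : ℝ) (R : Finset κ) :
    EG (Th s R C K) := by
  unfold Th
  have h1 := eg_frC hC
  have h2 := eg_Dlt hC s R
  exact ((eg_AvP hK s R).add ((eg_AvP h1 s R).mul (eg_AvP h2 s R))).add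
    (eg_AvP (h2.mul h1) s R)

/-- **(BT2)** -/
theorem bt2 (hs : 0 ≤ s) {DC : κ → (κ → ℝ) → Matrix ι ι ℝ} (hC : ∀ i j, EG fun z => C z i j)
    (hd : ∀ e ∈ R, ∀ i j, PD e (fun z => C z i j) (fun z => DC e z i j))
    (hD : ∀ e ∈ R, ∀ i j, EG fun z => DC e z i j) (z : κ → ℝ) :
    AvP s R (Dlt s R C) z ≤ s * AvP s R (fun z => ∑ e ∈ R, fr (DC e z)) z := by
  have e1 : ∀ z, Dlt s R C z = ∑ i, ∑ j, (C z i j - AvP s R (fun z => C z i j) z) ^ 2 :=
    fun z => rfl
  have hv : ∀ i j, EG fun z => (C z i j - AvP s R (fun z => C z i j) z) ^ 2 :=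
    fun i j => ((hC i j).sub (eg_AvP (hC i j) s R)).pow 2
  have hw : ∀ i j, EG fun z => ∑ e ∈ R, DC e z i j ^ 2 :=
    fun i j => EG.sum R fun e he => (hD e he i j).pow 2
  have e2 : ∀ z, ∑ e ∈ R, fr (DC e z) = ∑ i, ∑ j, ∑ e ∈ R, DC e z i j ^ 2 := by
    intro z
    unfold H332.fr
    rw [Finset.sum_comm]
    exact Finset.sum_congr rfl fun i _ => Finset.sum_comm
  rw [AvP_congr e1 z, AvP_congr e2 z, AvP_sum _ fun i _ => EG.sum _ fun j _ => hv i j,
    AvP_sum _ fun i _ => EG.sum _ fun j _ => hw i j, Finset.mul_sum]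
  refine Finset.sum_le_sum fun i _ => ?_
  rw [AvP_sum _ fun j _ => hv i j, AvP_sum _ fun j _ => hw i j, Finset.mul_sum]
  refine Finset.sum_le_sum fun j _ => ?_
  exact AvP_poincare hs (hC i j) (fun e he => hd e he i j) (fun e he => hD e he i j) z

lemma fr_sub_le (A B : Matrix ι ι ℝ) : fr (A - B) ≤ 2 * fr A + 2 * fr B := by
  unfold H332.fr
  rw [Finset.mul_sum, Finset.mul_sum, ← Finset.sum_add_distrib]
  refine Finset.sum_le_sum fun i _ => ?_
  rw [Finset.mul_sum, Finset.mul_sum, ← Finset.sum_add_distrib]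
  refine Finset.sum_le_sum fun j _ => ?_
  rw [Matrix.sub_apply]
  nlinarith [sq_nonneg (A i j + B i j)]

lemma fr_CB_le (hC : ∀ i j, EG fun z => C z i j) (z : κ → ℝ) :
    fr (CB s R C z) ≤ AvP s R (fun z => fr (C z)) z := by
  have e1 : ∀ z, fr (C z) = ∑ i, ∑ j, C z i j ^ 2 := fun z => rfl
  rw [AvP_congr e1 z, AvP_sum _ fun i _ => EG.sum _ fun j _ => (hC i j).pow 2]
  unfold H332.fr
  refine Finset.sum_le_sum fun i _ => ?_
  rw [AvP_sum _ fun j _ => (hC i j).pow 2]
  exact Finset.sum_le_sum fun j _ => AvP_sq_le (hC i j) z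

lemma Dlt_nonneg (z : κ → ℝ) : 0 ≤ Dlt s R C z := frn _

lemma Dlt_le {n2 : ℝ} (hC : ∀ i j, EG fun z => C z i j) (hb : ∀ z, fr (C z) ≤ n2)
    (z : κ → ℝ) : Dlt s R C z ≤ 4 * n2 := by
  have h1 := fr_CB_le (s := s) (R := R) hC z
  have h2 : AvP s R (fun z => fr (C z)) z ≤ n2 := by
    have := AvP_mono (s := s) (R := R) (eg_frC hC) (EG.const n2) hb z
    rwa [AvP_const] at this
  have h3 := fr_sub_le (C z) (CB s R C z)
  have h4 := hb z
  unfold Dlt
  linarith

/-- the indicator of a large matrix -/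
noncomputable def chi (B : ℝ) (C : (κ → ℝ) → Matrix ι ι ℝ) (z : κ → ℝ) : ℝ :=
  if B < fr (C z) then 1 else 0

lemma chi_nonneg (B : ℝ) (z : κ → ℝ) : 0 ≤ chi B C z := by
  unfold chi; split_ifs <;> norm_num

lemma chi_le (B : ℝ) (z : κ → ℝ) : chi B C z ≤ 1 := by
  unfold chi; split_ifs <;> norm_num

lemma eg_chi (hC : ∀ i j, EG fun z => C z i j) (B : ℝ) : EG (chi B C) := by
  refine EG.of_bdd (C := 1) ?_ fun z => ?_
  · unfold chi
    exact Measurable.ite (measurableSet_lt measurable_const (eg_frC hC).meas) measurable_const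
      measurable_const
  · rw [abs_of_nonneg (chi_nonneg B z)]
    exact chi_le B z

/-- **(BT3a)** -/
theorem bt3a {B n2 : ℝ} (hB : 0 ≤ B) (hC : ∀ i j, EG fun z => C z i j)
    (hb : ∀ z, fr (C z) ≤ n2) (z : κ → ℝ) :
    Th s R C K z ≤ AvP s R K z + 2 * B * AvP s R (Dlt s R C) z +
      8 * n2 ^ 2 * AvP s R (chi B C) z := by
  have hn : 0 ≤ n2 := (frn _).trans (hb z)
  have hf := eg_frC hC
  have hD := eg_Dlt hC s R
  have hx := eg_chi hC B
  have h0 : ∀ z, fr (C z) ≤ B + n2 * chi B C z := by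
    intro z
    unfold chi
    split_ifs with h
    · rw [mul_one]
      linarith [hb z]
    · rw [mul_zero, add_zero]
      exact not_lt.1 h
  have hXn : 0 ≤ AvP s R (chi B C) z := AvP_nonneg (fun z => chi_nonneg B z) z
  have hDn : 0 ≤ AvP s R (Dlt s R C) z := AvP_nonneg (fun z => Dlt_nonneg z) z
  have hD4 : AvP s R (Dlt s R C) z ≤ 4 * n2 := by
    have := AvP_mono (s := s) (R := R) hD (EG.const (4 * n2)) (fun z => Dlt_le hC hb z) z
    rwa [AvP_const] at this
  have h1 : AvP s R (fun z => fr (C z)) z ≤ B + n2 * AvP s R (chi B C) z := by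
    have := AvP_mono (s := s) (R := R) hf ((EG.const B).add (hx.const_mul n2)) h0 z
    rwa [AvP_add (EG.const B) (hx.const_mul n2), AvP_const, AvP_const_mul] at this
  have h2 : AvP s R (fun z => Dlt s R C z * fr (C z)) z ≤
      B * AvP s R (Dlt s R C) z + 4 * n2 ^ 2 * AvP s R (chi B C) z := by
    have := AvP_mono (s := s) (R := R) (hD.mul hf) ((hD.const_mul B).add
      (hx.const_mul (4 * n2 ^ 2))) (fun z => by
        have a1 := h0 z
        have a2 := Dlt_nonneg (s := s) (R := R) (C := C) z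
        have a3 := Dlt_le (s := s) (R := R) hC hb z
        have a4 := chi_nonneg (C := C) B z
        have a5 := mul_le_mul_of_nonneg_left a1 a2
        have a6 : Dlt s R C z * (n2 * chi B C z) ≤ 4 * n2 * (n2 * chi B C z) :=
          mul_le_mul_of_nonneg_right a3 (mul_nonneg hn a4)
        nlinarith) z
    rwa [AvP_add (hD.const_mul B) (hx.const_mul (4 * n2 ^ 2)), AvP_const_mul,
      AvP_const_mul] at this
  have h3 : AvP s R (fun z => fr (C z)) z * AvP s R (Dlt s R C) z ≤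
      B * AvP s R (Dlt s R C) z + 4 * n2 ^ 2 * AvP s R (chi B C) z := by
    have a1 := mul_le_mul_of_nonneg_right h1 hDn
    have a2 : n2 * AvP s R (chi B C) z * AvP s R (Dlt s R C) z ≤
        n2 * AvP s R (chi B C) z * (4 * n2) :=
      mul_le_mul_of_nonneg_left hD4 (mul_nonneg hn hXn)
    nlinarith
  unfold Th
  linarith

/-- the average of `K` is at most `Th` -/
lemma avK_le_Th (z : κ → ℝ) : AvP s R K z ≤ Th s R C K z := by
  have h1 : 0 ≤ AvP s R (fun z => fr (C z)) z := AvP_nonneg (fun z => frn _) z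
  have h2 : 0 ≤ AvP s R (Dlt s R C) z := AvP_nonneg (fun z => Dlt_nonneg z) z
  have h3 : 0 ≤ AvP s R (fun z => Dlt s R C z * fr (C z)) z :=
    AvP_nonneg (fun z => mul_nonneg (Dlt_nonneg z) (frn _)) z
  unfold Th
  nlinarith [mul_nonneg h1 h2]

lemma Th_nonneg (hK : ∀ z, 0 ≤ K z) (z : κ → ℝ) : 0 ≤ Th s R C K z :=
  (AvP_nonneg hK z).trans (avK_le_Th z)

end gen

/-! ### the sum over the pairs of rows -/

section sum

variable {n : ℕ} {ι : Type} [Fintype ι] {q : Par} {F : (Pair n → ℝ) → ℝ}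
  {D : Pair n → (Pair n → ℝ) → ℝ} {Bf Lf : ℝ} {C : (Pair n → ℝ) → Matrix ι ι ℝ}
  {DC : Pair n → (Pair n → ℝ) → Matrix ι ι ℝ} {K : (Pair n → ℝ) → ℝ} {s : ℝ}
  {P : (K4 (Pair n) → ℝ) → Pair n → ℝ}

/-- sums over the pairs of rows of a nonnegative function of the couplings -/
lemma sum_pairs_rows {g : Pair n → ℝ} (hg : ∀ e, 0 ≤ g e) :
    ∑ b : Fin n, ∑ b' ∈ Finset.univ.erase b, ∑ e ∈ row b ∪ row b', g e ≤
      4 * n * ∑ e, g e := by
  have h1 : ∀ b b' : Fin n, ∑ e ∈ row b ∪ row b', g e ≤ ∑ e ∈ row b, g e + ∑ e ∈ row b', g e := by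
    intro b b'
    rw [← Finset.sum_union_inter]
    exact le_add_of_nonneg_right (Finset.sum_nonneg fun e _ => hg e)
  have h2 : ∀ b : Fin n, 0 ≤ ∑ e ∈ row b, g e := fun b => Finset.sum_nonneg fun e _ => hg e
  calc ∑ b : Fin n, ∑ b' ∈ Finset.univ.erase b, ∑ e ∈ row b ∪ row b', g e
      ≤ ∑ b : Fin n, ∑ b' : Fin n, (∑ e ∈ row b, g e + ∑ e ∈ row b', g e) := by
        refine Finset.sum_le_sum fun b _ => ?_
        refine (Finset.sum_le_sum fun b' _ => h1 b b').trans ?_
        exact Finset.sum_le_sum_of_subset_of_nonneg (Finset.erase_subset _ _)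
          fun b' _ _ => add_nonneg (h2 b) (h2 b')
    _ = 4 * n * ∑ e, g e := by
        have h3 := sum_rows g
        simp only [Finset.sum_add_distrib, Finset.sum_const, Finset.card_univ, Fintype.card_fin,
          nsmul_eq_mul]
        rw [← Finset.mul_sum, h3]
        ring

/-- number of the pairs -/
lemma sum_pairs_const (c : ℝ) (hc : 0 ≤ c) :
    ∑ b : Fin n, ∑ _b' ∈ Finset.univ.erase b, c ≤ (n : ℝ) ^ 2 * c := by
  calc ∑ b : Fin n, ∑ _b' ∈ Finset.univ.erase b, c ≤ ∑ _b : Fin n, ∑ _b' : Fin n, c :=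
        Finset.sum_le_sum fun b _ => Finset.sum_le_sum_of_subset_of_nonneg
          (Finset.erase_subset _ _) fun _ _ _ => hc
    _ = (n : ℝ) ^ 2 * c := by
        simp only [Finset.sum_const, Finset.card_univ, Fintype.card_fin, nsmul_eq_mul]
        ring

/-- **(BT3)** the sum over the pairs of rows. `P` is one of the positions, `s` its time. -/
theorem bt3 (h : C11 F D Bf Lf) (hx : 0 < q.x) (hs : 0 ≤ s)
    (hP : ∀ f : (Pair n → ℝ) → ℝ, EG f → EG fun w => f (P w))
    (hA : ∀ f : (Pair n → ℝ) → ℝ, EG f → ∀ (R : Finset (Pair n)) (w),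
      Av (lf R) (fun w => f (P w)) w = AvP s R f (P w))
    {ε : ℝ} (hε : 0 ≤ ε) (hlaw : ∀ b b' : Fin n, b ≠ b' → LLow q F (row b ∪ row b') ε)
    (hC : ∀ i j, EG fun z => C z i j)
    (hd : ∀ e i j, PD e (fun z => C z i j) (fun z => DC e z i j))
    (hD : ∀ e i j, EG fun z => DC e z i j) (hK : EG K) (hK0 : ∀ z, 0 ≤ K z)
    {n2 B KK KR : ℝ} (hB : 0 ≤ B) (hb : ∀ z, fr (C z) ≤ n2) (hKK : ∀ z, K z ≤ KK)
    (hKR : ∀ z, ∑ e, fr (DC e z) ≤ KR) :
    ∑ b : Fin n, ∑ b' ∈ Finset.univ.erase b,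
        En q F (fun w => Th s (row b ∪ row b') C K (P w)) ≤
      2 * n ^ 2 * En q F (fun w => K (P w)) +
        16 * n * B * s * En q F (fun w => ∑ e, fr (DC e (P w))) +
        16 * n ^ 2 * n2 ^ 2 * En q F (fun w => chi B C (P w)) +
        ε * n ^ 2 * (KK + 2 * B * s * KR + 8 * n2 ^ 2) := by
  have hr : ∀ R : Finset (Pair n), EG fun z => ∑ e ∈ R, fr (DC e z) :=
    fun R => EG.sum R fun e _ => eg_frC (hD e)
  have hn2 : 0 ≤ n2 := (frn _).trans (hb 0)
  have hKK0 : 0 ≤ KK := (hK0 0).trans (hKK 0)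
  have hKR0 : 0 ≤ KR := (Finset.sum_nonneg fun e _ => frn _).trans (hKR 0)
  have hrn : ∀ (R : Finset (Pair n)) z, 0 ≤ ∑ e ∈ R, fr (DC e z) :=
    fun R z => Finset.sum_nonneg fun e _ => frn _
  have hrK : ∀ (R : Finset (Pair n)) z, ∑ e ∈ R, fr (DC e z) ≤ KR := fun R z =>
    (Finset.sum_le_sum_of_subset_of_nonneg (Finset.subset_univ R)
      fun e _ _ => frn _).trans (hKR z)
  -- one pair
  have one : ∀ b b' : Fin n, b ≠ b' → En q F (fun w => Th s (row b ∪ row b') C K (P w)) ≤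
      2 * En q F (fun w => K (P w)) +
        4 * B * s * En q F (fun w => ∑ e ∈ row b ∪ row b', fr (DC e (P w))) +
        16 * n2 ^ 2 * En q F (fun w => chi B C (P w)) +
        ε * (KK + 2 * B * s * KR + 8 * n2 ^ 2) := by
    intro b b' hbb
    set R := row b ∪ row b' with hR
    have hl := hlaw b b' hbb
    have u1 : EG fun w => Av (lf R) (fun w => K (P w)) w := eg_Av _ (hP _ hK)
    have u2 : EG fun w => Av (lf R) (fun w => ∑ e ∈ R, fr (DC e (P w))) w :=
      eg_Av _ (hP _ (hr R))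
    have u3 : EG fun w => Av (lf R) (fun w => chi B C (P w)) w := eg_Av _ (hP _ (eg_chi hC B))
    have pt : ∀ w, Th s R C K (P w) ≤ (Av (lf R) (fun w => K (P w)) w +
        2 * B * s * Av (lf R) (fun w => ∑ e ∈ R, fr (DC e (P w))) w) +
        8 * n2 ^ 2 * Av (lf R) (fun w => chi B C (P w)) w := by
      intro w
      have a1 := bt3a (s := s) (R := R) (K := K) hB hC hb (P w)
      have a2 := bt2 (R := R) hs hC (fun e _ i j => hd e i j) (fun e _ i j => hD e i j) (P w)
      have a3 := mul_le_mul_of_nonneg_left a2 (by positivity : (0 : ℝ) ≤ 2 * B)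
      rw [hA K hK R w, hA (fun z => ∑ e ∈ R, fr (DC e z)) (hr R) R w,
        hA (chi B C) (eg_chi hC B) R w]
      linarith
    have e1 := En_mono h hx (hP _ (eg_Th hC hK s R)) ((u1.add (u2.const_mul (2 * B * s))).add
      (u3.const_mul (8 * n2 ^ 2))) pt
    rw [En_add h hx (u1.add (u2.const_mul (2 * B * s))) (u3.const_mul (8 * n2 ^ 2)),
      En_add h hx u1 (u2.const_mul (2 * B * s)), En_const_mul, En_const_mul] at e1
    have v1 := hl _ (hP _ hK) KK (fun w => hK0 _) (fun w => hKK _)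
    have v2 := hl _ (hP _ (hr R)) KR (fun w => hrn R _) (fun w => hrK R _)
    have v3 := hl _ (hP _ (eg_chi hC B)) 1 (fun w => chi_nonneg B _) (fun w => chi_le B _)
    have c2 : 0 ≤ 2 * B * s := by positivity
    have c3 : 0 ≤ 8 * n2 ^ 2 := by positivity
    have w2 := mul_le_mul_of_nonneg_left v2 c2
    have w3 := mul_le_mul_of_nonneg_left v3 c3
    nlinarith
  -- the sum
  have hsum : ∑ b : Fin n, ∑ b' ∈ Finset.univ.erase b,
      En q F (fun w => ∑ e ∈ row b ∪ row b', fr (DC e (P w))) ≤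
      4 * n * En q F (fun w => ∑ e, fr (DC e (P w))) := by
    have g0 : ∀ e, 0 ≤ En q F (fun w => fr (DC e (P w))) := fun e =>
      En_nonneg fun w => frn _
    have ge : ∀ e, EG fun w => fr (DC e (P w)) := fun e => hP _ (eg_frC (hD e))
    have := sum_pairs_rows g0
    rw [En_sum h hx _ fun e _ => ge e]
    refine le_trans (le_of_eq ?_) this
    refine Finset.sum_congr rfl fun b _ => Finset.sum_congr rfl fun b' _ => ?_
    rw [En_sum h hx _ fun e _ => ge e]
  have hKn : 0 ≤ En q F (fun w => K (P w)) := En_nonneg fun w => hK0 _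
  have hχn : 0 ≤ En q F (fun w => chi B C (P w)) := En_nonneg fun w => chi_nonneg B _
  calc ∑ b : Fin n, ∑ b' ∈ Finset.univ.erase b, En q F (fun w => Th s (row b ∪ row b') C K (P w))
      ≤ ∑ b : Fin n, ∑ b' ∈ Finset.univ.erase b, (4 * B * s *
          En q F (fun w => ∑ e ∈ row b ∪ row b', fr (DC e (P w))) +
          (2 * En q F (fun w => K (P w)) + 16 * n2 ^ 2 * En q F (fun w => chi B C (P w)) +
            ε * (KK + 2 * B * s * KR + 8 * n2 ^ 2))) := by
        refine Finset.sum_le_sum fun b _ => Finset.sum_le_sum fun b' hb' => ?_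
        have := one b b' (Finset.ne_of_mem_erase hb').symm
        linarith
    _ = 4 * B * s * ∑ b : Fin n, ∑ b' ∈ Finset.univ.erase b,
          En q F (fun w => ∑ e ∈ row b ∪ row b', fr (DC e (P w))) +
        ∑ b : Fin n, ∑ _b' ∈ Finset.univ.erase b, (2 * En q F (fun w => K (P w)) +
          16 * n2 ^ 2 * En q F (fun w => chi B C (P w)) +
            ε * (KK + 2 * B * s * KR + 8 * n2 ^ 2)) := by
        simp only [Finset.sum_add_distrib, Finset.mul_sum]
    _ ≤ 4 * B * s * (4 * n * En q F (fun w => ∑ e, fr (DC e (P w)))) +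
        (n : ℝ) ^ 2 * (2 * En q F (fun w => K (P w)) +
          16 * n2 ^ 2 * En q F (fun w => chi B C (P w)) +
            ε * (KK + 2 * B * s * KR + 8 * n2 ^ 2)) := by
        refine add_le_add (mul_le_mul_of_nonneg_left hsum (by positivity)) ?_
        exact sum_pairs_const _ (by positivity)
    _ = _ := by ring

end sum

end Vale.Agent.P146.X7.H712
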