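import Vale.Agent.P146.X7.H640_LamSk

/-!
Plan R1: the output of the row (LAM) for the SK model in the letters of the final assembly
(`A = n ^ α`, `R = 2 ρ / (β² n)`).
-/

open MeasureTheory ProbabilityTheory

namespace Vale.Agent.P146.X7.R1C

open Vale.Agent.P146.R1C

open Vale.Agent.P157.Lv Vale.Agent.P146.H425 Vale.Agent.P146.H325
  Vale.Agent.P146.H712 Vale.Agent.P146.R1 Matrix
open Vale.Agent.P146.X7.H425 Vale.Agent.P146.X7.H325 Vale.Agent.P146.X7.H712 Vale.Agent.P146.X7.R1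
open Vale.Agent.P146.H332 hiding Nf Gf NN fr_nonneg
open Vale.Agent.P146.X7.H332

set_option linter.unusedSectionVars false

/-- `NN / n² = 2 ρ / (β² n)` -/
lemma NN_div {n : ℕ} {β ρ : ℝ} (hn : 0 < n) : NN n β ρ / (n : ℝ) ^ 2 = 2 * ρ / (β ^ 2 * n) := by
  have : (n : ℝ) ≠ 0 := by positivity
  unfold NN
  field_simp

lemma sqrt_NN_div {n : ℕ} {β ρ : ℝ} (hn : 0 < n) :
    √(NN n β ρ) / n = √(2 * ρ / (β ^ 2 * n)) := by
  rw [← NN_div hn, Real.sqrt_div' _ (by positivity), Real.sqrt_sq (by positivity)]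

/-- **(LAM) for the SK model, in the letters of the assembly.** -/
theorem lam_hL {β : ℝ} (hβ : 0 < β) : ∃ C : ℝ, ∃ m : ℕ, ∀ α : ℝ, 0 < α → ∃ n₀ : ℕ, ∀ n : ℕ,
    n₀ ≤ n → ∀ (δ T ρ : ℝ) (q : Par),
      Fo n β ((n : ℝ) ^ α) δ T ρ q (lz (kk n β) SkS) (AA (kk n β) q.x) (DC (kk n β) q.x) →
        T ≤ C * ((n : ℝ) ^ α) ^ m * (√(1 / (n * T)) + q.x * √(2 * ρ / (β ^ 2 * n)) +
          2 * ρ / (β ^ 2 * n) + 1 / n) := by
  obtain ⟨C, hC, n₀, hn₀⟩ := lam_sk_out hβ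
  refine ⟨C, 12, fun α hα => ?_⟩
  obtain ⟨N, hN⟩ := exists_nat_ge ((2 : ℝ) ^ (1 / α))
  refine ⟨max n₀ (max N 1), fun n hn δ T ρ q hf => ?_⟩
  have hn1 : n₀ ≤ n := (le_max_left _ _).trans hn
  have hn2 : N ≤ n := ((le_max_left _ _).trans (le_max_right _ _)).trans hn
  have hn3 : 0 < n := by
    have := ((le_max_right N 1).trans (le_max_right _ _)).trans hn
    omega
  have hA : (2 : ℝ) ≤ (n : ℝ) ^ α := by
    have h1 : (2 : ℝ) ^ (1 / α) ≤ n := hN.trans (by exact_mod_cast hn2)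
    have h2 := Real.rpow_le_rpow (by positivity) h1 hα.le
    rw [← Real.rpow_mul (by norm_num), one_div_mul_cancel hα.ne', Real.rpow_one] at h2
    exact h2
  have h3 := hn₀ n hn1 ((n : ℝ) ^ α) δ T ρ q hA hf
  have hρ : 0 ≤ 2 * ρ / (β ^ 2 * n) := by
    have := hf.ρ1
    positivity
  rw [sqrt_NN_div hn3, Real.sq_sqrt hρ] at h3
  exact h3

end Vale.Agent.P146.X7.R1C
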