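import Vale.Agent.P146.X7.H641_FoS
import Vale.Agent.P146.H260.VKc
import Vale.Agent.P146.H260.V14

/-!
# P146: the input `hF` of the end of the contradiction at a general scale `x₀ ≥ n^(-1/6)`, deep
systems
-/

open MeasureTheory ProbabilityTheory

namespace Vale.Agent.P146.X7.H641

open Vale.Agent.P157.Lv Vale.Agent.P146.H425 Vale.Agent.P146.H332 Vale.Agent.P146.H325
open Vale.Agent.P146.H946 (Dz Hz Tz)
open Vale.Agent.P146.R1 Vale.Agent.P146.H260.V13 Vale.Agent.P146.H641.Utc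
open Vale.Agent.P146.X7.H425 Vale.Agent.P146.X7.H332 Vale.Agent.P146.X7.H325
  Vale.Agent.P146.X7.R1

set_option linter.unusedSectionVars false

variable {n : ℕ} {β : ℝ} {m σ : ℕ → ℝ} {J : ℕ}

/-- **The output of block F above the scale `x₀` for the deep functional, on grids.** -/
theorem deep_outX {β : ℝ} (hβ : β ≠ 0) {ε α : ℝ} (hα : 0 < α) (hαε : 4 * α ≤ ε) :
    ∃ a : ℝ, 0 < a ∧ ∃ n₀ : ℝ, 2 ≤ n₀ ∧ ∀ n : ℕ, n₀ ≤ (n : ℝ) →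
      ∀ x₀ : ℝ, (n : ℝ) ^ (-(1 / 6) : ℝ) ≤ x₀ → ∀ (m σ : ℕ → ℝ) (J : ℕ),
      (∀ l < J, 0 < m l) → (n : ℝ) ^ (1 + ε : ℝ) * x₀ ^ 4 ≤ VK (Fz n β m σ J) x₀ →
      ∃ x θ T s1 s2 : ℝ, (∃ j : ℕ, x = 2 ^ j * x₀) ∧ θ = 1 / (a * Real.log n) ∧
        (∃ i : ℕ, T = (1 / 2) ^ i) ∧ x₀ ≤ x ∧ x ≤ x₀ * (n : ℝ) ^ α ∧
        (n : ℝ) ^ (1 + ε - α : ℝ) * x₀ ^ 6 ≤
          x ^ 2 * Phi x (Fz n β m σ J) (Gz n β m σ J) (1 - T) * T ∧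
        FDatX n α ε (β ^ 2 / 2) (Fz n β m σ J) (Gz n β m σ J)
        (fun x θ T s => Ht x θ (1 - T) (1 - T / 2) s (Fz n β m σ J) (Gz n β m σ J)
          (HHz n β m σ J)) x θ T
          (Phi x (Fz n β m σ J) (Gz n β m σ J) (1 - T)) s1 s2 := by
  have hb2 : 0 < β ^ 2 / 2 := by positivity
  obtain ⟨a, ha, n₀, h2, hf⟩ := f_finX hα hαε hb2 hb2.le
  refine ⟨a, ha, n₀, h2, fun n hn x₀ hx₀ m σ J hm hV => ?_⟩
  have hn0 : 0 < n := by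
    have : (0 : ℝ) < n := by linarith
    exact_mod_cast this
  obtain ⟨x, θ, T, ρ, s1, s2, hg1, hg2, hg3, h3, h4, h5, hρ, hd⟩ := hf n hn x₀ hx₀ (Pair n)
    _ _ _ _ _ _ _
    (sm_FD (m := m) (σ := σ) (H946.sk_sm (R1C.kk n β)) J hm) (cv_FD (c11_lz _ _) (cv_lz _ _) J hm)
    (deep_grad hn0 β hm) (deep_hK hn0 β hm) hV
  subst hρ
  exact ⟨x, θ, T, s1, s2, hg1, hg2, hg3, h3, h4, h5, hd⟩

/-- **Block F above the scale `x₀` for the deep functional in the form used by the assembly.** -/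
theorem deep_hFX {β : ℝ} (hβ : 0 < β) : ∀ ε α : ℝ, 0 < α → 100 * α ≤ ε → ε ≤ 1 / 10 →
    ∃ a : ℝ, 0 < a ∧ ∃ n₀ : ℕ, ∀ n : ℕ, n₀ ≤ n → ∀ x₀ : ℝ, (n : ℝ) ^ (-(1 / 6) : ℝ) ≤ x₀ →
      x₀ ≤ (n : ℝ) ^ (-(1 / 17) - α : ℝ) →
      ∀ (m σ : ℕ → ℝ) (J : ℕ), Lay n β m σ J →
      (n : ℝ) ^ (1 + ε : ℝ) * x₀ ^ 4 ≤ VK (lz (β / √n) (SkS (n := n))) (x₀ / 2) →
      ∃ x θ T s1 s2 ρ δ : ℝ, FGrid n a x θ T ∧ ρ = Phi x (Fz n β m σ J) (Gz n β m σ J) (1 - T) ∧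
        0 < θ ∧ θ ≤ 1 / 64 ∧ 0 < T ∧ 1 / (n : ℝ) ^ 2 ≤ T ∧ T ≤ 1 ∧ 0 < ρ ∧ 2 * ρ ≤ β ^ 2 * n ∧
        0 < x ∧ x₀ ≤ x ∧ x ≤ x₀ * (n : ℝ) ^ α ∧
        (n : ℝ) ^ (1 + ε - 3 * α) * x₀ ^ 6 ≤ x ^ 2 * ρ * T ∧
        ((n : ℝ) ^ (-(1 / 100) : ℝ) ≤ T → 2 * ρ / (β ^ 2 * n) ≤ (n : ℝ) ^ (-(1 / 50) : ℝ)) ∧
        ∀ S : R1S.CS n (R1C.kk n β) x, S.F = Fz n β m σ J → S.D = Gz n β m σ J →
          R1C.Fo n β ((n : ℝ) ^ α) δ T ρ ⟨x, θ, 1 - T, 1 - T / 2, s1, s2⟩ S.F S.A S.DA := by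
  intro ε α hα h100 hε
  have hε' : 40 * α + α / 2 ≤ ε - α / 2 := by linarith
  obtain ⟨a, ha, n₀, h2, hout⟩ := deep_outX hβ.ne' (ε := ε - α / 2) (α := α / 2) (by positivity)
    (by linarith)
  have hε2 : 0 < (ε - α / 2) / 2 := by linarith
  obtain ⟨n₁, h1⟩ := Filter.eventually_atTop.1 ((H946.pow_exp_le hε2).and
    ((H946.gap_ev (show 0 < α / 2 by positivity) (show α / 2 < α by linarith) (β ^ 2 / 2)).and
      ((Filter.eventually_ge_atTop (β ^ 2)).and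
        ((tendsto_rpow_atTop (show 0 < α / 2 by positivity)).eventually_ge_atTop 20))))
  obtain ⟨n₂, h21, hcor⟩ := corner_cmp hβ.ne' (a := 1 / 8) (c₀ := 1 / 100) (b := 1 / 50)
    (by norm_num) (by norm_num) (by norm_num)
  obtain ⟨N, hN⟩ := exists_nat_ge (max n₀ (max n₁ n₂))
  refine ⟨a, ha, N, fun n hn x₀ hx₀ hx₀u m σ J hL hV => ?_⟩
  have hnN : max n₀ (max n₁ n₂) ≤ (n : ℝ) := hN.trans (by exact_mod_cast hn)
  have hn0' : n₀ ≤ n := (le_max_left _ _).trans hnN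
  have hn1' : n₁ ≤ n := ((le_max_left _ _).trans (le_max_right _ _)).trans hnN
  have hn2' : n₂ ≤ n := ((le_max_right _ _).trans (le_max_right _ _)).trans hnN
  obtain ⟨g1, g2, g3, g4⟩ := h1 n hn1'
  have hn2 : 2 ≤ n := by
    have : (2 : ℝ) ≤ n := h2.trans hn0'
    exact_mod_cast this
  have hn0 : 0 < n := by omega
  have hnr : (1 : ℝ) ≤ n := by
    have : (2 : ℝ) ≤ n := h2.trans hn0'
    linarith
  have hnp : (0 : ℝ) < n := by linarith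
  have hx6 : 0 < (n : ℝ) ^ (-(1 / 6) : ℝ) := Real.rpow_pos_of_pos hnp _
  have hx₀0 : 0 < x₀ := hx6.trans_le hx₀
  -- the scale on the grid
  obtain ⟨y, hy⟩ : ∃ y, y = 2 * rd ((n : ℝ) ^ (-(1 / 6) : ℝ)) x₀ := ⟨_, rfl⟩
  have hy1 : x₀ ≤ y := by
    rw [hy]
    exact le_rd hx6 hx₀0
  have hy2 : y ≤ 2 * x₀ := by
    rw [hy]
    linarith [rd_le hx6 hx₀0]
  obtain ⟨j0, hj0⟩ := rd_grid hx6 hx₀
  have hyg : y = 2 ^ (j0 + 1) * (n : ℝ) ^ (-(1 / 6) : ℝ) := by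
    rw [hy, hj0, pow_succ]
    ring
  have hy0 : 0 < y := hx₀0.trans_le hy1
  have p4 : (n : ℝ) ^ (-(2 / 3) : ℝ) ≤ x₀ ^ 4 := by
    calc (n : ℝ) ^ (-(2 / 3) : ℝ) = ((n : ℝ) ^ (-(1 / 6) : ℝ)) ^ 4 := by
          rw [← Real.rpow_natCast, ← Real.rpow_mul hnp.le]
          congr 1
          norm_num
      _ ≤ x₀ ^ 4 := pow_le_pow_left₀ hx6.le hx₀ 4
  -- the entropy of the deep functional
  have hV2 : (n : ℝ) ^ (1 + (ε - α / 2) : ℝ) * y ^ 4 ≤ VK (Fz n β m σ J) y := by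
    have h3 : VK (lz (β / √n) (SkS (n := n))) (y / 2) ≤ VK (Fz n β m σ J) y +
        4 * (n : ℝ) ^ (1 / 6 : ℝ) / y := by
      refine VK_cmp (c11_lz (β / √n) SkS) (cv_lz _ _) (c11_FD (c11_lz _ _) J hL.pos)
        (cv_FD (c11_lz _ _) (cv_lz _ _) J hL.pos) hy0
        (fun z => (FD_lz (σ := σ) hn0 β hL.pos hL.le z).1)
        (fun z => (FD_lz (σ := σ) hn0 β hL.pos hL.le z).2.trans ?_)
      have := hL.sz
      linarith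
    have h3' : VK (lz (β / √n) (SkS (n := n))) (x₀ / 2) ≤
        VK (lz (β / √n) (SkS (n := n))) (y / 2) :=
      VK_mono (c11_lz (β / √n) SkS) (cv_lz _ _) (by positivity) (by linarith)
    have e3 : 4 * (n : ℝ) ^ (1 / 6 : ℝ) / y ≤ 4 * ((n : ℝ) ^ (1 + (ε - α / 2) : ℝ) * x₀ ^ 4) := by
      have q1 : (n : ℝ) ^ (1 / 6 : ℝ) / y ≤ (n : ℝ) ^ (1 / 3 : ℝ) := by
        rw [div_le_iff₀ hy0]
        calc (n : ℝ) ^ (1 / 6 : ℝ) = (n : ℝ) ^ (1 / 3 : ℝ) * (n : ℝ) ^ (-(1 / 6) : ℝ) := by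
              rw [← Real.rpow_add hnp]
              norm_num
          _ ≤ (n : ℝ) ^ (1 / 3 : ℝ) * y :=
              mul_le_mul_of_nonneg_left (hx₀.trans hy1) (by positivity)
      have q2 : (n : ℝ) ^ (1 / 3 : ℝ) ≤ (n : ℝ) ^ (1 + (ε - α / 2) : ℝ) * x₀ ^ 4 := by
        calc (n : ℝ) ^ (1 / 3 : ℝ) ≤ (n : ℝ) ^ (1 + (ε - α / 2) : ℝ) *
              (n : ℝ) ^ (-(2 / 3) : ℝ) := by
              rw [← Real.rpow_add hnp]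
              exact Real.rpow_le_rpow_of_exponent_le hnr (by linarith)
          _ ≤ _ := mul_le_mul_of_nonneg_left p4 (by positivity)
      calc 4 * (n : ℝ) ^ (1 / 6 : ℝ) / y = 4 * ((n : ℝ) ^ (1 / 6 : ℝ) / y) := by ring
        _ ≤ _ := by linarith
    have e5 : (n : ℝ) ^ (1 + ε : ℝ) = (n : ℝ) ^ (α / 2) * (n : ℝ) ^ (1 + (ε - α / 2) : ℝ) := by
      rw [← Real.rpow_add hnp]
      congr 1
      ring
    have h5 : 20 * ((n : ℝ) ^ (1 + (ε - α / 2) : ℝ) * x₀ ^ 4) ≤ (n : ℝ) ^ (1 + ε : ℝ) * x₀ ^ 4 := by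
      rw [e5, mul_assoc]
      exact mul_le_mul_of_nonneg_right g4 (by positivity)
    have h6 : (n : ℝ) ^ (1 + (ε - α / 2) : ℝ) * y ^ 4 ≤
        16 * ((n : ℝ) ^ (1 + (ε - α / 2) : ℝ) * x₀ ^ 4) := by
      have q1 : y ^ 4 ≤ (2 * x₀) ^ 4 := pow_le_pow_left₀ hy0.le hy2 4
      have q2 : (2 * x₀) ^ 4 = 16 * x₀ ^ 4 := by ring
      rw [q2] at q1
      have := mul_le_mul_of_nonneg_left q1
        (by positivity : 0 ≤ (n : ℝ) ^ (1 + (ε - α / 2) : ℝ))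
      linarith
    linarith
  obtain ⟨x, θ, T, s1, s2, ⟨j, hj⟩, hgθ, hgT, hx1, hx2, hyl, hd⟩ :=
    hout n hn0' y (hx₀.trans hy1) m σ J hL.pos hV2
  obtain ⟨ρ, hρ⟩ : ∃ ρ, ρ = Phi x (Fz n β m σ J) (Gz n β m σ J) (1 - T) := ⟨_, rfl⟩
  rw [← hρ] at hd hyl
  have hx : 0 < x := hy0.trans_le hx1
  have hx₀x : x₀ ≤ x := hy1.trans hx1
  have hxu : x ≤ x₀ * (n : ℝ) ^ α := by
    calc x ≤ y * (n : ℝ) ^ (α / 2) := hx2
      _ ≤ 2 * x₀ * (n : ℝ) ^ (α / 2) := mul_le_mul_of_nonneg_right hy2 (by positivity)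
      _ ≤ x₀ * ((n : ℝ) ^ (α / 2) * (n : ℝ) ^ (α / 2)) := by
          have q1 : 2 * (n : ℝ) ^ (α / 2) ≤ (n : ℝ) ^ (α / 2) * (n : ℝ) ^ (α / 2) :=
            mul_le_mul_of_nonneg_right (by linarith) (by positivity)
          have := mul_le_mul_of_nonneg_left q1 hx₀0.le
          linarith
      _ = x₀ * (n : ℝ) ^ α := by
          rw [← Real.rpow_add hnp]
          congr 2
          ring
  have hx17 : x ≤ (n : ℝ) ^ (-(1 / 17) : ℝ) := by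
    calc x ≤ x₀ * (n : ℝ) ^ α := hxu
      _ ≤ (n : ℝ) ^ (-(1 / 17) - α : ℝ) * (n : ℝ) ^ α :=
          mul_le_mul_of_nonneg_right hx₀u (by positivity)
      _ = (n : ℝ) ^ (-(1 / 17) : ℝ) := by
          rw [← Real.rpow_add hnp]
          congr 1
          ring
  have hx7 : x * (n : ℝ) ^ ((1 : ℝ) / 17) ≤ 1 := by
    calc x * (n : ℝ) ^ ((1 : ℝ) / 17) ≤ (n : ℝ) ^ (-(1 / 17) : ℝ) * (n : ℝ) ^ ((1 : ℝ) / 17) :=
          mul_le_mul_of_nonneg_right hx17 (by positivity)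
      _ = 1 := by
          rw [← Real.rpow_add hnp]
          norm_num
  have hx6' : (n : ℝ) ^ (-(1 / 6) : ℝ) ≤ x := hx₀.trans hx₀x
  have hx24 : x ≤ (n : ℝ) ^ (-(1 / 6) + 1 / 8 : ℝ) :=
    hx17.trans (Real.rpow_le_rpow_of_exponent_le hnr (by norm_num))
  refine ⟨x, θ, T, s1, s2, ρ, Real.exp (-(n : ℝ) ^ ((ε - α / 2) / 2)), ⟨⟨j + (j0 + 1), ?_⟩, hgθ,
    hgT⟩, hρ, hd.θ_pos, hd.θ_le, hd.T_pos, hd.T_low, hd.T_le, hd.ρ_pos, ?_, hx, hx₀x, hxu, ?_,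
    fun hT => ?_, ?_⟩
  · rw [hj, hyg]
    ring
  · have := hd.ρ_le
    linarith
  · refine le_trans ?_ hyl
    have q1 : x₀ ^ 6 ≤ y ^ 6 := pow_le_pow_left₀ hx₀0.le hy1 6
    have q2 : (n : ℝ) ^ (1 + ε - 3 * α) ≤ (n : ℝ) ^ (1 + (ε - α / 2) - α / 2 : ℝ) :=
      Real.rpow_le_rpow_of_exponent_le hnr (by linarith)
    exact mul_le_mul q2 q1 (by positivity) (by positivity)
  · rw [hρ]
    refine hcor n hn2' _ _ _ _ (c11_FD (c11_lz _ _) J hL.pos)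
      (cv_FD (c11_lz _ _) (cv_lz _ _) J hL.pos)
      (fun z => (FD_lz (σ := σ) hn0 β hL.pos hL.le z).1)
      (fun z => (FD_lz (σ := σ) hn0 β hL.pos hL.le z).2.trans ?_) x hx6' hx24 T hd.T_pos
      hd.T_le hT
    have h8 : (n : ℝ) ^ (1 / 6 : ℝ) ≤ (n : ℝ) ^ (1 / 3 : ℝ) :=
      Real.rpow_le_rpow_of_exponent_le hnr (by norm_num)
    have h9 := hL.sz
    linarith
  · intro S hF hD
    obtain ⟨B, L, M, T3, hS⟩ := sm_Fz (n := n) (β := β) (σ := σ) hL.pos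
    rw [← hF, ← hD] at hS hd
    exact fo_of_fdatX hn2 hβ (by positivity) (by linarith)
      (by linarith) g3 g2 g1 S hx7 hS hd

end Vale.Agent.P146.X7.H641
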