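import Vale.Agent.P146.H641.UtcF
import Vale.Agent.P146.X7.H89_DeepHF

/-!
# P146: the input `hF` of the end of the contradiction at a general scale `x₀ ≥ n^(-1/6)`
-/

open MeasureTheory ProbabilityTheory

namespace Vale.Agent.P146.X7.H641

open Vale.Agent.P157.Lv Vale.Agent.P146.H425 Vale.Agent.P146.H332 Vale.Agent.P146.H325
open Vale.Agent.P146.H946 (Dz Hz Tz)
open Vale.Agent.P146.R1 Vale.Agent.P146.H260.V13 Vale.Agent.P146.H641.Utc
open Vale.Agent.P146.X7.H425 Vale.Agent.P146.X7.H332 Vale.Agent.P146.X7.H325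
  Vale.Agent.P146.X7.R1 Vale.Agent.P146.X7.H946

set_option linter.unusedSectionVars false

/-- **The output of the block F at a general scale in the form `Fo`** -/
theorem fo_of_fdatX {n : ℕ} {β ε α al : ℝ} (hn : 2 ≤ n) (hβ : 0 < β) (hα : 0 < α)
    (hal : α ≤ al) (h40 : 40 * al + α ≤ ε) (hβn : β ^ 2 ≤ n)
    (hgap : β ^ 2 / 2 ≤ (n : ℝ) ^ al - (n : ℝ) ^ α)
    (hδ : (n : ℝ) ^ 200 * Real.exp (-(n : ℝ) ^ (ε / 2)) ≤ 1) {x θ T ρ s1 s2 : ℝ}
    (S : R1S.CS n (R1C.kk n β) x) (hx7 : x * (n : ℝ) ^ ((1 : ℝ) / 17) ≤ 1) {B L M : ℝ} {HF TF : Pair n → Pair n → (Pair n → ℝ) → ℝ}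
    (hS : Sm S.F S.D B L HF TF M)
    (hd : FDatX n α ε (β ^ 2 / 2) S.F S.D
      (fun x θ T s => Ht x θ (1 - T) (1 - T / 2) s S.F S.D HF) x θ T ρ s1 s2) :
    R1C.Fo n β ((n : ℝ) ^ al) (Real.exp (-(n : ℝ) ^ (ε / 2))) T ρ
      ⟨x, θ, 1 - T, 1 - T / 2, s1, s2⟩ S.F S.A S.DA := by
  have hn0 : 0 < n := by omega
  have hnr : (2 : ℝ) ≤ n := by exact_mod_cast hn
  have hn1 : (1 : ℝ) ≤ n := by linarith
  have hnp : (0 : ℝ) < n := by linarith
  have hx : 0 < x := S.x0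
  have hT := hd.T_pos
  have hT1 := hd.T_le
  have hρ := hd.ρ_pos
  have hs1 := hd.s1_low
  have hs12 := hd.s12
  have hs2 := hd.s2_up
  have hk := kk_pos hn0 hβ
  have hkN := kk_NN' hn0 hβ ρ
  have h := S.c11
  have hx1 : x ≤ 1 := S.x1
  have ok : R1C.Par.Ok ⟨x, θ, 1 - T, 1 - T / 2, s1, s2⟩ :=
    ⟨hx, hx1, hd.θ_pos.le, hd.θ_le.trans (by norm_num), by simpa using hT1,
      by simp only; linarith, by simp only; linarith, by simp only; linarith,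
      by simp only; linarith⟩
  have hA1 : (1 : ℝ) ≤ (n : ℝ) ^ al := Real.one_le_rpow hn1 (by linarith)
  have hρ1 : 1 ≤ ρ := (Real.one_le_rpow hn1 (by linarith)).trans hd.ρ_low
  have hNN : 0 < R1C.NN n β ρ := by
    unfold R1C.NN
    positivity
  have hαal : (n : ℝ) ^ α ≤ (n : ℝ) ^ al := Real.rpow_le_rpow_of_exponent_le hn1 hal
  -- the thresholds
  have hup : β ^ 2 / 2 + (n : ℝ) ^ α * ρ ≤ (n : ℝ) ^ al * ρ := by
    have h1 : β ^ 2 / 2 * 1 ≤ ((n : ℝ) ^ al - (n : ℝ) ^ α) * ρ :=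
      mul_le_mul hgap hρ1 zero_le_one (le_trans (by positivity) hgap)
    linarith
  have hinv : 1 / (n : ℝ) ^ al ≤ (n : ℝ) ^ (-α) := by
    rw [Real.rpow_neg hnp.le, one_div]
    exact inv_anti₀ (Real.rpow_pos_of_pos hnp _) hαal
  have hlo : ρ / (n : ℝ) ^ al ≤ (n : ℝ) ^ (-α) * ρ := by
    have := mul_le_mul_of_nonneg_right hinv hρ.le
    calc ρ / (n : ℝ) ^ al = 1 / (n : ℝ) ^ al * ρ := by ring
      _ ≤ _ := this
  have mfr : ∀ t, Measurable fun z : Pair n → ℝ => fr (S.A t z) := fun t => (eg_fr_S _ _).meas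
  have msq : ∀ t, Measurable (R1.sq x t S.F S.D) := fun t => (eg_sq_S _ _).meas
  have eu : ∀ t, EG fun z : Pair n → ℝ => if (n : ℝ) ^ al * R1C.NN n β ρ <
      fr (S.A t z) then (1 : ℝ) else 0 :=
    fun t => eg_ite (measurableSet_lt measurable_const (mfr t))
  have el : ∀ t, EG fun z : Pair n → ℝ => if fr (S.A t z) <
      R1C.NN n β ρ / (n : ℝ) ^ al then (1 : ℝ) else 0 :=
    fun t => eg_ite (measurableSet_lt (mfr t) measurable_const)
  have eu' : ∀ t, EG fun z : Pair n → ℝ => if (n : ℝ) ^ α * ρ ≤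
      R1.sq x t S.F S.D z then (1 : ℝ) else 0 :=
    fun t => eg_ite (measurableSet_le measurable_const (msq t))
  have el' : ∀ t, EG fun z : Pair n → ℝ => if
      R1.sq x t S.F S.D z ≤ (n : ℝ) ^ (-α) * ρ then (1 : ℝ) else 0 :=
    fun t => eg_ite (measurableSet_le (msq t) measurable_const)
  have rate : ∀ s, Ht x θ (1 - T) (1 - T / 2) s S.F S.D HF ≤ (n : ℝ) ^ α * ρ / T →
      R1.Et x θ (1 - T) (1 - T / 2) s S.F (fun _ _ z2 => R1C.rt S.DA s z2) ≤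
          (n : ℝ) ^ al * R1C.NN n β ρ / T := by
    intro s h1
    rw [Ht_rt_S S hS] at h1
    have h2 : R1C.kk n β ^ 2 / 2 * ((n : ℝ) ^ al * R1C.NN n β ρ / T) =
        (n : ℝ) ^ al * ρ / T := by
      conv_rhs => rw [← hkN]
      ring
    refine le_of_mul_le_mul_left (h1.trans ?_) (by positivity : 0 < R1C.kk n β ^ 2 / 2)
    rw [h2]
    gcongr
  refine ⟨hn, hβ, ok, hd.θ_le, hA1, ?_, hd.T_low, hT1, rfl, rfl, hs1, hs12, hs2, ?_, ?_, hβn,
    (Real.exp_pos _).le, hδ, ?_, ?_, ?_, ?_, ?_, ?_, ?_, ?_, ?_⟩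
  · exact hx7
  · refine le_trans ?_ hd.y_low
    rw [← Real.rpow_natCast, ← Real.rpow_mul hnp.le]
    refine Real.rpow_le_rpow_of_exponent_le hn1 ?_
    push_cast
    linarith
  · have := hd.ρ_le
    linarith
  · refine (En_0 h ok (eu (1 - T))).trans_le (le_trans ?_ (hd.up0 s1 hs1.le (by linarith)))
    exact R1.Et_mono h hx (E3.of0 (eu _)) (E3.of0 (eu' _)) fun z0 _ _ => up_imp_S hn0 hβ S hup z0
  · refine (En_1 h ok (eu (1 - T / 2))).trans_le (le_trans ?_ (hd.up1 s1 hs1.le (by linarith)))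
    exact R1.Et_mono h hx (E3.of1 (eu _)) (E3.of1 (eu' _)) fun _ z1 _ => up_imp_S hn0 hβ S hup z1
  · refine (En_2 h ok (eu s1)).trans_le (le_trans ?_ (hd.up2 s1 hs1.le (by linarith)))
    exact R1.Et_mono h hx (E3.of2 (eu _)) (E3.of2 (eu' _)) fun _ _ z2 => up_imp_S hn0 hβ S hup z2
  · refine (En_3 h ok (eu s2)).trans_le (le_trans ?_ (hd.up2 s2 (by linarith) hs2.le))
    exact R1.Et_mono h hx (E3.of2 (eu _)) (E3.of2 (eu' _)) fun _ _ z2 => up_imp_S hn0 hβ S hup z2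
  · refine (En_2 h ok (el s1)).trans_le (le_trans ?_ (hd.low s1 hs1.le (by linarith)))
    exact R1.Et_mono h hx (E3.of2 (el _)) (E3.of2 (el' _)) fun _ _ z2 => lo_imp_S hn0 hβ S hlo z2
  · refine (En_3 h ok (el s2)).trans_le (le_trans ?_ (hd.low s2 (by linarith) hs2.le))
    exact R1.Et_mono h hx (E3.of2 (el _)) (E3.of2 (el' _)) fun _ _ z2 => lo_imp_S hn0 hβ S hlo z2
  · exact (En_2 h ok (eg_rt_S S s1)).trans_le (rate s1 hd.rate1)
  · exact (En_3 h ok (eg_rt_S S s2)).trans_le (rate s2 hd.rate2)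
  · intro hTA
    have h1 := hd.grow (hTA.trans hinv)
    rw [Qt_fr_S S, Qt_fr_S S] at h1
    have e2 := En_2 h ok (eg_fr_S S s1)
    have e3 := En_3 h ok (eg_fr_S S s2)
    refine le_of_mul_le_mul_left ?_ (by positivity : 0 < R1C.kk n β ^ 2 / 2)
    calc R1C.kk n β ^ 2 / 2 * (R1C.NN n β ρ / (n : ℝ) ^ al) = ρ / (n : ℝ) ^ al := by
          conv_rhs => rw [← hkN]
          ring
      _ ≤ (n : ℝ) ^ (-α) * ρ := hlo
      _ ≤ _ := h1
      _ = R1C.kk n β ^ 2 / 2 * (R1C.En ⟨x, θ, 1 - T, 1 - T / 2, s1, s2⟩ S.F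
            (fun w => fr (S.A s2 (R1C.P3 ⟨x, θ, 1 - T, 1 - T / 2, s1, s2⟩ w))) -
          R1C.En ⟨x, θ, 1 - T, 1 - T / 2, s1, s2⟩ S.F
            (fun w => fr (S.A s1 (R1C.P2 ⟨x, θ, 1 - T, 1 - T / 2, s1, s2⟩ w)))) := by
          rw [mul_sub, e2, e3]
          ring


end Vale.Agent.P146.X7.H641
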