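import Vale.Agent.P146.X7.H95_HKd
import Vale.Agent.P146.X7.H401_K7S
import Vale.Agent.P146.H95.KabF

/-!
Plan R1, all `β` (copy `X7`): (K7) from the bound `KabSk` of the fourth derivative by the path
functional.
-/

open MeasureTheory ProbabilityTheory Filter Topology

namespace Vale.Agent.P146.X7.H95

open Vale.Agent.P146.H95
open Vale.Agent.P157.Lv Vale.Agent.P146.H425 Vale.Agent.P146.H332 Vale.Agent.P146.H325
  Vale.Agent.P146.R1 Vale.Agent.P146.R1S Vale.Agent.P146.R1C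
open Vale.Agent.P146.X7.R1 Vale.Agent.P146.X7.R1S Vale.Agent.P146.X7.R1C

/-- **(K7) for some number of layers.** -/
def K7E (β : ℝ) : Prop :=
  ∃ (J : ℕ) (c0 C7 C9 : ℝ), 0 < c0 ∧ 0 ≤ C7 ∧ 1 ≤ C9 ∧ K7H β J c0 C7 C9

/-- (K7) from `KabSk` -/
theorem k7e_of {β : ℝ} (hβ : 0 < β) (hK : Vale.Agent.P146.H401.KabSk β) : K7E β := by
  obtain ⟨J, c0, C7, -, hc0, hC7, hmain⟩ := Vale.Agent.P146.X7.H401.k7_deep hβ hK
  refine ⟨J, c0, C7, 1, hc0, hC7.le, le_rfl, fun c hc => ?_⟩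
  obtain ⟨n₀, -, hn₀⟩ := hmain (c / 2) (by positivity)
  refine ⟨n₀, fun n hn a al h x m hk hE H b v lam hv hvb hl _ Z => ?_⟩
  rw [one_mul]
  exact hn₀ n hn hk hE H hv hvb hl Z

/-- (K7) for all `β > 0` -/
theorem k7e {β : ℝ} (hβ : 0 < β) : K7E β := k7e_of hβ (Vale.Agent.P146.H95.kab_sk hβ)

end Vale.Agent.P146.X7.H95
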