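import Vale.Agent.P146.X7.H737_HK
import Vale.Agent.P146.X7.H95_K7F
import Vale.Agent.P146.H695.CoreAt
import Vale.Agent.P146.H695.Utc2

/-!
The exponential moments at all scales `x ∈ [n^(-1/6), n^(-a)]`, `a > 179/3000`.
-/

open MeasureTheory ProbabilityTheory Filter Topology

namespace Vale.Agent.P146.X7.H737

open Vale.Agent.P157.Lv Vale.Agent.P146.H425 Vale.Agent.P146.H325 Vale.Agent.P146.R1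
  Vale.Agent.P146.R1S Vale.Agent.P146.R1C Vale.Agent.P146.H260.V14
open Vale.Agent.P146.X7.H425 Vale.Agent.P146.X7.H325 Vale.Agent.P146.X7.R1 Vale.Agent.P146.X7.R1S
  Vale.Agent.P146.X7.R1C

/-- **Block F at the scale `x₀`**, any layers. -/
def HFat (β : ℝ) : Prop :=
  ∀ Q : ℝ → ℝ → ℕ → ℝ → (ℕ → ℝ) → (ℕ → ℝ) → ℕ → Prop,
    (∀ c α a : ℝ, 0 < α → 100 * α ≤ c → 8 * c ≤ 1 / 10 → 0 < a → ∃ n₀ : ℕ, ∀ n : ℕ, n₀ ≤ n →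
      ∃ (m σ : ℕ → ℝ) (J : ℕ), Lay n β m σ J ∧ Exs m J ((n : ℝ) ^ (-(1 / 20) : ℝ)) ∧
        Q a c n ((n : ℝ) ^ α) m σ J) →
    ∀ κ : ℝ, 0 ≤ κ → κ ≤ 107 / 1000 → ∀ ε α c : ℝ, 0 < α → 100 * α ≤ c → 8 * c = ε →
      ε ≤ 1 / 10 → ∃ n₀ : ℕ, ∀ n : ℕ, n₀ ≤ n → ∀ x0 : ℝ, (n : ℝ) ^ (-(1 / 6) + κ : ℝ) ≤ x0 →
      x0 ≤ (n : ℝ) ^ (-(1 / 6) + κ + α : ℝ) →
      (n : ℝ) ^ (1 + ε : ℝ) * x0 ^ 4 ≤ VX β n (x0 / 2) →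
      ∃ T ρ x : ℝ, PD β Q c n ((n : ℝ) ^ α) T ρ x ∧ 0 < T ∧ T ≤ 1 ∧ 0 < ρ ∧
        2 * ρ ≤ β ^ 2 * n ∧ x0 ≤ x ∧ x ≤ x0 * (n : ℝ) ^ α ∧
        (n : ℝ) ^ (1 + ε - 3 * α) * x0 ^ 6 ≤ x ^ 2 * ρ * T ∧
        ((n : ℝ) ^ (-(1 / 100) : ℝ) ≤ T → 2 * ρ / (β ^ 2 * n) ≤ (n : ℝ) ^ (-(1 / 50) : ℝ))

/-- **The input `hF` at the scales `κ`.** -/
theorem hFk {β : ℝ} (hβ : 0 < β) (H : HFat β) (J : ℕ) : ∀ κ : ℝ, 0 ≤ κ → κ ≤ 107 / 1000 →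
    ∀ ε α c : ℝ, 0 < α → 100 * α ≤ c → 8 * c = ε → ε ≤ 1 / 10 → ∃ n₀ : ℕ, ∀ n : ℕ,
    n₀ ≤ n → ∀ x0 : ℝ, (n : ℝ) ^ (-(1 / 6) + κ : ℝ) ≤ x0 →
      x0 ≤ (n : ℝ) ^ (-(1 / 6) + κ + α : ℝ) →
      (n : ℝ) ^ (1 + ε : ℝ) * x0 ^ 4 ≤ VX β n (x0 / 2) →
      ∃ T ρ x : ℝ, PXk β J κ c n ((n : ℝ) ^ α) T ρ x ∧
      0 < T ∧ T ≤ 1 ∧ 0 < ρ ∧ 2 * ρ ≤ β ^ 2 * n ∧ x0 ≤ x ∧
      x ≤ x0 * (n : ℝ) ^ (2 * α) ∧ (n : ℝ) ^ (1 + ε - 3 * α) * x0 ^ 6 ≤ x ^ 2 * ρ * T ∧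
      ((n : ℝ) ^ (-(1 / 100) : ℝ) ≤ T → 2 * ρ / (β ^ 2 * n) ≤ (n : ℝ) ^ (-(1 / 50) : ℝ)) := by
  intro κ hκ hκ1 ε α c hα hαc hc hε
  obtain ⟨n₀, h⟩ := H (QDk β J κ) (fun c α a h1 h2 h3 _ => hQk hβ J hκ (by linarith) c α a h1 h2 h3)
    κ hκ hκ1 ε α c hα hαc hc hε
  refine ⟨max 1 n₀, fun n hn x0 hl hu hV => ?_⟩
  have hn1 : 1 ≤ n := (le_max_left _ _).trans hn
  have hnr : (1 : ℝ) ≤ n := by exact_mod_cast hn1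
  have hn0 : (0 : ℝ) < n := by linarith
  have hx0 : 0 < x0 := (Real.rpow_pos_of_pos hn0 _).trans_le hl
  obtain ⟨T, ρ, x, hP, h1, h2, h3, h4, h5, h6, h7, h8⟩ := h n ((le_max_right _ _).trans hn) x0 hl
    hu hV
  refine ⟨T, ρ, x, ⟨hP, hl.trans h5, ?_⟩, h1, h2, h3, h4, h5, h6.trans ?_, h7, h8⟩
  · calc x ≤ x0 * (n : ℝ) ^ α := h6
      _ ≤ (n : ℝ) ^ (-(1 / 6) + κ + α : ℝ) * (n : ℝ) ^ α := by gcongr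
      _ = (n : ℝ) ^ (-(1 / 6) + κ : ℝ) * ((n : ℝ) ^ α) ^ 2 := by
          rw [Real.rpow_add hn0 (-(1 / 6) + κ)]
          ring
  · exact mul_le_mul_of_nonneg_left (Real.rpow_le_rpow_of_exponent_le hnr (by linarith)) hx0.le

/-- **The exponential moments at all scales**, from block F. -/
theorem upM_of {β : ℝ} (hβ : 0 < β) (H : HFat β) (h7 : H95.K7E β) {a : ℝ} (ha : 179 / 3000 < a) :
    H695.UpM β a := by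
  obtain ⟨J, c0, C7, C9, h0, h1, h2, h3⟩ := h7
  refine H695.utc_of (b₀ := -((a + 179 / 3000) / 2)) (by linarith) ?_
  exact H695.core_kap (b₁ := -(179 / 3000)) (K := 107 / 1000) hβ.ne' (by linarith) (by norm_num)
    (by norm_num) (V := fun n x0 => VX β n (x0 / 2)) (P := PXk β J) (hFk hβ H J)
    (hLk hβ J _) (hKk hβ h0 h1 h2 h3 _)

/-- **The exponential moments at all scales**, from block F, all `β > 0`. -/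
theorem upM_of_hF {β : ℝ} (hβ : 0 < β) (H : HFat β) {a : ℝ} (ha : 179 / 3000 < a) :
    H695.UpM β a :=
  upM_of hβ H (H95.k7e hβ) ha

end Vale.Agent.P146.X7.H737
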