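import Vale.Agent.P146.X7.H641_D
import Vale.Agent.P146.X7.H737_Fin

/-!
# P146: the input `hF` of the end of the contradiction at a general scale `x₀ ≥ n^(-1/6)`, for any
choice of the layers, and the exponential moments at all scales
-/

open MeasureTheory ProbabilityTheory

namespace Vale.Agent.P146.X7.H641

open Vale.Agent.P157.Lv Vale.Agent.P146.H425 Vale.Agent.P146.H332 Vale.Agent.P146.H325
open Vale.Agent.P146.R1 Vale.Agent.P146.H260.V13 Vale.Agent.P146.H260.V14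
open Vale.Agent.P146.X7.H425 Vale.Agent.P146.X7.H332 Vale.Agent.P146.X7.H325
  Vale.Agent.P146.X7.R1

/-- **The input `hF` at the scale `x₀` for the deep systems.** -/
theorem hF_at {β : ℝ} (hβ : 0 < β)
    (Q : ℝ → ℝ → ℕ → ℝ → (ℕ → ℝ) → (ℕ → ℝ) → ℕ → Prop)
    (hQ : ∀ c α a : ℝ, 0 < α → 100 * α ≤ c → 8 * c ≤ 1 / 10 → 0 < a → ∃ n₀ : ℕ, ∀ n : ℕ, n₀ ≤ n →
      ∃ (m σ : ℕ → ℝ) (J : ℕ), Lay n β m σ J ∧ Exs m J ((n : ℝ) ^ (-(1 / 17) : ℝ)) ∧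
        Q a c n ((n : ℝ) ^ α) m σ J) :
    ∀ ε α c : ℝ, 0 < α → 100 * α ≤ c → 8 * c = ε → ε ≤ 1 / 10 → ∃ n₀ : ℕ, ∀ n : ℕ, n₀ ≤ n →
      ∀ x0 : ℝ, (n : ℝ) ^ (-(1 / 6) : ℝ) ≤ x0 → x0 ≤ (n : ℝ) ^ (-(1 / 17) - α : ℝ) →
      (n : ℝ) ^ (1 + ε : ℝ) * x0 ^ 4 ≤ VX β n (x0 / 2) →
      ∃ T ρ x : ℝ, X7.R1.PD β Q c n ((n : ℝ) ^ α) T ρ x ∧ 0 < T ∧ T ≤ 1 ∧ 0 < ρ ∧
        2 * ρ ≤ β ^ 2 * n ∧ x0 ≤ x ∧ x ≤ x0 * (n : ℝ) ^ α ∧
        (n : ℝ) ^ (1 + ε - 3 * α) * x0 ^ 6 ≤ x ^ 2 * ρ * T ∧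
        ((n : ℝ) ^ (-(1 / 100) : ℝ) ≤ T → 2 * ρ / (β ^ 2 * n) ≤ (n : ℝ) ^ (-(1 / 50) : ℝ)) := by
  intro ε α c hα h100 h8 hε
  obtain ⟨a, ha, n₀, hout⟩ := deep_hFX hβ ε α hα (by linarith) hε
  obtain ⟨n₁, hq⟩ := hQ c α a hα h100 (by linarith) ha
  refine ⟨max 1 (max n₀ n₁), fun n hn x0 hx0 hx0u hV => ?_⟩
  have hn1 : 1 ≤ n := (le_max_left _ _).trans hn
  have hn0' : n₀ ≤ n := ((le_max_left _ _).trans (le_max_right _ _)).trans hn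
  have hn1' : n₁ ≤ n := ((le_max_right _ _).trans (le_max_right _ _)).trans hn
  have hnr : (1 : ℝ) ≤ n := by exact_mod_cast hn1
  have hnp : (0 : ℝ) < n := by linarith
  obtain ⟨m, σ, J, hL, hE, hQ'⟩ := hq n hn1'
  obtain ⟨x, θ, T, s1, s2, ρ, δ, hg, -, h1, h2, h3, -, h4, h5, h6, h7, h8', h9, h10, h11, hS⟩ :=
    hout n hn0' x0 hx0 hx0u m σ J hL hV
  have hk : 0 < R1C.kk n β := H946.kk_pos (by omega) hβ
  have hxy : x ≤ (n : ℝ) ^ (-(1 / 17) : ℝ) := by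
    calc x ≤ x0 * (n : ℝ) ^ α := h9
      _ ≤ (n : ℝ) ^ (-(1 / 17) - α : ℝ) * (n : ℝ) ^ α :=
          mul_le_mul_of_nonneg_right hx0u (Real.rpow_nonneg hnp.le _)
      _ = (n : ℝ) ^ (-(1 / 17) : ℝ) := by
          rw [← Real.rpow_add hnp]
          congr 1
          ring
  have hE' : Exs m J x := Exs.mono hE h7 hxy
  exact ⟨T, ρ, x, ⟨a, m, σ, J, θ, s1, s2, δ, hk, hE', ha, hQ', hL, hg, h1, h2, hx0.trans h8',
    hS (R1S.deepCS n hk σ hE') rfl rfl⟩, h3, h4, h5, h6, h8', h9, h10, h11⟩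

/-- **Block F at the scales `x₀ ∈ [n^(-1/6+κ), n^(-1/6+κ+α)]`.** -/
theorem hfAt {β : ℝ} (hβ : 0 < β) : H737.HFat β := by
  intro Q hQ κ hκ hκ1 ε α c hα h100 h8 hε
  obtain ⟨n₀, h⟩ := hF_at hβ Q (fun c α a h1 h2 h3 h4 => by
    obtain ⟨n₁, hn₁⟩ := hQ c α a h1 h2 h3 h4
    refine ⟨max 1 n₁, fun n hn => ?_⟩
    have hn1 : 1 ≤ n := (le_max_left _ _).trans hn
    have hnr : (1 : ℝ) ≤ n := by exact_mod_cast hn1
    have hnp : (0 : ℝ) < n := by linarith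
    obtain ⟨m, σ, J, hL, hE, hq⟩ := hn₁ n ((le_max_right _ _).trans hn)
    exact ⟨m, σ, J, hL, Exs.mono hE (Real.rpow_pos_of_pos hnp _)
      (Real.rpow_le_rpow_of_exponent_le hnr (by norm_num)), hq⟩) ε α c hα h100 h8 hε
  refine ⟨max 1 n₀, fun n hn x0 hl hu hV => ?_⟩
  have hn1 : 1 ≤ n := (le_max_left _ _).trans hn
  have hnr : (1 : ℝ) ≤ n := by exact_mod_cast hn1
  refine h n ((le_max_right _ _).trans hn) x0 ?_ ?_ hV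
  · exact (Real.rpow_le_rpow_of_exponent_le hnr (by linarith)).trans hl
  · exact hu.trans (Real.rpow_le_rpow_of_exponent_le hnr (by linarith))

/-- **The exponential moments of the free energy at all scales `x ∈ [n^(-1/6), n^(-a)]`.** -/
theorem upM {β : ℝ} (hβ : 0 < β) {a : ℝ} (ha : 179 / 3000 < a) : Vale.Agent.P146.H695.UpM β a :=
  H737.upM_of_hF hβ (hfAt hβ) ha

end Vale.Agent.P146.X7.H641
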