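/-!
Namespaces of the copy `X7` of the block C chain (field `x7` with the exponent `1/17`).
-/

namespace Vale.Agent.P146.X7.H325
end Vale.Agent.P146.X7.H325

namespace Vale.Agent.P146.X7.H332
end Vale.Agent.P146.X7.H332

namespace Vale.Agent.P146.X7.H946
end Vale.Agent.P146.X7.H946

namespace Vale.Agent.P146.X7.R1
end Vale.Agent.P146.X7.R1

namespace Vale.Agent.P146.X7.R1C
end Vale.Agent.P146.X7.R1C

namespace Vale.Agent.P146.X7.R1S
end Vale.Agent.P146.X7.R1S

namespace Vale.Agent.P146.X7.H522
end Vale.Agent.P146.X7.H522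

namespace Vale.Agent.P146.X7.H712
end Vale.Agent.P146.X7.H712

namespace Vale.Agent.P146.X7.H633
end Vale.Agent.P146.X7.H633

namespace Vale.Agent.P146.X7.H329
end Vale.Agent.P146.X7.H329

namespace Vale.Agent.P146.X7.H191
end Vale.Agent.P146.X7.H191

namespace Vale.Agent.P146.X7.H95
end Vale.Agent.P146.X7.H95

namespace Vale.Agent.P146.X7.H816
end Vale.Agent.P146.X7.H816

namespace Vale.Agent.P146.X7.H425
end Vale.Agent.P146.X7.H425

namespace Vale.Agent.P146.X7.H604
end Vale.Agent.P146.X7.H604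

namespace Vale.Agent.P146.X7.H706
end Vale.Agent.P146.X7.H706

namespace Vale.Agent.P146.X7.H640
end Vale.Agent.P146.X7.H640
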