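import Vale.Agent.P146.X7.H706_D4e
import Vale.Agent.P146.X7.NS

/-!
The choice of the exponents of the deep layers, for layers of any size `n^(-1 + b)`,
`b > 1/24` (used at the scales `x` up to `n^(-1/17)`).
-/

open MeasureTheory ProbabilityTheory

namespace Vale.Agent.P146.X7.H737

open Vale.Agent.P157.Lv Vale.Agent.P146.H425 Vale.Agent.P146.H332 Vale.Agent.P146.H325
open Vale.Agent.P146.X7.H425 Vale.Agent.P146.X7.H332 Vale.Agent.P146.X7.H325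
open Vale.Agent.P146.R1
open Vale.Agent.P146.X7.R1
open Vale.Agent.P146.H785 (Ax)
open Vale.Agent.P146.H946 (Dz)

set_option linter.unusedSectionVars false

lemma fin_num2 {τ τ₁ : ℝ} (hτ : τ₁ < τ) : ∃ n₀ : ℝ, 2 ≤ n₀ ∧ ∀ n : ℝ, n₀ ≤ n →
    ∀ (J : ℕ) (k0 N : ℝ),
    0 ≤ k0 → k0 ≤ 1 / (8 * ((J : ℝ) + 1)) → n ^ τ ≤ N → ∀ c : ℝ,
    c ≤ ((⌊4 * Real.log n⌋₊ : ℝ) + 1) ^ 2 → 0 ≤ c → 3 * (k0 * (c * J / N)) ≤ n ^ (-τ₁) := by
  obtain ⟨n₁, h2, h⟩ := H737.R1.log_le_pow (A := 8) (δ := (τ - τ₁) / 2) (by linarith)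
  refine ⟨n₁, h2, fun n hn J k0 N hk hk1 hN c hc hc0 => ?_⟩
  have hn2 : 2 ≤ n := h2.trans hn
  have hn0 : 0 < n := by linarith
  have hl := h n hn
  have hlog : 1 / 4 ≤ Real.log n := by
    have h3 := Real.log_two_gt_d9
    have h4 : Real.log 2 ≤ Real.log n := Real.log_le_log (by norm_num) hn2
    linarith
  have hNp : 0 < N := (Real.rpow_pos_of_pos hn0 τ).trans_le hN
  have hJ : (0 : ℝ) < (J : ℝ) + 1 := by positivity
  have hfl : (⌊4 * Real.log n⌋₊ : ℝ) ≤ 4 * Real.log n := Nat.floor_le (by positivity)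
  have hK : ((⌊4 * Real.log n⌋₊ : ℝ) + 1) ^ 2 ≤ n ^ (τ - τ₁) := by
    have e : n ^ (τ - τ₁) = (n ^ ((τ - τ₁) / 2)) ^ 2 := by
      rw [← Real.rpow_natCast, ← Real.rpow_mul hn0.le]
      congr 1
      push_cast
      ring
    rw [e]
    exact pow_le_pow_left₀ (by positivity) (by linarith) 2
  have hkJ : k0 * J ≤ 1 / 8 := by
    have h5 : k0 * ((J : ℝ) + 1) ≤ 1 / (8 * ((J : ℝ) + 1)) * ((J : ℝ) + 1) :=
      mul_le_mul_of_nonneg_right hk1 hJ.le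
    have e : 1 / (8 * ((J : ℝ) + 1)) * ((J : ℝ) + 1) = 1 / 8 := by field_simp
    rw [e] at h5
    nlinarith
  have hkJ0 : 0 ≤ k0 * J := by positivity
  have e1 : 3 * (k0 * (c * J / N)) = 3 * (k0 * J) * c / N := by ring
  rw [e1, div_le_iff₀ hNp]
  have e2 : n ^ (τ - τ₁) = n ^ (-τ₁) * n ^ τ := by
    rw [← Real.rpow_add hn0]
    congr 1
    ring
  calc 3 * (k0 * J) * c ≤ 3 * (1 / 8) * n ^ (τ - τ₁) := by
        have := hc.trans hK
        gcongr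
    _ ≤ n ^ (τ - τ₁) := by
        have := Real.rpow_pos_of_pos hn0 (τ - τ₁)
        linarith
    _ = n ^ (-τ₁) * n ^ τ := e2
    _ ≤ n ^ (-τ₁) * N :=
        mul_le_mul_of_nonneg_left hN (Real.rpow_pos_of_pos hn0 _).le

/-- **The choice of the exponents of the deep layers.** -/
theorem d4_gen2 {τ τ₁ a C α : ℝ} (hτ : 0 < τ) (hτ₁ : τ₁ < τ) (hα : α ≤ 2) :
    ∃ n₀ : ℝ, 2 ≤ n₀ ∧ ∀ n : ℝ, n₀ ≤ n → ∀ (J : ℕ) (lam : ℝ), 0 ≤ lam → n ^ τ ≤ lam * (C * n) →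
      ∀ (κ : Type) [Fintype κ] [DecidableEq κ] (F : (κ → ℝ) → ℝ) (D : κ → (κ → ℝ) → ℝ)
        (B L : ℝ), C11 F D B L →
      ∀ (ι : Type) [Fintype ι] [Nonempty ι] (Fb : ι → (κ → ℝ) → ℝ)
        (Db : ι → κ → (κ → ℝ) → ℝ) (Bb Lb : ι → ℝ), (∀ b, C11 (Fb b) (Db b) (Bb b) (Lb b)) →
        (∀ b, Cv (Fb b)) → (∀ b z, ∑ e, Db b e z ^ 2 ≤ C * n) →
      ∀ c : ℝ, (∀ m : ℕ → ℝ, (∀ j < J, 1 / ((J : ℝ) + 1) ≤ m j) → (∀ j < J, m j ≤ 1) →
        ∀ z, F z ≤ FD F m (fun _ => √lam) J z ∧ FD F m (fun _ => √lam) J z ≤ F z + c) →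
        3 * n ^ (-(1 / 6) + α : ℝ) * c ≤ 1 →
      ∃ (m : ℕ → ℝ) (h : ℝ), 0 < h ∧ 1 / (24 * ((J : ℝ) + 1)) ≤ h / 2 * (lam * (C * n)) ∧
        h / 2 * (lam * (C * n)) ≤ 1 / (8 * ((J : ℝ) + 1)) ∧
        (∀ l < J, ((J : ℝ) - l) / (J + 1) + h ≤ m l ∧
          m l + h ≤ ((J : ℝ) - l) / (J + 1) + 1 / (4 * ((J : ℝ) + 1))) ∧
        ∀ (q : R1C.Par) (T : ℝ), q.Ok → q.t0 = 1 - T → q.t1 = 1 - T / 2 →
          FGrid n a q.x q.θ T → q.x ≤ n ^ (-(1 / 6) + α : ℝ) → 1 / n ^ 2 ≤ T →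
          (∑ b, R1C.En q (FD F m (fun _ => √lam) J) fun w => Ax q.x (√(1 - q.s1))
            (FD F m (fun _ => √lam) J)
            (fun z => ∑ l ∈ Finset.range J, dsec (Fb b) m (fun _ => √lam) J l h z)
            (R1C.P2 q w)) / Fintype.card ι ≤ n ^ (-τ₁) ∧
          (∑ b, R1C.En q (FD F m (fun _ => √lam) J) fun w => Ax q.x (√(1 - q.s2))
            (FD F m (fun _ => √lam) J)
            (fun z => ∑ l ∈ Finset.range J, dsec (Fb b) m (fun _ => √lam) J l h z)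
            (R1C.P3 q w)) / Fintype.card ι ≤ n ^ (-τ₁) := by
  obtain ⟨n₀, hn₀, hfin⟩ := fin_num2 hτ₁
  refine ⟨n₀, hn₀, fun n hn J lam hlam hnl κ _ _ F D B L hF ι _ _ Fb Db Bb Lb hFb hcv hBd c
    hcl hc => ?_⟩
  have hn2 : 2 ≤ n := hn₀.trans hn
  have hn1 : 1 ≤ n := by linarith
  have hn0 : 0 < n := by linarith
  set u := lam * (C * n) with hu
  have hu1 : 1 ≤ u := (Real.one_le_rpow hn1 hτ.le).trans hnl
  obtain ⟨hN0, huN, hh0, hhN, hk1, hk2⟩ := mesh_num (J := J) hu1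
  set N := ⌈u⌉₊ with hN
  set h := 1 / (4 * ((J : ℝ) + 1) * (N + 1)) with hh
  set k0 := h / 2 * u with hk0
  have hJ : (0 : ℝ) < (J : ℝ) + 1 := by positivity
  have hk0p : 0 < k0 := lt_of_lt_of_le (by positivity) hk1
  have hk01 : k0 ≤ 1 := hk2.trans (by
    rw [div_le_one (by positivity)]
    have : (0 : ℝ) ≤ J := Nat.cast_nonneg J
    linarith)
  have ha0 : 0 < 1 / ((J : ℝ) + 1) := by positivity
  have ha1 : 1 / ((J : ℝ) + 1) ≤ 1 := by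
    rw [div_le_one hJ]
    have : (0 : ℝ) ≤ J := Nat.cast_nonneg J
    linarith
  have hσ : √lam ^ 2 * (C * n) = u := by rw [Real.sq_sqrt hlam]
  obtain ⟨g, hg, hsum⟩ := d4_choice (θ := 1 / (a * Real.log n)) hFb hF (fun _ => √lam) hN0
    hh0.le hk0p (fun b m hm l hl z => by
      have := H785.ups_bd (σ := fun _ => √lam) (hFb b) (hcv b)
        (fun j hj => ha0.trans_le (hm j hj)) hl hh0.le (hBd b) (by rw [hσ]; exact hk01) ha0 ha1
        (fun j _ hj => hm j hj) z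
      rwa [hσ] at this)
    (sgrid n ⌊4 * Real.log n⌋₊) (sgrid_pos hn0 _)
  have hbox : ∀ l < J, ((J : ℝ) - l) / (J + 1) + h ≤ mgr J h g l ∧
      mgr J h g l + h ≤ ((J : ℝ) - l) / (J + 1) + 1 / (4 * ((J : ℝ) + 1)) :=
    fun l hl => mgr_box hh0.le hhN (hg l hl)
  refine ⟨mgr J h g, h, hh0, hk1, hk2, hbox, fun q T hq ht0 ht1 hgr hx hT => ?_⟩
  have hml : ∀ j < J, 1 / ((J : ℝ) + 1) ≤ mgr J h g j := fun j hj => mgr_pos hh0.le g hj
  have hmle : ∀ j < J, mgr J h g j ≤ 1 := by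
    intro j hj
    have h1 := (hbox j hj).2
    have h2 : ((J : ℝ) - j) / (J + 1) + 1 / (4 * ((J : ℝ) + 1)) ≤ 1 := by
      rw [div_add_div _ _ (by positivity) (by positivity), div_le_one (by positivity)]
      have : (0 : ℝ) ≤ j := Nat.cast_nonneg j
      nlinarith [mul_nonneg this hJ.le]
    linarith
  have hhl : ∀ j < J, |h| < mgr J h g j := by
    intro j hj
    rw [abs_of_pos hh0]
    have h1 := (hbox j hj).1
    have h2 : 0 < ((J : ℝ) - j) / (J + 1) := by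
      have : (j : ℝ) < J := by exact_mod_cast hj
      have : 0 < (J : ℝ) - j := by linarith
      positivity
    linarith
  have hsec : ∀ b, ∀ l < J, ∀ z, 0 ≤ dsec (Fb b) (mgr J h g) (fun _ => √lam) J l h z := by
    intro b l hl z
    have h1 := hhl l hl
    rw [abs_of_pos hh0] at h1
    exact H785.dsec_nonneg (σ := fun _ => √lam) (hFb b) (hcv b)
      (fun j hj => ha0.trans_le (hml j hj)) hl hh0.le h1 (hBd b) (by rw [hσ]; exact hk01) ha0 ha1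
      (fun j _ hj => hml j hj) z
  have hdg : ∀ b l, EG (dsec (Fb b) (mgr J h g) (fun _ => √lam) J l h) := fun b l =>
    eg_dsec (hFb b) hhl
  have hmem := mem_sgrid hn1 hgr hα hx hT
  -- the mean for the undressed functional
  have hK : (∑ b, Le q.θ F (q.x, T) (fun z => ∑ l ∈ Finset.range J,
      dsec (Fb b) (mgr J h g) (fun _ => √lam) J l h z)) / Fintype.card ι ≤
      k0 * (((sgrid n ⌊4 * Real.log n⌋₊).card : ℝ) * J / N) := by
    refine le_trans (le_of_eq ?_) ((Finset.single_le_sum (f := fun p : ℝ × ℝ =>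
      ∑ l ∈ Finset.range J, (∑ b, Le (1 / (a * Real.log n)) F p
        (dsec (Fb b) (mgr J h g) (fun _ => √lam) J l h)) / Fintype.card ι)
      (fun p hp => Finset.sum_nonneg fun l hl => div_nonneg (Finset.sum_nonneg fun b _ =>
        Le_nonneg hF (sgrid_pos hn0 _ p hp) fun z => hsec b l (Finset.mem_range.1 hl) z)
        (Nat.cast_nonneg _)) hmem).trans hsum)
    rw [← Finset.sum_div, Finset.sum_comm, ← hgr.θ_grid]
    congr 1
    refine Finset.sum_congr rfl fun b _ => ?_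
    exact Le_sum hF hq.x0 (Finset.range J) fun l _ => hdg b l
  have hcl' := hcl (mgr J h g) hml hmle
  have hc0 : 0 ≤ c := by
    have := hcl' 0
    linarith
  have hcx : (1 + 2 * q.θ) * q.x * c ≤ 1 := by
    refine le_trans ?_ hc
    have h1 : (1 + 2 * q.θ) * q.x ≤ 3 * n ^ (-(1 / 6) + α : ℝ) :=
      mul_le_mul (by linarith [hq.θ1]) hx hq.x0.le (by norm_num)
    exact mul_le_mul_of_nonneg_right h1 hc0
  have hV := c11_FD (σ := fun _ => √lam) hF J fun j hj => ha0.trans_le (hml j hj)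
  obtain ⟨r1, r2⟩ := d4_law hF hV (fun z => (hcl' z).1) (fun z => (hcl' z).2)
    (G := fun b z => ∑ l ∈ Finset.range J, dsec (Fb b) (mgr J h g) (fun _ => √lam) J l h z)
    (fun b => EG.sum _ fun l _ => hdg b l)
    (fun b z => Finset.sum_nonneg fun l hl => hsec b l (Finset.mem_range.1 hl) z)
    hq ht0 ht1 hcx hK
  have hlast := hfin n hn J k0 N hk0p.le hk2 (hnl.trans huN)
    (sgrid n ⌊4 * Real.log n⌋₊).card (card_sgrid n _) (Nat.cast_nonneg _)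
  exact ⟨r1.trans hlast, r2.trans hlast⟩

/-- **The choice of the exponents of the deep layers of the SK model**, layers of size
`n^(-5/6 - e2)`, `e2 ≤ 7/60`. -/
theorem d4_out2 {β a al e2 : ℝ} (hβ : 0 < β) (hal : al < e2) (he0 : 0 < e2)
    (he2 : e2 ≤ 7 / 60) (J : ℕ) :
    ∃ n₀ : ℕ, ∀ n : ℕ, n₀ ≤ n → ∀ (ι Y : Type) [Fintype ι] [Nonempty ι] [Fintype Y] [Nonempty Y]
      (Sx : ι → Pair n → Y → ℝ), (∀ b e σ, |Sx b e σ| ≤ 1) →
      ∃ (m : ℕ → ℝ) (h : ℝ), DLay β a al e2 n J Sx m h ∧ Lay n β m (fun _ => sdl e2 n) J := by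
  obtain ⟨n₁, hn₁, hgen⟩ := d4_gen2 (τ := 11 / 240) (τ₁ := 1 / 24) (a := a) (C := β ^ 2 / 2)
    (α := al) (by norm_num) (by norm_num) (by linarith)
  obtain ⟨n₂, hn₂⟩ := Filter.eventually_atTop.1
    (((tendsto_rpow_atTop (show 0 < e2 - al by linarith)).eventually_ge_atTop
        (3 * (β ^ 2 / 4 * J))).and
      (((tendsto_rpow_atTop (show (0 : ℝ) < 1 / 240 by norm_num)).eventually_ge_atTop
        (2 / β ^ 2)).and
      ((tendsto_rpow_atTop he0).eventually_ge_atTop (β ^ 2 / 4 * J))))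
  obtain ⟨N, hN⟩ := exists_nat_ge (max n₁ n₂)
  refine ⟨N, fun n hn ι Y _ _ _ _ Sx hSx => ?_⟩
  classical
  have hnN : max n₁ n₂ ≤ (n : ℝ) := hN.trans (by exact_mod_cast hn)
  have h1 : n₁ ≤ (n : ℝ) := (le_max_left _ _).trans hnN
  have h2 : n₂ ≤ (n : ℝ) := (le_max_right _ _).trans hnN
  obtain ⟨g1, g2, g3⟩ := hn₂ n h2
  have hn2 : (2 : ℝ) ≤ n := hn₁.trans h1
  have hn1 : (1 : ℝ) ≤ n := by linarith
  have hnp : (0 : ℝ) < n := by linarith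
  have hn0 : 0 < n := by exact_mod_cast hnp
  have hlam0 : 0 ≤ (n : ℝ) ^ (-(5 / 6) - e2 : ℝ) := Real.rpow_nonneg hnp.le _
  have hlamn : (n : ℝ) ^ (-(5 / 6) - e2 : ℝ) * (β ^ 2 / 2 * n) =
      β ^ 2 / 2 * (n : ℝ) ^ (1 / 6 - e2 : ℝ) := by
    rw [← sdl_sq, ← sdl_mul hn0]
    ring
  -- the size of the layers
  have hnl : (n : ℝ) ^ (11 / 240 : ℝ) ≤ (n : ℝ) ^ (-(5 / 6) - e2 : ℝ) * (β ^ 2 / 2 * n) := by
    rw [hlamn]
    have k1 : (n : ℝ) ^ (11 / 240 : ℝ) * (n : ℝ) ^ (1 / 240 : ℝ) ≤ (n : ℝ) ^ (1 / 6 - e2 : ℝ) := by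
      rw [← Real.rpow_add hnp]
      exact Real.rpow_le_rpow_of_exponent_le hn1 (by linarith)
    have k2 : (0 : ℝ) < (n : ℝ) ^ (11 / 240 : ℝ) := Real.rpow_pos_of_pos hnp _
    have k3 : 1 ≤ β ^ 2 / 2 * (n : ℝ) ^ (1 / 240 : ℝ) := by
      have := mul_le_mul_of_nonneg_left g2 (by positivity : 0 ≤ β ^ 2 / 2)
      have e : β ^ 2 / 2 * (2 / β ^ 2) = 1 := by field_simp
      linarith
    calc (n : ℝ) ^ (11 / 240 : ℝ) ≤
          (n : ℝ) ^ (11 / 240 : ℝ) * (β ^ 2 / 2 * (n : ℝ) ^ (1 / 240 : ℝ)) :=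
          le_mul_of_one_le_right k2.le k3
      _ = β ^ 2 / 2 * ((n : ℝ) ^ (11 / 240 : ℝ) * (n : ℝ) ^ (1 / 240 : ℝ)) := by ring
      _ ≤ _ := mul_le_mul_of_nonneg_left k1 (by positivity)
  -- the cost
  set c := β ^ 2 / 4 * J * (n : ℝ) ^ (1 / 6 - e2 : ℝ) with hc
  have hcl : ∀ m : ℕ → ℝ, (∀ j < J, 1 / ((J : ℝ) + 1) ≤ m j) → (∀ j < J, m j ≤ 1) →
      ∀ z, lz (R1C.kk n β) SkS z ≤ Fz n β m (fun _ => sdl e2 n) J z ∧
        Fz n β m (fun _ => sdl e2 n) J z ≤ lz (R1C.kk n β) SkS z + c := by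
    intro m hm hm1 z
    have hm0 : ∀ j < J, 0 < m j := fun j hj =>
      (by positivity : 0 < 1 / ((J : ℝ) + 1)).trans_le (hm j hj)
    have := FD_lz (σ := fun _ => sdl e2 n) hn0 β hm0 hm1 z
    refine ⟨this.1, this.2.trans (le_of_eq ?_)⟩
    rw [Finset.sum_const, Finset.card_range, nsmul_eq_mul, hc, ← sdl_mul hn0]
    unfold R1C.kk
    ring
  have hcx : 3 * (n : ℝ) ^ (-(1 / 6) + al : ℝ) * c ≤ 1 := by
    have e : 3 * (n : ℝ) ^ (-(1 / 6) + al : ℝ) * c =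
        3 * (β ^ 2 / 4 * J) * ((n : ℝ) ^ (e2 - al))⁻¹ := by
      rw [hc, ← Real.rpow_neg hnp.le]
      have : (n : ℝ) ^ (-(e2 - al)) =
          (n : ℝ) ^ (-(1 / 6) + al : ℝ) * (n : ℝ) ^ (1 / 6 - e2 : ℝ) := by
        rw [← Real.rpow_add hnp]
        congr 1
        ring
      rw [this]
      ring
    rw [e, ← div_eq_mul_inv, div_le_one (Real.rpow_pos_of_pos hnp _)]
    exact g1
  have hsz : c ≤ (n : ℝ) ^ (1 / 6 : ℝ) := by
    have e : (n : ℝ) ^ (1 / 6 : ℝ) = (n : ℝ) ^ e2 * (n : ℝ) ^ (1 / 6 - e2 : ℝ) := by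
      rw [← Real.rpow_add hnp]
      congr 1
      ring
    rw [hc, e]
    exact mul_le_mul_of_nonneg_right g3 (Real.rpow_nonneg hnp.le _)
  have hbd : ∀ b z, ∑ e, Dz (R1C.kk n β) (Sx b) e z ^ 2 ≤ β ^ 2 / 2 * n := by
    intro b z
    refine (H785.bd_lz (R1C.kk n β) (Sx b) (hSx b) z).trans ?_
    unfold R1C.kk
    rw [div_pow, Real.sq_sqrt hnp.le]
    have h3 : β ^ 2 / (n : ℝ) * Fintype.card (Pair n) ≤ β ^ 2 / n * (n * n / 2) :=
      mul_le_mul_of_nonneg_left (card_le n) (by positivity)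
    have h4 : β ^ 2 / (n : ℝ) * (n * n / 2) = β ^ 2 / 2 * n := by field_simp
    linarith
  obtain ⟨m, h, q1, q2, q3, q4, q5⟩ := hgen n h1 J ((n : ℝ) ^ (-(5 / 6) - e2 : ℝ)) hlam0 hnl
    (Pair n) (lz (R1C.kk n β) SkS) (Dz (R1C.kk n β) SkS) _ _ (c11_lz (R1C.kk n β) SkS)
    ι (fun b => lz (R1C.kk n β) (Sx b)) (fun b => Dz (R1C.kk n β) (Sx b)) _ _
    (fun b => c11_lz (R1C.kk n β) (Sx b)) (fun b => cv_lz _ _) hbd c hcl hcx
  have H : DLay β a al e2 n J Sx m h :=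
    { h0 := q1
      k0l := by rw [sdl_sq]; exact q2
      k0u := by rw [sdl_sq]; exact q3
      box := q4
      law := fun q T hq ht0 ht1 hg hx hT => by
        have := q5 q T hq ht0 ht1 hg hx hT
        exact this }
  exact ⟨m, h, H, H.lay hn0 hsz⟩

end Vale.Agent.P146.X7.H737
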