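import Vale.Agent.P146.X7.H95_HKd
import Vale.Agent.P146.X7.H737_Lay

/-!
The kappa and Lambda inequalities for the deep functionals at the scales
`x ∈ [n^(-1/6 + κ), n^(-1/6 + κ + 2 α)]`.
-/

open MeasureTheory ProbabilityTheory

namespace Vale.Agent.P146.X7.H737

open Vale.Agent.P157.Lv Vale.Agent.P146.H425 Vale.Agent.P146.H325 Vale.Agent.P146.R1
  Vale.Agent.P146.R1S Vale.Agent.P146.R1C Vale.Agent.P146.H191 Vale.Agent.P146.H95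
open Vale.Agent.P146.X7.H425 Vale.Agent.P146.X7.H325 Vale.Agent.P146.X7.R1 Vale.Agent.P146.X7.R1S
  Vale.Agent.P146.X7.R1C Vale.Agent.P146.X7.H191 Vale.Agent.P146.X7.H95
open Vale.Agent.P146.H722 (nuv)
open Vale.Agent.P146.H785 (Ax)

set_option linter.unusedSectionVars false

/-- **The layers** at the scale `κ`: `J0` layers of the same size, separated exponents, and small
second differences on the average over the site, for all scales of the grid. -/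
def QDk (β : ℝ) (J0 : ℕ) (ka a c : ℝ) (n : ℕ) (A : ℝ) (m σ : ℕ → ℝ) (J : ℕ) : Prop :=
  J = J0 ∧ (σ = fun _ => sdl ((2 * ka + c) / 2) n) ∧
    (n : ℝ) ^ (-(1 / 20) : ℝ) ≤ 1 / ((J : ℝ) + 1) ∧
    ∃ al h : ℝ, A = (n : ℝ) ^ al ∧
      DLay β a (ka + 2 * al) ((2 * ka + c) / 2) n J (H327.Sb (n := n)) m h

/-- The data at the scale `(x, T, ρ)`, `x ∈ [n^(-1/6 + κ), n^(-1/6 + κ) A²]`. -/
def PXk (β : ℝ) (J0 : ℕ) (ka c : ℝ) (n : ℕ) (A T ρ x : ℝ) : Prop :=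
  PD β (QDk β J0 ka) c n A T ρ x ∧ (n : ℝ) ^ (-(1 / 6) + ka : ℝ) ≤ x ∧
    x ≤ (n : ℝ) ^ (-(1 / 6) + ka : ℝ) * A ^ 2

/-- **The choice of the layers.** -/
theorem hQk {β : ℝ} (hβ : 0 < β) (J0 : ℕ) {ka : ℝ} (hka : 0 ≤ ka) (hka1 : ka ≤ 11 / 102)
    (c α a : ℝ) (hα : 0 < α) (h100 : 100 * α ≤ c)
    (h8 : 8 * c ≤ 1 / 10) : ∃ n₀ : ℕ, ∀ n : ℕ, n₀ ≤ n →
    ∃ (m σ : ℕ → ℝ) (J : ℕ), Lay n β m σ J ∧ Exs m J ((n : ℝ) ^ (-(1 / 20) : ℝ)) ∧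
      QDk β J0 ka a c n ((n : ℝ) ^ α) m σ J := by
  obtain ⟨n₁, hn₁⟩ := d4_out2 (a := a) (al := ka + 2 * α) (e2 := (2 * ka + c) / 2) hβ
    (by linarith) (by linarith) (by linarith) J0
  have hev := (tendsto_rpow_neg_atTop (show (0 : ℝ) < 1 / 20 by norm_num)).comp
    tendsto_natCast_atTop_atTop
  have hJ : (0 : ℝ) < 1 / ((J0 : ℝ) + 1) := by positivity
  obtain ⟨n₂, hn₂⟩ := Filter.eventually_atTop.1 (hev.eventually (Iio_mem_nhds hJ))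
  refine ⟨max 1 (max n₁ n₂), fun n hn => ?_⟩
  have hn0 : 1 ≤ n := (le_max_left _ _).trans hn
  have h1 : n₁ ≤ n := ((le_max_left _ _).trans (le_max_right _ _)).trans hn
  have h2 : n₂ ≤ n := ((le_max_right _ _).trans (le_max_right _ _)).trans hn
  have : Nonempty (Fin n) := ⟨⟨0, by omega⟩⟩
  obtain ⟨m, h, hD, hL⟩ := hn₁ n h1 (Fin n) (Fin n → ℤˣ) (H327.Sb (n := n)) abs_Sb
  have h3 : (n : ℝ) ^ (-(1 / 20) : ℝ) ≤ 1 / ((J0 : ℝ) + 1) := le_of_lt (hn₂ n h2)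
  have hnp : (0 : ℝ) < n := by exact_mod_cast hn0
  exact ⟨m, _, J0, hL, hD.exs' (Real.rpow_pos_of_pos hnp _) h3, rfl, rfl, h3, α, h, rfl, hD⟩

/-- **The input `hL`.** -/
theorem hLk {β : ℝ} (hβ : 0 < β) (J0 : ℕ) (K : ℝ) :
    ∀ c : ℝ, 0 < c → ∃ C : ℝ, ∃ m : ℕ, ∃ α₀ : ℝ, 0 < α₀ ∧ ∀ κ : ℝ, 0 ≤ κ → κ ≤ K →
      ∀ α : ℝ, 0 < α → α ≤ α₀ →
      ∃ n₀ : ℕ, ∀ n : ℕ, n₀ ≤ n → ∀ T ρ x : ℝ,
      PXk β J0 κ c n ((n : ℝ) ^ α) T ρ x → T ≤ C * ((n : ℝ) ^ α) ^ m * (√(1 / (n * T)) +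
        x * √(2 * ρ / (β ^ 2 * n)) + 2 * ρ / (β ^ 2 * n) + 1 / n) := by
  intro c _
  obtain ⟨C, m, h⟩ := lam_cs_hL (Γ := 4 + 2 * (J0 : ℝ)) hβ (by positivity)
  refine ⟨C, m, 1, one_pos, fun κ _ _ α hα _ => ?_⟩
  obtain ⟨n₀, hn₀⟩ := h α hα
  refine ⟨n₀, fun n hn T ρ x hP => ?_⟩
  obtain ⟨⟨a, m', σ, J, θ, s1, s2, δ, hk, hE, ha, ⟨hJ, -⟩, hLa, hg, hθ0, hθ1, hx, hFo⟩, -⟩ := hP
  subst hJ
  exact hn₀ n hn ⟨x, θ, 1 - T, 1 - T / 2, s1, s2⟩ (deepCS n hk σ hE) δ T ρ _ _ _ _ _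
    (sm_Fdp hE) (fun s => Cum.fn_deepCS hk σ hE s) hFo

/-- **The numbers of a good bulk are small.** -/
theorem num_small2 {ka c α τ : ℝ} (hc : 0 < c) (hα : 0 < α) (hαc : 100 * α ≤ c) (hτ : 0 < τ) :
    ∃ n₀ : ℕ, ∀ n : ℕ, n₀ ≤ n → ∀ x lam R : ℝ, 0 < lam →
      (n : ℝ) ^ (-(1 / 6) + ka : ℝ) ≤ x → (n : ℝ) ^ c * x ≤ √R →
      R * (n : ℝ) ^ 2 / (2 * (n : ℝ) ^ α) ≤ 2 * lam ^ 2 →
      x * n / lam + (x * n / lam) ^ 2 +
        1 / ((n : ℝ) ^ (-(5 / 6) - (2 * ka + c) / 2 : ℝ) * lam) ≤ τ := by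
  have hev := (tendsto_rpow_neg_atTop (show (0 : ℝ) < c / 4 by positivity)).comp
    tendsto_natCast_atTop_atTop
  have hτ8 : (0 : ℝ) < min 1 (τ / 8) := lt_min one_pos (by positivity)
  obtain ⟨n₁, hn₁⟩ := Filter.eventually_atTop.1 (hev.eventually (Iio_mem_nhds hτ8))
  refine ⟨max 1 n₁, fun n hn x lam R hlam hxk hR hL => ?_⟩
  have hn1 : 1 ≤ n := (le_max_left _ _).trans hn
  have hn0 : (0 : ℝ) < n := by exact_mod_cast hn1
  have hnr : (1 : ℝ) ≤ n := by exact_mod_cast hn1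
  have hx0 : 0 < x := (Real.rpow_pos_of_pos hn0 _).trans_le hxk
  set u := (n : ℝ) ^ (-(c / 4)) with hu
  have hu1 : u < min 1 (τ / 8) := hn₁ n ((le_max_right _ _).trans hn)
  have hu0 : 0 < u := Real.rpow_pos_of_pos hn0 _
  have hua : u ≤ 1 := (hu1.le).trans (min_le_left _ _)
  have hub : u ≤ τ / 8 := (hu1.le).trans (min_le_right _ _)
  have hnc : 0 < (n : ℝ) ^ c := Real.rpow_pos_of_pos hn0 _
  set y := (n : ℝ) ^ c * x with hy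
  have hy0 : 0 < y := by positivity
  have hRp : 0 < R := by
    by_contra h
    rw [Real.sqrt_eq_zero_of_nonpos (not_lt.1 h)] at hR
    linarith
  have hyR : y ^ 2 ≤ R := by
    have := pow_le_pow_left₀ hy0.le hR 2
    rwa [Real.sq_sqrt hRp.le] at this
  set w := (n : ℝ) ^ (α / 2) with hw
  have hw0 : 0 < w := Real.rpow_pos_of_pos hn0 _
  have hww : w ^ 2 = (n : ℝ) ^ α := by
    rw [hw, ← Real.rpow_natCast, ← Real.rpow_mul hn0.le]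
    congr 1
    push_cast
    ring
  -- the lower bound of `lam`
  have hlow : y * n / (2 * w) ≤ lam := by
    have h1 : (y * n / (2 * w)) ^ 2 ≤ lam ^ 2 := by
      have h2 : R * (n : ℝ) ^ 2 / (4 * w ^ 2) ≤ lam ^ 2 := by
        rw [hww]
        have e : R * (n : ℝ) ^ 2 / (4 * (n : ℝ) ^ α) =
            (R * (n : ℝ) ^ 2 / (2 * (n : ℝ) ^ α)) / 2 := by
          rw [div_div]
          congr 1
          ring
        rw [e]
        linarith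
      calc (y * n / (2 * w)) ^ 2 = y ^ 2 * (n : ℝ) ^ 2 / (4 * w ^ 2) := by
            rw [div_pow]
            congr 1 <;> ring
        _ ≤ R * (n : ℝ) ^ 2 / (4 * w ^ 2) := by gcongr
        _ ≤ lam ^ 2 := h2
    exact le_of_sq_le_sq h1 hlam.le
  have hℓ0 : 0 < y * n / (2 * w) := by positivity
  have hwu : w ≤ u * (n : ℝ) ^ c := by
    rw [hw, hu, ← Real.rpow_add hn0]
    exact Real.rpow_le_rpow_of_exponent_le hnr (by linarith)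
  -- the first number
  have h1 : x * n / lam ≤ 2 * u := by
    calc x * n / lam ≤ x * n / (y * n / (2 * w)) := by gcongr
      _ = 2 * w / (n : ℝ) ^ c := by
          rw [hy]
          field_simp
      _ ≤ 2 * (u * (n : ℝ) ^ c) / (n : ℝ) ^ c := by gcongr
      _ = 2 * u := by field_simp
  have h10 : 0 ≤ x * n / lam := by positivity
  -- the second number
  have h2 : 1 / ((n : ℝ) ^ (-(5 / 6) - (2 * ka + c) / 2 : ℝ) * lam) ≤ 2 * u := by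
    set t := (n : ℝ) ^ (-(5 / 6) - (2 * ka + c) / 2 : ℝ) with ht
    have ht0 : 0 < t := Real.rpow_pos_of_pos hn0 _
    have e2 : w ≤ u * (t * (y * n)) := by
      have e3 : (n : ℝ) ^ (-(c / 4) + ((-(5 / 6) - (2 * ka + c) / 2) +
          ((c + (-(1 / 6) + ka)) + 1)) : ℝ) ≤ u * (t * (y * n)) := by
        rw [Real.rpow_add hn0, Real.rpow_add hn0, Real.rpow_add hn0, Real.rpow_add hn0,
          Real.rpow_one]
        have i1 : (n : ℝ) ^ c * (n : ℝ) ^ (-(1 / 6) + ka : ℝ) ≤ y :=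
          mul_le_mul_of_nonneg_left hxk hnc.le
        gcongr
      refine le_trans ?_ e3
      rw [hw]
      exact Real.rpow_le_rpow_of_exponent_le hnr (by linarith)
    calc 1 / (t * lam) ≤ 1 / (t * (y * n / (2 * w))) := by gcongr
      _ = 2 * w / (t * (y * n)) := by field_simp
      _ ≤ 2 * (u * (t * (y * n))) / (t * (y * n)) := by gcongr
      _ = 2 * u := by field_simp
  have h3 : (x * n / lam) ^ 2 ≤ 4 * u := by
    calc (x * n / lam) ^ 2 ≤ (2 * u) ^ 2 := pow_le_pow_left₀ h10 h1 2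
      _ = 4 * (u * u) := by ring
      _ ≤ 4 * (u * 1) := by gcongr
      _ = 4 * u := by ring
  linarith

/-- **The kappa inequality for the deep functionals**, at the scales
`x ∈ [n^(-1/6 + κ), n^(-1/6 + κ + 2 α)]`; the constants do not depend on `κ`. -/
theorem hKk {β : ℝ} (hβ : 0 < β) {J : ℕ} {c0 C7 C9 : ℝ} (hc0 : 0 < c0) (hC7 : 0 ≤ C7)
    (hC9 : 1 ≤ C9) (h7 : H95.K7H β J c0 C7 C9) (K0 : ℝ) :
    ∀ c : ℝ, 0 < c → ∃ C : ℝ, ∃ m : ℕ, ∃ k α₀ : ℝ, 0 < k ∧ 0 < α₀ ∧ ∀ ka : ℝ, 0 ≤ ka →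
      ka ≤ K0 → ∀ α : ℝ, 0 < α →
      α ≤ α₀ → ∃ n₀ : ℕ, ∀ n : ℕ, n₀ ≤ n → ∀ T ρ x : ℝ, PXk β J ka c n ((n : ℝ) ^ α) T ρ x →
      T ≤ 1 / (n : ℝ) ^ α → (n : ℝ) ^ c * x ≤ √(2 * ρ / (β ^ 2 * n)) →
      2 * ρ / (β ^ 2 * n) ≤ C * ((n : ℝ) ^ α) ^ m * (√(1 / (n * T)) +
        x * √(2 * ρ / (β ^ 2 * n)) + ((1 / (x ^ 2 * ρ * T) + 1 / (n * T)) ^ k + x ^ k) *
          (2 * ρ / (β ^ 2 * n)) + 1 / n) := by
  intro c hc
  have hΓ : (0 : ℝ) ≤ 2 + 2 * (J : ℝ) := by positivity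
  obtain ⟨τ, κ, hτ, hτ1, hκ, hG⟩ := kapG_T3B (β := β) (c0 := c0)
    (C8 := C8 (2 + 2 * (J : ℝ)) (β ^ 2) C7) (Γ := 4 + 2 * (J : ℝ)) hβ hc0
    (C8_nonneg hΓ (sq_nonneg β) hC7)
  obtain ⟨κ1, hκ1, hκ11, hκ12⟩ : ∃ κ1 : ℝ, 0 < κ1 ∧ κ1 ≤ 1 ∧ κ1 ≤ κ / 2 :=
    ⟨min (κ / 2) 1, by positivity, min_le_right _ _, min_le_left _ _⟩
  have hcB : 0 ≤ cB β τ := by
    unfold cB Hc
    positivity
  obtain ⟨n₁, h1⟩ := kap_cs_out (β := β) (Γ := 4 + 2 * (J : ℝ)) (κ := κ1) (C := cB β τ) (m := 5)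
    hβ hκ1 hκ11 hcB
  obtain ⟨n₂, -, h2⟩ := numS_of hβ
  refine ⟨192 * ((cB β τ + cE β (4 + 2 * (J : ℝ)) + cO β) * (1 + 28 * β ^ 4)) / κ1 * (3 * C9), 17,
    1 / 8, c / 100, by norm_num, by positivity, fun ka hka _ α hα hαc => ?_⟩
  obtain ⟨n₃, h3⟩ := h7 (2 * ka + c) (by linarith)
  have hC90 : 0 < C9 := by linarith
  obtain ⟨n₄, h4⟩ := num_small2 (ka := ka) (c := c) (α := α) (τ := τ / C9) hc hα (by linarith)
    (by positivity)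
  obtain ⟨n₅, h5⟩ := pow_large hα (max 10 (max (β ^ 2) (β ^ 2 / τ)))
  obtain ⟨n₆, h6⟩ := exists_nat_ge (4 + 2 * (J : ℝ))
  refine ⟨max (max n₁ n₂) (max (max n₃ n₄) (max n₅ (max n₆ 1))), fun n hn T ρ x hP hTA hR => ?_⟩
  have g1 : n₁ ≤ n := ((le_max_left _ _).trans (le_max_left _ _)).trans hn
  have g2 : n₂ ≤ n := ((le_max_right _ _).trans (le_max_left _ _)).trans hn
  have gr := (le_max_right (max n₁ n₂) (max (max n₃ n₄) (max n₅ (max n₆ 1)))).trans hn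
  have g3 : n₃ ≤ n := ((le_max_left _ _).trans (le_max_left _ _)).trans gr
  have g4 : n₄ ≤ n := ((le_max_right _ _).trans (le_max_left _ _)).trans gr
  have gs := (le_max_right (max n₃ n₄) (max n₅ (max n₆ 1))).trans gr
  have g5 : n₅ ≤ n := (le_max_left _ _).trans gs
  have g6 : n₆ ≤ n := ((le_max_left _ _).trans (le_max_right _ _)).trans gs
  have g7 : 1 ≤ n := ((le_max_right _ _).trans (le_max_right _ _)).trans gs
  have hnn : 0 < n := g7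
  have hn0 : (0 : ℝ) < n := by exact_mod_cast g7
  have hn1 : (1 : ℝ) ≤ n := by exact_mod_cast g7
  obtain ⟨⟨a, m', σ, J', θ, s1, s2, δ, hk, hE, ha, ⟨hJ, hσ, -, al, h, hA, hD⟩, hLa, hg, hθ0, hθ1,
    hx6, hFo⟩, hxk, hxA⟩ := hP
  subst hJ
  subst hσ
  obtain ⟨A, hAd⟩ : ∃ A : ℝ, A = (n : ℝ) ^ α := ⟨_, rfl⟩
  have g5' := h5 n g5
  have h4' := h4 n g4
  rw [← hAd] at g5' h4' hA hFo hxA hTA ⊢
  have hA10 : 10 ≤ A := (le_max_left _ _).trans g5'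
  have hAβ : β ^ 2 ≤ A := ((le_max_left _ _).trans (le_max_right _ _)).trans g5'
  have hAτ : β ^ 2 / τ ≤ A := ((le_max_right _ _).trans (le_max_right _ _)).trans g5'
  have hA0 : 0 < A := by linarith
  -- the system
  set q : Par := ⟨x, θ, 1 - T, 1 - T / 2, s1, s2⟩ with hq
  set S : CS n (kk n β) q.x := deepCS n hk (fun _ => sdl ((2 * ka + c) / 2) n) hE with hSd
  have hf : Fo n β A δ T ρ q S.F S.A S.DA := hFo
  have hnum := h2 n g2 q S A δ T ρ hf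
  have hFn : ∀ s, Cum.Fn (kk n β) SkS (uu q.x s S.F) (S.mu s) (4 + 2 * (J' : ℝ)) := fun s =>
    Cum.fn_deepCS hk (fun _ => sdl ((2 * ka + c) / 2) n) hE s
  have hx : 0 < x := hE.x0
  have hs12 : 1 / 2 ≤ s1 := by
    have i1 := hf.hs1
    have i2 := hf.T1
    rw [hf.ht1] at i1
    have : q.s1 = s1 := rfl
    linarith
  have hs1le : s1 ≤ 1 := hnum.s1le
  have hs0 : 0 < s1 := by linarith
  have hkk : kk n β ^ 2 * n = β ^ 2 := kk_sq hnn β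
  -- (K) at one bulk
  have h8 : 8 * (kk n β ^ 2 * n) * x ^ 2 ≤ 1 := by
    have i1 := hnum.hl
    have i2 : 0 ≤ x ^ 2 * kk n β ^ 2 * n := by positivity
    have i3 : 288 * q.x ^ 2 * kk n β ^ 2 * n = 288 * (x ^ 2 * kk n β ^ 2 * n) := by
      rw [hq]
      ring
    rw [i3] at i1
    nlinarith
  have hT3 := t3B_deep (s := s1) hnn hC7 hC9 hk hE hD hs0 hs1le h8
    (h3 n g3 a (ka + 2 * al) h x m' hk hE hD)
  rw [hkk] at hT3
  have hNN : NN n β ρ / (n : ℝ) ^ 2 = 2 * ρ / (β ^ 2 * n) := NN_div hnn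
  have hNN' : NN n β ρ = 2 * ρ / (β ^ 2 * n) * (n : ℝ) ^ 2 := by
    rw [← hNN]
    field_simp
  have hKG : KapG S s1 τ κ (NN n β ρ / (2 * A)) (XD β (2 * ka + c) x s1 C9 h n J' m') := by
    refine hG hn1 hkk hs12 hs1le (hFn s1) hT3 fun lam hl hln hL => ?_
    rw [hNN'] at hL
    have i1 := h4' x lam _ hl hxk hR hL
    rw [← sdl_sq] at i1
    unfold H95.ND
    calc C9 * (x * n / lam + (x * n / lam) ^ 2 + 1 / (sdl ((2 * ka + c) / 2) n ^ 2 * lam)) ≤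
        C9 * (τ / C9) := mul_le_mul_of_nonneg_left i1 hC90.le
      _ = τ := by field_simp
  -- the sum of the functional
  obtain ⟨e0, he0⟩ : ∃ e0 : ℝ, e0 = C9 * (2 * (n : ℝ) ^ (-(1 / 24) : ℝ) + ((n : ℝ) ^ 200)⁻¹) :=
    ⟨_, rfl⟩
  have he00 : 0 ≤ e0 := by
    rw [he0]
    positivity
  have hxal : x ≤ (n : ℝ) ^ (-(1 / 6) + (ka + 2 * al) : ℝ) := by
    have e : (n : ℝ) ^ (-(1 / 6) + (ka + 2 * al) : ℝ) = (n : ℝ) ^ (-(1 / 6) + ka : ℝ) * A ^ 2 := by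
      rw [hA, ← Real.rpow_natCast, ← Real.rpow_mul hn0.le, ← Real.rpow_add hn0]
      congr 1
      push_cast
      ring
    rw [e]
    exact hxA
  have hXs : ∑ b : Fin n, ∑ b' ∈ Finset.univ.erase b, En q S.F (fun w =>
      XD β (2 * ka + c) x s1 C9 h n J' m' b b' (P2 q w)) ≤ e0 * (n : ℝ) ^ 2 := by
    have i1 := (hD.x_sum (q := q) hnn abs_Sb hf.ok rfl rfl hg hxal hf.T0
      (by positivity : (0 : ℝ) ≤ ((n : ℝ) ^ 200)⁻¹) hnum.law).1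
    have i2 := mul_le_mul_of_nonneg_left i1 hC90.le
    rw [Finset.mul_sum] at i2
    simp only [Finset.mul_sum] at i2
    refine le_trans (le_of_eq ?_) (i2.trans (le_of_eq ?_))
    · refine Finset.sum_congr rfl fun b _ => Finset.sum_congr rfl fun b' _ => ?_
      exact En_const_mul C9 _
    · rw [he0]
      ring
  have hΓ8 : 4 + 2 * (J' : ℝ) ≤ (n : ℝ) ^ 8 := by
    have i1 : (n₆ : ℝ) ≤ n := by exact_mod_cast g6
    have i2 : (n : ℝ) ≤ (n : ℝ) ^ 8 := le_self_pow₀ hn1 (by norm_num)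
    linarith
  have hρA : A ^ 40 ≤ ρ := hf.ρA
  have hnM : (n : ℝ) ≤ τ * (NN n β ρ / (2 * A)) := by
    have i1 : A ^ 2 ≤ A ^ 40 := pow_le_pow_right₀ (by linarith) (by norm_num)
    have i2 : β ^ 2 ≤ A * τ := by
      rwa [div_le_iff₀ hτ] at hAτ
    have i3 : β ^ 2 * A ≤ τ * ρ := by
      calc β ^ 2 * A ≤ A * τ * A := mul_le_mul_of_nonneg_right i2 hA0.le
        _ = τ * A ^ 2 := by ring
        _ ≤ τ * ρ := mul_le_mul_of_nonneg_left (i1.trans hρA) hτ.le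
    have i4 : τ * (NN n β ρ / (2 * A)) = τ * ρ / (β ^ 2 * A) * n := by
      unfold NN
      field_simp
    rw [i4]
    refine le_mul_of_one_le_left hn0.le ?_
    rw [le_div_iff₀ (by positivity), one_mul]
    exact i3
  have hbad : BadS S A T ρ κ1 (cB β τ) e0 5 :=
    BadS.mono (badS_of hnum (H712.hKR_fn S hf hFn hΓ8) hκ.le hτ (Fo.u_le hf hA10 hAβ) he00 hnM
      (fun b b' z => XD_nonneg hnn hC90.le hk hE hD b b' z)
      (fun b b' => eg_XD hk hE hD b b') hKG hXs) hf hκ12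
  have key := h1 n g1 q S A δ T ρ e0 _ _ _ _ _ hA10 hAβ hTA he00 (sm_Fdp hE) hFn hf hbad
  rw [hNN] at key
  refine key.trans ?_
  have hqx : q.x = x := rfl
  rw [hqx]
  have hR0 : 0 ≤ 2 * ρ / (β ^ 2 * n) := by
    rw [← hNN]
    have := hf.N0
    positivity
  have hexs : e0 ≤ 3 * C9 * x ^ ((1 : ℝ) / 8) := by
    rw [he0]
    exact e0_le g7 hC90.le hx6
  have hT0 : 0 < T := hf.Tp
  have hρ0 : 0 < ρ := by linarith [hf.ρ1]
  obtain ⟨r, hr⟩ : ∃ r : ℝ, r = 2 * ρ / (β ^ 2 * n) := ⟨_, rfl⟩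
  obtain ⟨u, hu⟩ : ∃ u : ℝ, u = (1 / (x ^ 2 * ρ * T) + 1 / (n * T)) ^ ((1 : ℝ) / 8) := ⟨_, rfl⟩
  obtain ⟨y, hy⟩ : ∃ y : ℝ, y = x ^ ((1 : ℝ) / 8) := ⟨_, rfl⟩
  have hu0 : 0 ≤ u := by
    rw [hu]
    positivity
  have hy0 : 0 ≤ y := by
    rw [hy]
    positivity
  have hcE : 0 ≤ cE β (4 + 2 * (J' : ℝ)) := by unfold cE; positivity
  have hcO : 0 ≤ cO β := by unfold cO; positivity
  rw [← hr] at hR0
  rw [← hy] at hexs
  rw [← hr, ← hu, ← hy]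
  set K := 192 * ((cB β τ + cE β (4 + 2 * (J' : ℝ)) + cO β) * (1 + 28 * β ^ 4)) / κ1 with hK
  have hK0 : 0 ≤ K := by positivity
  have hin : √(1 / (n * T)) + x * √r + (u + e0) * r + 1 / n ≤
      3 * C9 * (√(1 / (n * T)) + x * √r + (u + y) * r + 1 / n) := by
    have j1 : 0 ≤ √(1 / (n * T)) := Real.sqrt_nonneg _
    have j2 : 0 ≤ x * √r := by positivity
    have j3 : 0 ≤ 1 / (n : ℝ) := by positivity
    have j4 : 1 ≤ 3 * C9 := by linarith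
    have j5 : e0 * r ≤ 3 * C9 * y * r := mul_le_mul_of_nonneg_right hexs hR0
    have j6 : 0 ≤ u * r := mul_nonneg hu0 hR0
    have k1 := le_mul_of_one_le_left j1 j4
    have k2 := le_mul_of_one_le_left j2 j4
    have k3 := le_mul_of_one_le_left j3 j4
    have k4 := le_mul_of_one_le_left j6 j4
    linarith
  calc K * A ^ (5 + 12) * (√(1 / (n * T)) + x * √r + (u + e0) * r + 1 / n) ≤
      K * A ^ (5 + 12) * (3 * C9 * (√(1 / (n * T)) + x * √r + (u + y) * r + 1 / n)) :=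
        mul_le_mul_of_nonneg_left hin (by positivity)
    _ = K * (3 * C9) * A ^ 17 * (√(1 / (n * T)) + x * √r + (u + y) * r + 1 / n) := by ring

end Vale.Agent.P146.X7.H737
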