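import Vale.Agent.P146.X7.H89_FoX
import Vale.Agent.P146.X7.H89_DeepHF
import Vale.Agent.P146.H260.VKc
import Vale.Agent.P146.H260.V14R

/-!
Plan R1 at a general scale: the input `hF` for the deep functionals of the SK model at the scale
`x₀ ∈ [n^(-1/6 + κ), n^(-1/6 + κ + α)]`, from a lower bound of the entropy at `x₀ / 2`.
-/

open MeasureTheory ProbabilityTheory

namespace Vale.Agent.P146.X7.H89

open Vale.Agent.P157.Lv Vale.Agent.P146.H425 Vale.Agent.P146.H332 Vale.Agent.P146.H325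
open Vale.Agent.P146.X7.H425 Vale.Agent.P146.X7.H332 Vale.Agent.P146.X7.H325
open Vale.Agent.P146.H946 (Dz Hz Tz)
open Vale.Agent.P146.R1
open Vale.Agent.P146.X7.R1
open Vale.Agent.P146.H260.V13 Vale.Agent.P146.H260.V14
open Vale.Agent.P146.H641.Utc (FDatX f_finX)

set_option linter.unusedSectionVars false

/-- A point of the grid `2^j n^(-1/6)` in `[x, 2x]`. -/
lemma grid_up {b x : ℝ} (hb : 0 < b) (hx : b ≤ x) : ∃ j : ℕ, x ≤ 2 ^ j * b ∧ 2 ^ j * b ≤ 2 * x := by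
  obtain ⟨j, h1, h2⟩ := exists_nat_pow_near (x := x / b) (y := 2) (by rwa [one_le_div hb])
    one_lt_two
  rw [le_div_iff₀ hb] at h1
  rw [div_lt_iff₀ hb] at h2
  refine ⟨j + 1, h2.le, ?_⟩
  rw [pow_succ]
  linarith

/-- **The output of block F for the deep functional above the scale `x₀` of the grid.** -/
theorem deep_outX {β : ℝ} (hβ : β ≠ 0) {ε α : ℝ} (hα : 0 < α) (hαε : 4 * α ≤ ε) :
    ∃ a : ℝ, 0 < a ∧ ∃ n₀ : ℝ, 2 ≤ n₀ ∧ ∀ n : ℕ, n₀ ≤ (n : ℝ) → ∀ j₀ : ℕ, ∀ x₀ : ℝ,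
      x₀ = 2 ^ j₀ * (n : ℝ) ^ (-(1 / 6) : ℝ) → ∀ (m σ : ℕ → ℝ) (J : ℕ),
      (∀ l < J, 0 < m l) → (n : ℝ) ^ (1 + ε : ℝ) * x₀ ^ 4 ≤ VK (R1.Fz n β m σ J) x₀ →
      ∃ x θ T s1 s2 : ℝ, FGrid n a x θ T ∧ x₀ ≤ x ∧ x ≤ x₀ * (n : ℝ) ^ α ∧
        (n : ℝ) ^ (1 + ε - α : ℝ) * x₀ ^ 6 ≤
          x ^ 2 * Phi x (R1.Fz n β m σ J) (R1.Gz n β m σ J) (1 - T) * T ∧
        FDatX n α ε (β ^ 2 / 2) (R1.Fz n β m σ J) (R1.Gz n β m σ J)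
        (fun x θ T s => Ht x θ (1 - T) (1 - T / 2) s (R1.Fz n β m σ J) (R1.Gz n β m σ J)
          (R1.HHz n β m σ J)) x θ T
          (Phi x (R1.Fz n β m σ J) (R1.Gz n β m σ J) (1 - T)) s1 s2 := by
  have hb2 : 0 < β ^ 2 / 2 := by positivity
  obtain ⟨a, ha, n₀, h2, hf⟩ := f_finX hα hαε hb2 hb2.le
  refine ⟨a, ha, n₀, h2, fun n hn j₀ x₀ hj₀ m σ J hm hV => ?_⟩
  have hn0 : 0 < n := by
    have : (0 : ℝ) < n := by linarith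
    exact_mod_cast this
  have hnp : (0 : ℝ) < n := by exact_mod_cast hn0
  have hb : 0 < (n : ℝ) ^ (-(1 / 6) : ℝ) := Real.rpow_pos_of_pos hnp _
  have hx₀ : (n : ℝ) ^ (-(1 / 6) : ℝ) ≤ x₀ := by
    rw [hj₀]
    exact le_mul_of_one_le_left hb.le (one_le_pow₀ one_le_two)
  obtain ⟨x, θ, T, ρ, s1, s2, ⟨j, hj⟩, hθ, hT, h3, h4, h5, hρ, hd⟩ := hf n hn x₀ hx₀ (Pair n)
    _ _ _ _ _ _ _
    (sm_FD (m := m) (σ := σ) (H946.sk_sm (R1C.kk n β)) J hm) (cv_FD (c11_lz _ _) (cv_lz _ _) J hm)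
    (deep_grad hn0 β hm) (deep_hK hn0 β hm) hV
  subst hρ
  refine ⟨x, θ, T, s1, s2, ⟨⟨j + j₀, ?_⟩, hθ, hT⟩, h3, h4, h5, hd⟩
  rw [hj, hj₀, pow_add, mul_assoc]

/-- **Block F for the deep functional at the scale `x₀`, in the form used by the assembly.** -/
theorem deep_hFX {β : ℝ} (hβ : 0 < β) : ∀ ε α : ℝ, 0 < α → 100 * α ≤ ε → ε ≤ 1 / 10 →
    ∃ a : ℝ, 0 < a ∧ ∃ n₀ : ℕ, ∀ n : ℕ, n₀ ≤ n → ∀ (m σ : ℕ → ℝ) (J : ℕ), R1.Lay n β m σ J →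
      ∀ x₀ : ℝ, (n : ℝ) ^ (-(1 / 6) : ℝ) ≤ x₀ → x₀ * (n : ℝ) ^ α ≤ (n : ℝ) ^ (-(1 / 17) : ℝ) →
      (n : ℝ) ^ (1 + ε : ℝ) * x₀ ^ 4 ≤ VX β n (x₀ / 2) →
      ∃ x θ T s1 s2 ρ δ : ℝ, FGrid n a x θ T ∧
        ρ = Phi x (R1.Fz n β m σ J) (R1.Gz n β m σ J) (1 - T) ∧
        0 < θ ∧ θ ≤ 1 / 64 ∧ 0 < T ∧ 1 / (n : ℝ) ^ 2 ≤ T ∧ T ≤ 1 ∧ 0 < ρ ∧ 2 * ρ ≤ β ^ 2 * n ∧
        0 < x ∧ x₀ ≤ x ∧ x ≤ x₀ * (n : ℝ) ^ α ∧
        (n : ℝ) ^ (1 + ε - α) * x₀ ^ 6 ≤ x ^ 2 * ρ * T ∧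
        ((n : ℝ) ^ (-(1 / 100) : ℝ) ≤ T → 2 * ρ / (β ^ 2 * n) ≤ (n : ℝ) ^ (-(1 / 50) : ℝ)) ∧
        ∀ S : R1S.CS n (R1C.kk n β) x, S.F = R1.Fz n β m σ J → S.D = R1.Gz n β m σ J →
          X7.R1C.Fo n β ((n : ℝ) ^ α) δ T ρ ⟨x, θ, 1 - T, 1 - T / 2, s1, s2⟩ S.F S.A S.DA := by
  intro ε α hα h100 hε
  have hε' : 40 * α + α / 2 ≤ ε - α / 2 := by linarith
  obtain ⟨a, ha, n₀, h2, hout⟩ := deep_outX hβ.ne' (ε := ε - α / 2) (α := α / 2) (by positivity)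
    (by linarith)
  have hε2 : 0 < (ε - α / 2) / 2 := by linarith
  obtain ⟨n₁, h1⟩ := Filter.eventually_atTop.1 ((H946.pow_exp_le hε2).and
    ((H946.gap_ev (show 0 < α / 2 by positivity) (show α / 2 < α by linarith) (β ^ 2 / 2)).and
      ((Filter.eventually_ge_atTop (β ^ 2)).and
        ((tendsto_rpow_atTop (show 0 < α / 2 by positivity)).eventually_ge_atTop 20))))
  obtain ⟨n₂, h21, hcor⟩ := corner_cmp hβ.ne' (a := 11 / 102) (c₀ := 1 / 100) (b := 1 / 50)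
    (by norm_num) (by norm_num) (by norm_num)
  obtain ⟨N, hN⟩ := exists_nat_ge (max n₀ (max n₁ n₂))
  refine ⟨a, ha, N, fun n hn m σ J hL x₀ hx₀ hx₀1 hV => ?_⟩
  have hnN : max n₀ (max n₁ n₂) ≤ (n : ℝ) := hN.trans (by exact_mod_cast hn)
  have hn0' : n₀ ≤ n := (le_max_left _ _).trans hnN
  have hn1' : n₁ ≤ n := ((le_max_left _ _).trans (le_max_right _ _)).trans hnN
  have hn2' : n₂ ≤ n := ((le_max_right _ _).trans (le_max_right _ _)).trans hnN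
  obtain ⟨g1, g2, g3, g4⟩ := h1 n hn1'
  have hn2 : 2 ≤ n := by
    have : (2 : ℝ) ≤ n := h2.trans hn0'
    exact_mod_cast this
  have hn0 : 0 < n := by omega
  have hnr : (1 : ℝ) ≤ n := by
    have : (2 : ℝ) ≤ n := h2.trans hn0'
    linarith
  have hnp : (0 : ℝ) < n := by linarith
  have hb : 0 < (n : ℝ) ^ (-(1 / 6) : ℝ) := Real.rpow_pos_of_pos hnp _
  have hx00 : 0 < x₀ := hb.trans_le hx₀
  -- the grid point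
  obtain ⟨j₀, i1, i2⟩ := grid_up hb hx₀
  obtain ⟨y, hy⟩ : ∃ y : ℝ, y = 2 ^ j₀ * (n : ℝ) ^ (-(1 / 6) : ℝ) := ⟨_, rfl⟩
  rw [← hy] at i1 i2
  have hy0 : 0 < y := hx00.trans_le i1
  -- the entropy of the deep functional
  have hV2 : (n : ℝ) ^ (1 + (ε - α / 2) : ℝ) * y ^ 4 ≤ VK (R1.Fz n β m σ J) y := by
    have h0 : VX β n (x₀ / 2) ≤ VX β n (y / 2) :=
      VK_mono (c11_lz (β / √n) (SkS (n := n))) (cv_lz _ _) (by positivity) (by linarith)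
    have h3 : VX β n (y / 2) ≤ VK (R1.Fz n β m σ J) y + 4 * (n : ℝ) ^ (1 / 6 : ℝ) / y := by
      refine VK_cmp (c11_lz (β / √n) SkS) (cv_lz _ _) (c11_FD (c11_lz _ _) J hL.pos)
        (cv_FD (c11_lz _ _) (cv_lz _ _) J hL.pos) hy0
        (fun z => (FD_lz (σ := σ) hn0 β hL.pos hL.le z).1)
        (fun z => (FD_lz (σ := σ) hn0 β hL.pos hL.le z).2.trans ?_)
      have := hL.sz
      linarith
    have e3 : 4 * (n : ℝ) ^ (1 / 6 : ℝ) / y ≤ 4 * (n : ℝ) ^ (1 / 3 : ℝ) := by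
      rw [div_le_iff₀ hy0]
      have e4 : (n : ℝ) ^ (1 / 6 : ℝ) = (n : ℝ) ^ (1 / 3 : ℝ) * (n : ℝ) ^ (-(1 / 6) : ℝ) := by
        rw [← Real.rpow_add hnp]
        norm_num
      have e5 : (n : ℝ) ^ (1 / 3 : ℝ) * (n : ℝ) ^ (-(1 / 6) : ℝ) ≤ (n : ℝ) ^ (1 / 3 : ℝ) * y :=
        mul_le_mul_of_nonneg_left (hx₀.trans i1) (Real.rpow_nonneg hnp.le _)
      linarith
    have p4 : (n : ℝ) ^ (-(2 / 3) : ℝ) ≤ x₀ ^ 4 := by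
      calc (n : ℝ) ^ (-(2 / 3) : ℝ) = ((n : ℝ) ^ (-(1 / 6) : ℝ)) ^ 4 := by
            rw [← Real.rpow_natCast, ← Real.rpow_mul hnp.le]
            congr 1
            norm_num
        _ ≤ x₀ ^ 4 := pow_le_pow_left₀ hb.le hx₀ 4
    have h4 : (n : ℝ) ^ (1 / 3 : ℝ) ≤ (n : ℝ) ^ (1 + (ε - α / 2) : ℝ) * x₀ ^ 4 := by
      calc (n : ℝ) ^ (1 / 3 : ℝ) ≤ (n : ℝ) ^ (1 + (ε - α / 2) + -(2 / 3) : ℝ) :=
            Real.rpow_le_rpow_of_exponent_le hnr (by linarith)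
        _ = (n : ℝ) ^ (1 + (ε - α / 2) : ℝ) * (n : ℝ) ^ (-(2 / 3) : ℝ) := Real.rpow_add hnp _ _
        _ ≤ _ := mul_le_mul_of_nonneg_left p4 (Real.rpow_nonneg hnp.le _)
    have h5 : 20 * ((n : ℝ) ^ (1 + (ε - α / 2) : ℝ) * x₀ ^ 4) ≤ (n : ℝ) ^ (1 + ε : ℝ) * x₀ ^ 4 := by
      have e : (n : ℝ) ^ (1 + ε : ℝ) =
          (n : ℝ) ^ (α / 2) * (n : ℝ) ^ (1 + (ε - α / 2) : ℝ) := by
        rw [← Real.rpow_add hnp]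
        congr 1
        ring
      rw [e, mul_assoc]
      exact mul_le_mul_of_nonneg_right g4 (by positivity)
    have h6 : (n : ℝ) ^ (1 + (ε - α / 2) : ℝ) * y ^ 4 ≤
        16 * ((n : ℝ) ^ (1 + (ε - α / 2) : ℝ) * x₀ ^ 4) := by
      have h7 : y ^ 4 ≤ (2 * x₀) ^ 4 := pow_le_pow_left₀ hy0.le i2 4
      calc (n : ℝ) ^ (1 + (ε - α / 2) : ℝ) * y ^ 4 ≤
            (n : ℝ) ^ (1 + (ε - α / 2) : ℝ) * (2 * x₀) ^ 4 :=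
            mul_le_mul_of_nonneg_left h7 (Real.rpow_nonneg hnp.le _)
        _ = _ := by ring
    linarith
  obtain ⟨x, θ, T, s1, s2, hg, hx1, hx2, hyy, hd⟩ := hout n hn0' j₀ y hy m σ J hL.pos hV2
  obtain ⟨ρ, hρ⟩ : ∃ ρ, ρ = Phi x (R1.Fz n β m σ J) (R1.Gz n β m σ J) (1 - T) := ⟨_, rfl⟩
  rw [← hρ] at hd hyy
  have hx : 0 < x := hy0.trans_le hx1
  have hxα : x ≤ x₀ * (n : ℝ) ^ α := by
    have e : (n : ℝ) ^ α = (n : ℝ) ^ (α / 2) * (n : ℝ) ^ (α / 2) := by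
      rw [← Real.rpow_add hnp]
      congr 1
      ring
    have hp : 0 < (n : ℝ) ^ (α / 2) := Real.rpow_pos_of_pos hnp _
    calc x ≤ y * (n : ℝ) ^ (α / 2) := hx2
      _ ≤ 2 * x₀ * (n : ℝ) ^ (α / 2) := by gcongr
      _ ≤ (n : ℝ) ^ (α / 2) * x₀ * (n : ℝ) ^ (α / 2) := by gcongr; linarith
      _ = _ := by rw [e]; ring
  have hx17 : x ≤ (n : ℝ) ^ (-(1 / 17) : ℝ) := hxα.trans hx₀1
  have hx6 : (n : ℝ) ^ (-(1 / 6) : ℝ) ≤ x := (hx₀.trans i1).trans hx1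
  refine ⟨x, θ, T, s1, s2, ρ, Real.exp (-(n : ℝ) ^ ((ε - α / 2) / 2)), hg, hρ, hd.θ_pos, hd.θ_le,
    hd.T_pos, hd.T_low, hd.T_le, hd.ρ_pos, ?_, hx, i1.trans hx1, hxα, ?_, fun hT => ?_, ?_⟩
  · have := hd.ρ_le
    linarith
  · refine le_trans ?_ hyy
    have e1 : (n : ℝ) ^ (1 + ε - α : ℝ) ≤ (n : ℝ) ^ (1 + (ε - α / 2) - α / 2 : ℝ) :=
      Real.rpow_le_rpow_of_exponent_le hnr (by linarith)
    have e2 : x₀ ^ 6 ≤ y ^ 6 := pow_le_pow_left₀ hx00.le i1 6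
    exact mul_le_mul e1 e2 (by positivity) (Real.rpow_nonneg hnp.le _)
  · rw [hρ]
    refine hcor n hn2' _ _ _ _ (c11_FD (c11_lz _ _) J hL.pos)
      (cv_FD (c11_lz _ _) (cv_lz _ _) J hL.pos)
      (fun z => (FD_lz (σ := σ) hn0 β hL.pos hL.le z).1)
      (fun z => (FD_lz (σ := σ) hn0 β hL.pos hL.le z).2.trans ?_) x hx6 ?_ T hd.T_pos
      hd.T_le hT
    · have h8 : (n : ℝ) ^ (1 / 6 : ℝ) ≤ (n : ℝ) ^ (1 / 3 : ℝ) :=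
        Real.rpow_le_rpow_of_exponent_le hnr (by norm_num)
      have h9 := hL.sz
      linarith
    · refine hx17.trans (le_of_eq ?_)
      congr 1
      norm_num
  · intro S hF hD
    obtain ⟨B, L, M, T3, hS⟩ := R1.sm_Fz (n := n) (β := β) (σ := σ) hL.pos
    rw [← hF, ← hD] at hS hd
    have hx7 : x * (n : ℝ) ^ ((1 : ℝ) / 17) ≤ 1 := by
      calc x * (n : ℝ) ^ ((1 : ℝ) / 17) ≤ (n : ℝ) ^ (-(1 / 17) : ℝ) * (n : ℝ) ^ ((1 : ℝ) / 17) :=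
            mul_le_mul_of_nonneg_right hx17 (Real.rpow_nonneg hnp.le _)
        _ = 1 := by
            rw [← Real.rpow_add hnp]
            norm_num
    exact fo_of_fdatx_S hn2 hβ (by positivity) (by linarith)
      (by linarith) g3 g2 g1 S hS hx7 hd

/-- **The input `hF` for the deep systems at the scale `x₀`** (`HFat` of `H737.Utc`). -/
theorem hfat {β : ℝ} (hβ : 0 < β)
    (Q : ℝ → ℝ → ℕ → ℝ → (ℕ → ℝ) → (ℕ → ℝ) → ℕ → Prop)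
    (hQ : ∀ c α a : ℝ, 0 < α → 100 * α ≤ c → 8 * c ≤ 1 / 10 → 0 < a → ∃ n₀ : ℕ, ∀ n : ℕ, n₀ ≤ n →
      ∃ (m σ : ℕ → ℝ) (J : ℕ), X7.R1.Lay n β m σ J ∧ Exs m J ((n : ℝ) ^ (-(1 / 20) : ℝ)) ∧
        Q a c n ((n : ℝ) ^ α) m σ J) :
    ∀ κ : ℝ, 0 ≤ κ → κ ≤ 107 / 1000 → ∀ ε α c : ℝ, 0 < α → 100 * α ≤ c → 8 * c = ε →
      ε ≤ 1 / 10 → ∃ n₀ : ℕ, ∀ n : ℕ, n₀ ≤ n → ∀ x0 : ℝ, (n : ℝ) ^ (-(1 / 6) + κ : ℝ) ≤ x0 →
      x0 ≤ (n : ℝ) ^ (-(1 / 6) + κ + α : ℝ) →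
      (n : ℝ) ^ (1 + ε : ℝ) * x0 ^ 4 ≤ VX β n (x0 / 2) →
      ∃ T ρ x : ℝ, X7.R1.PD β Q c n ((n : ℝ) ^ α) T ρ x ∧ 0 < T ∧ T ≤ 1 ∧ 0 < ρ ∧
        2 * ρ ≤ β ^ 2 * n ∧ x0 ≤ x ∧ x ≤ x0 * (n : ℝ) ^ α ∧
        (n : ℝ) ^ (1 + ε - 3 * α) * x0 ^ 6 ≤ x ^ 2 * ρ * T ∧
        ((n : ℝ) ^ (-(1 / 100) : ℝ) ≤ T → 2 * ρ / (β ^ 2 * n) ≤ (n : ℝ) ^ (-(1 / 50) : ℝ)) := by
  intro κ hκ hκ1 ε α c hα h100 h8 hε
  obtain ⟨a, ha, n₀, hout⟩ := deep_hFX hβ ε α hα (by linarith) hε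
  obtain ⟨n₁, hq⟩ := hQ c α a hα h100 (by linarith) ha
  refine ⟨max 1 (max n₀ n₁), fun n hn x0 hl hu hV => ?_⟩
  have hn1 : 1 ≤ n := (le_max_left _ _).trans hn
  have hn0' : n₀ ≤ n := ((le_max_left _ _).trans (le_max_right _ _)).trans hn
  have hn1' : n₁ ≤ n := ((le_max_right _ _).trans (le_max_right _ _)).trans hn
  have hnr : (1 : ℝ) ≤ n := by exact_mod_cast hn1
  have hnp : (0 : ℝ) < n := by linarith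
  obtain ⟨m, σ, J, hL, hE, hQ'⟩ := hq n hn1'
  have hx06 : (n : ℝ) ^ (-(1 / 6) : ℝ) ≤ x0 :=
    (Real.rpow_le_rpow_of_exponent_le hnr (by linarith)).trans hl
  have hx0α : x0 * (n : ℝ) ^ α ≤ (n : ℝ) ^ (-(1 / 17) : ℝ) := by
    calc x0 * (n : ℝ) ^ α ≤ (n : ℝ) ^ (-(1 / 6) + κ + α : ℝ) * (n : ℝ) ^ α := by gcongr
      _ = (n : ℝ) ^ (-(1 / 6) + κ + α + α : ℝ) := (Real.rpow_add hnp _ _).symm
      _ ≤ _ := Real.rpow_le_rpow_of_exponent_le hnr (by linarith)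
  have hLR : R1.Lay n β m σ J := ⟨hL.pos, hL.le, hL.sz⟩
  obtain ⟨x, θ, T, s1, s2, ρ, δ, hg, -, h1, h2, h3, -, h4, h5, h6, h7, h8', h9, h10, h11, hS⟩ :=
    hout n hn0' m σ J hLR x0 hx06 hx0α hV
  have hk : 0 < R1C.kk n β := H946.kk_pos (by omega) hβ
  have hxy : x ≤ (n : ℝ) ^ (-(1 / 20) : ℝ) :=
    (h9.trans hx0α).trans (Real.rpow_le_rpow_of_exponent_le hnr (by norm_num))
  have hE' : Exs m J x := X7.R1.Exs.mono hE h7 hxy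
  refine ⟨T, ρ, x, ⟨a, m, σ, J, θ, s1, s2, δ, hk, hE', ha, hQ', hL, hg, h1, h2, hx06.trans h8',
    hS (R1S.deepCS n hk σ hE') rfl rfl⟩, h3, h4, h5, h6, h8', h9, ?_, h11⟩
  refine le_trans ?_ h10
  exact mul_le_mul_of_nonneg_right (Real.rpow_le_rpow_of_exponent_le hnr (by linarith))
    (pow_nonneg ((Real.rpow_nonneg hnp.le _).trans hx06) 6)

end Vale.Agent.P146.X7.H89
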