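import Vale.Agent.P146.X7.H89_HFat
import Vale.Agent.P146.X7.H737_Fin

/-!
**The exponential moments of the SK free energy at all scales `x ∈ [n^(-1/6), n^(-a)]`,
`a > 179/3000`.**
-/

namespace Vale.Agent.P146.X7.H89

/-- Block F at the scale `x₀`. -/
theorem hFat {β : ℝ} (hβ : 0 < β) : X7.H737.HFat β := hfat hβ

/-- **(UTC)** `log E e^{x (F - E F)} ≤ n^(1+ε) x^6` for all `x ∈ [n^(-1/6), n^(-a)]`. -/
theorem upM {β : ℝ} (hβ : 0 < β) {a : ℝ} (ha : 179 / 3000 < a) : Vale.Agent.P146.H695.UpM β a :=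
  X7.H737.upM_of_hF hβ (hFat hβ) ha

end Vale.Agent.P146.X7.H89
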