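import Vale.Agent.P146.X7.H89_DeepHF
import Vale.Agent.P146.X7.H640_LamCS
import Vale.Agent.P146.H504.Cum9
import Vale.Agent.P146.H260.V14
import Vale.Agent.P146.X7.H706_D4e
import Vale.Agent.P146.H327.Deep6

/-!
Plan R1, all `β`: the data at a scale for the deep functionals of the SK model, in the form of the
end of the contradiction; the choice of the layers and the inputs `hF` and `hL`.
-/

open MeasureTheory ProbabilityTheory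

namespace Vale.Agent.P146.X7.H95


open Vale.Agent.P157.Lv Vale.Agent.P146.H425 Vale.Agent.P146.H332 Vale.Agent.P146.H325
  Vale.Agent.P146.R1 Vale.Agent.P146.R1S Vale.Agent.P146.R1C
open Vale.Agent.P146.X7.H425 Vale.Agent.P146.X7.H332 Vale.Agent.P146.X7.H325 Vale.Agent.P146.X7.R1 Vale.Agent.P146.X7.R1S Vale.Agent.P146.X7.R1C
open Vale.Agent.P146.H785 (Ax)

set_option linter.unusedSectionVars false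

/-- **The layers**: `J0` layers of the same size, separated exponents, and small second
differences on the average over the site, for all scales of the grid. -/
def QD (β : ℝ) (J0 : ℕ) (a c : ℝ) (n : ℕ) (A : ℝ) (m σ : ℕ → ℝ) (J : ℕ) : Prop :=
  J = J0 ∧ (σ = fun _ => sdl (c / 2) n) ∧ (n : ℝ) ^ (-(1 / 12) : ℝ) ≤ 1 / ((J : ℝ) + 1) ∧
    ∃ al h : ℝ, A = (n : ℝ) ^ al ∧ DLay β a al (c / 2) n J (H327.Sb (n := n)) m h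

/-- The data at the scale `(x, T, ρ)`. -/
def PX (β : ℝ) (J0 : ℕ) (c : ℝ) (n : ℕ) (A T ρ x : ℝ) : Prop :=
  PD β (QD β J0) c n A T ρ x ∧ x ≤ (n : ℝ) ^ (-(1 / 6) : ℝ) * A

lemma abs_Sb {n : ℕ} (b : Fin n) (e : Pair n) (σ : Fin n → ℤˣ) : |H327.Sb b e σ| ≤ 1 := by
  unfold H327.Sb
  split_ifs
  · simp
  · exact (H325.abs_pr e.1.1 e.1.2 σ).le

/-- **The choice of the layers.** -/
theorem hQ {β : ℝ} (hβ : 0 < β) (J0 : ℕ) (c α a : ℝ) (hα : 0 < α) (h100 : 100 * α ≤ c)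
    (h8 : 8 * c ≤ 1 / 10) : ∃ n₀ : ℕ, ∀ n : ℕ, n₀ ≤ n →
    ∃ (m σ : ℕ → ℝ) (J : ℕ), Lay n β m σ J ∧ Exs m J ((n : ℝ) ^ (-(1 / 12) : ℝ)) ∧
      QD β J0 a c n ((n : ℝ) ^ α) m σ J := by
  obtain ⟨n₁, hn₁⟩ := d4_out (a := a) (al := α) (e2 := c / 2) hβ (by linarith) (by linarith)
    (by linarith) J0
  have hev := (tendsto_rpow_neg_atTop (show (0 : ℝ) < 1 / 12 by norm_num)).comp
    tendsto_natCast_atTop_atTop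
  have hJ : (0 : ℝ) < 1 / ((J0 : ℝ) + 1) := by positivity
  obtain ⟨n₂, hn₂⟩ := Filter.eventually_atTop.1 (hev.eventually (Iio_mem_nhds hJ))
  refine ⟨max 1 (max n₁ n₂), fun n hn => ?_⟩
  have hn0 : 1 ≤ n := (le_max_left _ _).trans hn
  have h1 : n₁ ≤ n := ((le_max_left _ _).trans (le_max_right _ _)).trans hn
  have h2 : n₂ ≤ n := ((le_max_right _ _).trans (le_max_right _ _)).trans hn
  have : Nonempty (Fin n) := ⟨⟨0, by omega⟩⟩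
  obtain ⟨m, h, hD, hL⟩ := hn₁ n h1 (Fin n) (Fin n → ℤˣ) (H327.Sb (n := n)) abs_Sb
  have h3 : (n : ℝ) ^ (-(1 / 12) : ℝ) ≤ 1 / ((J0 : ℝ) + 1) := le_of_lt (hn₂ n h2)
  have hnp : (0 : ℝ) < n := by exact_mod_cast hn0
  exact ⟨m, _, J0, hL, hD.exs' (Real.rpow_pos_of_pos hnp _) h3, rfl, rfl, h3, α, h, rfl, hD⟩

/-- **The input `hF`.** -/
theorem hF {β : ℝ} (hβ : 0 < β) (J0 : ℕ) :
    ∀ ε α c : ℝ, 0 < α → 100 * α ≤ c → 8 * c = ε → ε ≤ 1 / 10 → ∃ n₀ : ℕ, ∀ n : ℕ, n₀ ≤ n →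
      (n : ℝ) ^ (1 / 3 + ε : ℝ) ≤ Var[freeEnergy n β; disorder n] →
      ∃ T ρ x : ℝ, PX β J0 c n ((n : ℝ) ^ α) T ρ x ∧ 0 < T ∧ T ≤ 1 ∧ 0 < ρ ∧
        2 * ρ ≤ β ^ 2 * n ∧ (n : ℝ) ^ (-(1 / 6) : ℝ) ≤ x ∧ x ≤ (n : ℝ) ^ (-(1 / 6) + α : ℝ) ∧
        (n : ℝ) ^ (ε - 3 * α) ≤ x ^ 2 * ρ * T ∧
        ((n : ℝ) ^ (-(1 / 100) : ℝ) ≤ T → 2 * ρ / (β ^ 2 * n) ≤ (n : ℝ) ^ (-(1 / 8) : ℝ)) := by
  intro ε α c hα h100 h8 hε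
  obtain ⟨n₀, h⟩ := deep_hF14 hβ (QD β J0) (fun c α a h1 h2 h3 _ => hQ hβ J0 c α a h1 h2 h3)
    ε α c hα h100 h8 hε
  refine ⟨max 1 n₀, fun n hn hV => ?_⟩
  have hn1 : 1 ≤ n := (le_max_left _ _).trans hn
  have hnr : (0 : ℝ) < n := by exact_mod_cast hn1
  obtain ⟨T, ρ, x, hP, h1, h2, h3, h4, h5, h6, h7, h9⟩ := h n ((le_max_right _ _).trans hn) hV
  exact ⟨T, ρ, x, ⟨hP, by rwa [Real.rpow_add hnr] at h6⟩, h1, h2, h3, h4, h5, h6, h7, h9⟩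

/-- **The input `hL`.** -/
theorem hL {β : ℝ} (hβ : 0 < β) (J0 : ℕ) :
    ∀ c : ℝ, 0 < c → ∃ C : ℝ, ∃ m : ℕ, ∃ α₀ : ℝ, 0 < α₀ ∧ ∀ α : ℝ, 0 < α → α ≤ α₀ →
      ∃ n₀ : ℕ, ∀ n : ℕ, n₀ ≤ n → ∀ T ρ x : ℝ,
      PX β J0 c n ((n : ℝ) ^ α) T ρ x → T ≤ C * ((n : ℝ) ^ α) ^ m * (√(1 / (n * T)) +
        x * √(2 * ρ / (β ^ 2 * n)) + 2 * ρ / (β ^ 2 * n) + 1 / n) := by
  intro c _
  obtain ⟨C, m, h⟩ := lam_cs_hL (Γ := 4 + 2 * (J0 : ℝ)) hβ (by positivity)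
  refine ⟨C, m, 1, one_pos, fun α hα _ => ?_⟩
  obtain ⟨n₀, hn₀⟩ := h α hα
  refine ⟨n₀, fun n hn T ρ x hP => ?_⟩
  obtain ⟨⟨a, m', σ, J, θ, s1, s2, δ, hk, hE, ha, ⟨hJ, -⟩, hLa, hg, hθ0, hθ1, hx, hFo⟩, -⟩ := hP
  subst hJ
  exact hn₀ n hn ⟨x, θ, 1 - T, 1 - T / 2, s1, s2⟩ (deepCS n hk σ hE) δ T ρ _ _ _ _ _
    (sm_Fdp hE) (fun s => Cum.fn_deepCS hk σ hE s) hFo

/-- **The variance for all `β`, from the kappa inequality.** -/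
theorem var_all_of {β : ℝ} (hβ : 0 < β) {J0 : ℕ}
    (hK : ∀ c : ℝ, 0 < c → ∃ C : ℝ, ∃ m : ℕ, ∃ k α₀ : ℝ, 0 < k ∧ 0 < α₀ ∧ ∀ α : ℝ, 0 < α →
      α ≤ α₀ → ∃ n₀ : ℕ, ∀ n : ℕ, n₀ ≤ n → ∀ T ρ x : ℝ, PX β J0 c n ((n : ℝ) ^ α) T ρ x →
      T ≤ 1 / (n : ℝ) ^ α → (n : ℝ) ^ (-(1 / 6) + c : ℝ) ≤ √(2 * ρ / (β ^ 2 * n)) →
      2 * ρ / (β ^ 2 * n) ≤ C * ((n : ℝ) ^ α) ^ m * (√(1 / (n * T)) +
        x * √(2 * ρ / (β ^ 2 * n)) + ((1 / (x ^ 2 * ρ * T) + 1 / (n * T)) ^ k + x ^ k) *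
          (2 * ρ / (β ^ 2 * n)) + 1 / n)) :
    ∀ ε : ℝ, 0 < ε → ∀ᶠ n : ℕ in Filter.atTop,
      Var[freeEnergy n β; disorder n] < (n : ℝ) ^ (1 / 3 + ε : ℝ) :=
  H260.V14.core hβ.ne' (hF hβ J0) (hL hβ J0) hK

end Vale.Agent.P146.X7.H95
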